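import Vale.Agent.P361.Mods

/-!
P361, module ASYM (helper15).
-/

open MeasureTheory Filter Topology

namespace Vale.Agent.P361.Asym

/-- the limiting constant `1 / sqrt(2 pi)` -/
noncomputable def gam : ℝ := (1 / (2 * Real.pi)) * Real.sqrt (2 * Real.pi)

theorem gam_pos : 0 < gam := by
  unfold gam
  have := Real.pi_pos
  positivity

theorem gam_cube : gam ^ 3 * (8 * Real.pi ^ (3 / 2 : ℝ)) = 2 ^ (3 / 2 : ℝ) := by
  have hpi := Real.pi_pos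
  have h1 : gam = (2 * Real.pi) ^ (-(1 / 2) : ℝ) := by
    unfold gam
    rw [Real.sqrt_eq_rpow, one_div, ← Real.rpow_neg_one (2 * Real.pi), ← Real.rpow_add (by positivity)]
    norm_num
  rw [h1, ← Real.rpow_natCast, ← Real.rpow_mul (by positivity), Real.mul_rpow (by norm_num) hpi.le]
  have h2 : (8 : ℝ) = 2 ^ (3 : ℝ) := by norm_num
  rw [h2]
  calc (2 : ℝ) ^ (-(1 / 2) * ((3 : ℕ) : ℝ)) * Real.pi ^ (-(1 / 2) * ((3 : ℕ) : ℝ)) *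
        (2 ^ (3 : ℝ) * Real.pi ^ (3 / 2 : ℝ))
      = ((2 : ℝ) ^ (-(1 / 2) * ((3 : ℕ) : ℝ)) * 2 ^ (3 : ℝ)) *
        (Real.pi ^ (-(1 / 2) * ((3 : ℕ) : ℝ)) * Real.pi ^ (3 / 2 : ℝ)) := by ring
    _ = 2 ^ (3 / 2 : ℝ) := by
        rw [← Real.rpow_add (by norm_num), ← Real.rpow_add hpi]
        norm_num

theorem gB_ge (t : ℝ) (ht : 0 < t) : (1 / (2 * Real.pi)) *
    ∫ u in (-(Real.sqrt t * Real.pi))..(Real.sqrt t * Real.pi), Real.exp (-(1 / 2) * u ^ 2) ≤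
      Real.sqrt t * gB t := by
  have hpi := Real.pi_pos
  have hst : 0 < Real.sqrt t := Real.sqrt_pos.mpr ht
  have h1 : ∫ κ in (-Real.pi)..Real.pi, Real.exp (-(1 / 2) * (Real.sqrt t * κ) ^ 2) ≤
      ∫ κ in (-Real.pi)..Real.pi, Real.exp (-(t * (1 - Real.cos κ))) := by
    refine intervalIntegral.integral_mono_on (by linarith) ?_ ?_ ?_
    · exact (by fun_prop : Continuous fun κ : ℝ =>
        Real.exp (-(1 / 2) * (Real.sqrt t * κ) ^ 2)).intervalIntegrable _ _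
    · exact (by fun_prop : Continuous fun κ : ℝ =>
        Real.exp (-(t * (1 - Real.cos κ)))).intervalIntegrable _ _
    · intro κ _
      rw [Real.exp_le_exp, mul_pow, Real.sq_sqrt ht.le]
      have h2 : 1 - κ ^ 2 / 2 ≤ Real.cos κ := Real.one_sub_sq_div_two_le_cos
      nlinarith
  rw [intervalIntegral.integral_comp_mul_left (fun u => Real.exp (-(1 / 2) * u ^ 2)) hst.ne'] at h1
  rw [smul_eq_mul, inv_mul_le_iff₀ hst] at h1
  unfold gB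
  have h3 : Real.sqrt t * -Real.pi = -(Real.sqrt t * Real.pi) := by ring
  rw [h3] at h1
  calc (1 / (2 * Real.pi)) *
    ∫ u in (-(Real.sqrt t * Real.pi))..(Real.sqrt t * Real.pi), Real.exp (-(1 / 2) * u ^ 2)
      ≤ (1 / (2 * Real.pi)) * (Real.sqrt t *
        ∫ κ in (-Real.pi)..Real.pi, Real.exp (-(t * (1 - Real.cos κ)))) :=
        mul_le_mul_of_nonneg_left h1 (by positivity)
    _ = _ := by ring

theorem gB_lower (γ : ℝ) (hγ : γ < gam) : ∃ t0 : ℝ, 0 < t0 ∧ ∀ t, t0 ≤ t →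
    γ ≤ Real.sqrt t * gB t := by
  have hpi := Real.pi_pos
  have hsq : Tendsto (fun t : ℝ => Real.sqrt t * Real.pi) atTop atTop :=
    (Real.tendsto_sqrt_atTop).atTop_mul_const hpi
  have h1 : Tendsto (fun t : ℝ => (1 / (2 * Real.pi)) *
      ∫ u in (-(Real.sqrt t * Real.pi))..(Real.sqrt t * Real.pi), Real.exp (-(1 / 2) * u ^ 2))
      atTop (𝓝 gam) := by
    have h2 := intervalIntegral_tendsto_integral (μ := volume)
      (integrable_exp_neg_mul_sq (b := 1 / 2) (by norm_num))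
      (tendsto_neg_atTop_atBot.comp hsq) hsq
    rw [integral_gaussian] at h2
    have h3 : Real.pi / (1 / 2) = 2 * Real.pi := by ring
    rw [h3] at h2
    unfold gam
    exact h2.const_mul _
  have h4 := h1.eventually_const_lt hγ
  rw [eventually_atTop] at h4
  obtain ⟨t0, ht0⟩ := h4
  refine ⟨max t0 1, by positivity, ?_⟩
  intro t ht
  exact ((ht0 t (le_trans (le_max_left _ _) ht)).le).trans
    (gB_ge t (lt_of_lt_of_le one_pos (le_trans (le_max_right _ _) ht)))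

theorem zeta_re : (riemannZeta (3 / 2)).re = ∑' n : ℕ, 1 / (n : ℝ) ^ (3 / 2 : ℝ) := by
  have h1 : riemannZeta (3 / 2) = ∑' n : ℕ, 1 / (n : ℂ) ^ (3 / 2 : ℂ) :=
    zeta_eq_tsum_one_div_nat_cpow (by norm_num)
  have h2 : ∀ n : ℕ, 1 / (n : ℂ) ^ (3 / 2 : ℂ) = ((1 / (n : ℝ) ^ (3 / 2 : ℝ) : ℝ) : ℂ) := by
    intro n
    rw [Complex.ofReal_div, Complex.ofReal_one, Complex.ofReal_cpow (Nat.cast_nonneg n)]
    norm_num
  rw [h1, tsum_congr h2, ← Complex.ofReal_tsum, Complex.ofReal_re]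

theorem zeta_pos : 0 < (riemannZeta (3 / 2)).re := by
  rw [zeta_re]
  have hs : Summable fun n : ℕ => 1 / (n : ℝ) ^ (3 / 2 : ℝ) :=
    Real.summable_one_div_nat_rpow.mpr (by norm_num)
  refine hs.tsum_pos (fun n => by positivity) 1 (by norm_num)

theorem zeta_partial (z : ℝ) (hz : z < (riemannZeta (3 / 2)).re) :
    ∃ M : ℕ, z < ∑ n ∈ Finset.Icc 1 M, 1 / (n : ℝ) ^ (3 / 2 : ℝ) := by
  have hs : Summable fun n : ℕ => 1 / (n : ℝ) ^ (3 / 2 : ℝ) :=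
    Real.summable_one_div_nat_rpow.mpr (by norm_num)
  rw [zeta_re] at hz
  have h1 := (hs.hasSum.tendsto_sum_nat).eventually_const_lt hz
  rw [eventually_atTop] at h1
  obtain ⟨N, hN⟩ := h1
  refine ⟨N, lt_of_lt_of_le (hN N le_rfl) ?_⟩
  calc ∑ i ∈ Finset.range N, 1 / (i : ℝ) ^ (3 / 2 : ℝ)
      ≤ ∑ i ∈ Finset.range (N + 1), 1 / (i : ℝ) ^ (3 / 2 : ℝ) := by
        rw [Finset.sum_range_succ]
        have : 0 ≤ 1 / (N : ℝ) ^ (3 / 2 : ℝ) := by positivity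
        linarith
    _ = ∑ n ∈ Finset.Icc 1 N, 1 / (n : ℝ) ^ (3 / 2 : ℝ) := by
        rw [Finset.sum_range_succ']
        have h0 : (1 : ℝ) / ((0 : ℕ) : ℝ) ^ (3 / 2 : ℝ) = 0 := by
          rw [Nat.cast_zero, Real.zero_rpow (by norm_num), div_zero]
        rw [h0, add_zero]
        rw [Finset.range_eq_Ico, Finset.sum_Ico_add' (fun n : ℕ => 1 / (n : ℝ) ^ (3 / 2 : ℝ)) 0 N 1]
        rfl

/-- the choice of the accuracy -/
theorem exists_rho (s : ℕ) (c : ℝ) (hc : c < blochC s) : ∃ ρ : ℝ, 0 < ρ ∧ ρ < 1 ∧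
    c < ρ ^ 7 * blochC s := by
  have h1 : Tendsto (fun ρ : ℝ => ρ ^ 7 * blochC s) (𝓝[<] 1) (𝓝 (1 ^ 7 * blochC s)) :=
    ((by fun_prop : Continuous fun ρ : ℝ => ρ ^ 7 * blochC s).tendsto 1).mono_left
      nhdsWithin_le_nhds
  rw [one_pow, one_mul] at h1
  have h2 := h1.eventually_const_lt hc
  have h3 : ∀ᶠ ρ : ℝ in 𝓝[<] 1, 0 < ρ :=
    (isOpen_Ioi.mem_nhds (show (1 : ℝ) ∈ Set.Ioi 0 by norm_num) |> nhdsWithin_le_nhds)
  have h4 : ∀ᶠ ρ : ℝ in 𝓝[<] 1, ρ < 1 := self_mem_nhdsWithin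
  obtain ⟨ρ, hρ⟩ := ((h2.and h3).and h4).exists
  exact ⟨ρ, hρ.1.2, hρ.2, hρ.1.1⟩

theorem sqrt_cube (x : ℝ) (hx : 0 ≤ x) : Real.sqrt x ^ 3 = x ^ (3 / 2 : ℝ) := by
  rw [Real.sqrt_eq_rpow, ← Real.rpow_natCast, ← Real.rpow_mul hx]
  norm_num

/-- one term of the sum -/
theorem term_ge (γ t : ℝ) (hγ : 0 ≤ γ) (ht : 0 < t) (h : γ ≤ Real.sqrt t * gB t) :
    γ ^ 3 / t ^ (3 / 2 : ℝ) ≤ gB t ^ 3 := by
  have hst : 0 < Real.sqrt t := Real.sqrt_pos.mpr ht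
  rw [← sqrt_cube t ht.le, div_le_iff₀ (pow_pos hst 3), ← mul_pow, mul_comm (gB t)]
  exact pow_le_pow_left₀ hγ h 3

theorem rs_le (s : ℕ) (ρ r : ℝ) (hρ0 : 0 < ρ) (hρ1 : ρ < 1) (hr : 0 < r) (hr2 : r ≤ 1 / ρ) :
    (r * s) ^ (3 / 2 : ℝ) ≤ (s : ℝ) ^ (3 / 2 : ℝ) / ρ ^ 2 := by
  have hs0 : (0 : ℝ) ≤ s := Nat.cast_nonneg s
  have h1 : (r * s) ^ (3 / 2 : ℝ) ≤ ((1 / ρ) * s) ^ (3 / 2 : ℝ) :=
    Real.rpow_le_rpow (mul_nonneg hr.le hs0) (mul_le_mul_of_nonneg_right hr2 hs0) (by norm_num)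
  have h1' : ((1 / ρ) * (s : ℝ)) ^ (3 / 2 : ℝ) = (1 / ρ) ^ (3 / 2 : ℝ) * (s : ℝ) ^ (3 / 2 : ℝ) :=
    Real.mul_rpow (by positivity) hs0
  rw [h1'] at h1
  have h2 : (1 / ρ) ^ (3 / 2 : ℝ) ≤ (1 / ρ) ^ (2 : ℝ) := by
    refine Real.rpow_le_rpow_of_exponent_le ?_ (by norm_num)
    rw [le_div_iff₀ hρ0]
    linarith
  have h3 : (1 / ρ : ℝ) ^ (2 : ℝ) = 1 / ρ ^ 2 := by
    rw [show (2 : ℝ) = ((2 : ℕ) : ℝ) by norm_num, Real.rpow_natCast, one_div, inv_pow, one_div]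
  rw [h3] at h2
  calc (r * s) ^ (3 / 2 : ℝ) ≤ (1 / ρ) ^ (3 / 2 : ℝ) * (s : ℝ) ^ (3 / 2 : ℝ) := h1
    _ ≤ (1 / ρ ^ 2) * (s : ℝ) ^ (3 / 2 : ℝ) :=
        mul_le_mul_of_nonneg_right h2 (Real.rpow_nonneg hs0 _)
    _ = _ := by ring

theorem blochC_eq (s : ℕ) (hs : 1 ≤ s) :
    blochC s = gam ^ 3 * (riemannZeta (3 / 2)).re / (s : ℝ) ^ (3 / 2 : ℝ) := by
  have hS : (0 : ℝ) < s := by exact_mod_cast hs
  unfold blochC
  have h1 : ((s : ℝ) / 2) ^ (3 / 2 : ℝ) * 2 ^ (3 / 2 : ℝ) = (s : ℝ) ^ (3 / 2 : ℝ) := by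
    rw [← Real.mul_rpow (by positivity) (by norm_num)]
    congr 1
    ring
  have h2 := gam_cube
  have hpi := Real.pi_pos
  have h3 : 0 < Real.pi ^ (3 / 2 : ℝ) := Real.rpow_pos_of_pos hpi _
  have h4 : 0 < ((s : ℝ) / 2) ^ (3 / 2 : ℝ) := Real.rpow_pos_of_pos (by positivity) _
  have hg := gam_pos
  rw [← h1, ← h2]
  field_simp

/-- one term -/
theorem term_bound (s n : ℕ) (hs : 1 ≤ s) (hn : 1 ≤ n) (γ β r t0 : ℝ) (hγ : 0 ≤ γ) (hβ : 0 < β)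
    (ht0 : t0 ≤ β) (hr : 1 ≤ r) (h : ∀ t, t0 ≤ t → γ ≤ Real.sqrt t * gB t) :
    γ ^ 3 / (β ^ (3 / 2 : ℝ) * (r * s) ^ (3 / 2 : ℝ)) * (1 / (n : ℝ) ^ (3 / 2 : ℝ)) ≤
      gB (n * β * r * s) ^ 3 := by
  have hS : (1 : ℝ) ≤ s := by exact_mod_cast hs
  have hn1 : (1 : ℝ) ≤ n := by exact_mod_cast hn
  have hnpos : (0 : ℝ) < n := by linarith
  have hrs1 : 1 ≤ r * s := one_le_mul_of_one_le_of_one_le hr hS
  have hrs : 0 < r * s := by linarith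
  have ht : (n : ℝ) * β * r * s = n * (β * (r * s)) := by ring
  have htt : t0 ≤ (n : ℝ) * β * r * s := by
    rw [ht]
    have h1 : β ≤ β * (r * s) := le_mul_of_one_le_right hβ.le hrs1
    have h2 : β * (r * s) ≤ n * (β * (r * s)) := le_mul_of_one_le_left (by positivity) hn1
    linarith
  have hpos : 0 < (n : ℝ) * β * r * s := by
    rw [ht]
    positivity
  have h2 := term_ge γ ((n : ℝ) * β * r * s) hγ hpos (h _ htt)
  refine le_trans (le_of_eq ?_) h2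
  rw [ht, Real.mul_rpow hnpos.le (by positivity), Real.mul_rpow hβ.le hrs.le]
  have h3 : 0 < (n : ℝ) ^ (3 / 2 : ℝ) := Real.rpow_pos_of_pos hnpos _
  have h4 : 0 < β ^ (3 / 2 : ℝ) := Real.rpow_pos_of_pos hβ _
  have h5 : 0 < (r * s) ^ (3 / 2 : ℝ) := Real.rpow_pos_of_pos hrs _
  field_simp

/-- the final computation -/
theorem final_ge (s : ℕ) (hs : 1 ≤ s) (ρ P R : ℝ) (hρ0 : 0 < ρ) (hP : 0 < P) (hR : 0 < R)
    (hRle : R ≤ (s : ℝ) ^ (3 / 2 : ℝ) / ρ ^ 2) :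
    ρ ^ 7 * blochC s ≤
      P * (ρ * ((ρ * gam) ^ 3 / (P * R) * (ρ * (riemannZeta (3 / 2)).re))) := by
  have hS : (0 : ℝ) < s := by exact_mod_cast hs
  have hz := zeta_pos
  have hg := gam_pos
  rw [blochC_eq s hs]
  set z := (riemannZeta (3 / 2)).re with hzdef
  set T : ℝ := (s : ℝ) ^ (3 / 2 : ℝ) with hT
  have hTpos : 0 < T := Real.rpow_pos_of_pos hS _
  have h8 : P * (ρ * ((ρ * gam) ^ 3 / (P * R) * (ρ * z))) = ρ ^ 5 * gam ^ 3 * z / R := by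
    field_simp
  rw [h8, le_div_iff₀ hR]
  calc ρ ^ 7 * (gam ^ 3 * z / T) * R
      ≤ ρ ^ 7 * (gam ^ 3 * z / T) * (T / ρ ^ 2) :=
        mul_le_mul_of_nonneg_left hRle (by positivity)
    _ = ρ ^ 5 * gam ^ 3 * z := by
        field_simp

/-- elementary consequences of a small defect -/
theorem small_defect (s : ℕ) (hs : 1 ≤ s) (ρ m : ℝ) (hρ0 : 0 < ρ) (hρ1 : ρ < 1)
    (hm : m ≤ (s : ℝ) / 2) (h : (s : ℝ) / 2 - m < (s : ℝ) / 2 * (1 - ρ) / 2) :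
    0 < m ∧ ρ ≤ m / ((s : ℝ) / 2) ∧ 1 ≤ ((s : ℝ) - m) / m ∧ ((s : ℝ) - m) / m ≤ 1 / ρ := by
  have hS : (1 : ℝ) ≤ s := by exact_mod_cast hs
  have hs2 : 0 < (s : ℝ) / 2 := by linarith
  have h1 : ρ * ((s : ℝ) / 2) ≤ m := by
    have h2 : 0 ≤ (s : ℝ) / 2 * (1 - ρ) := mul_nonneg hs2.le (by linarith)
    linarith
  have hmpos : 0 < m := lt_of_lt_of_le (mul_pos hρ0 hs2) h1
  refine ⟨hmpos, ?_, ?_, ?_⟩
  · rw [le_div_iff₀ hs2]
    exact h1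
  · rw [le_div_iff₀ hmpos]
    linarith
  · rw [div_le_div_iff₀ hmpos hρ0]
    have h3 : 0 ≤ (s : ℝ) / 2 - m := by linarith
    have h4 : ρ * ((s : ℝ) / 2 - m) ≤ (s : ℝ) / 2 - m := by nlinarith
    linarith

theorem asym_proof : ASYM := by
  intro s hs c hc
  have hS : (1 : ℝ) ≤ s := by exact_mod_cast hs
  rcases le_or_gt c 0 with hc0 | hc0
  · refine ⟨1, one_pos, ?_⟩
    intro β hβ m hm _
    exact hc0.trans (mul_nonneg (Real.rpow_nonneg (by linarith) _) (by linarith))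
  obtain ⟨ρ, hρ0, hρ1, hρ⟩ := exists_rho s c hc
  have hz := zeta_pos
  have hg := gam_pos
  obtain ⟨t0, ht0, hgB⟩ := gB_lower (ρ * gam) (mul_lt_of_lt_one_left hg hρ1)
  obtain ⟨M, hM⟩ := zeta_partial (ρ * (riemannZeta (3 / 2)).re) (mul_lt_of_lt_one_left hz hρ1)
  have hηpos : 0 < (s : ℝ) / 2 * (1 - ρ) / 2 := by
    have : 0 < 1 - ρ := by linarith
    positivity
  refine ⟨max 1 (max t0 (c / ((s : ℝ) / 2 * (1 - ρ) / 2))), by positivity, ?_⟩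
  intro β hβ m hm hbound
  have hβ1 : 1 ≤ β := le_trans (le_max_left _ _) hβ
  have hβ2 : t0 ≤ β := le_trans (le_trans (le_max_left _ _) (le_max_right _ _)) hβ
  have hβ3 : c / ((s : ℝ) / 2 * (1 - ρ) / 2) ≤ β :=
    le_trans (le_trans (le_max_right _ _) (le_max_right _ _)) hβ
  have hβpos : 0 < β := by linarith
  by_contra hcon
  push Not at hcon
  have hPpos : 0 < β ^ (3 / 2 : ℝ) := Real.rpow_pos_of_pos hβpos _
  have hPβ : β ≤ β ^ (3 / 2 : ℝ) := by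
    calc β = β ^ (1 : ℝ) := (Real.rpow_one β).symm
      _ ≤ β ^ (3 / 2 : ℝ) := Real.rpow_le_rpow_of_exponent_le hβ1 (by norm_num)
  have hδη : (s : ℝ) / 2 - m < (s : ℝ) / 2 * (1 - ρ) / 2 := by
    rw [div_le_iff₀ hηpos] at hβ3
    have h1 : c ≤ β ^ (3 / 2 : ℝ) * ((s : ℝ) / 2 * (1 - ρ) / 2) :=
      hβ3.trans (mul_le_mul_of_nonneg_right hPβ hηpos.le)
    have h2 : β ^ (3 / 2 : ℝ) * ((s : ℝ) / 2 - m) <
        β ^ (3 / 2 : ℝ) * ((s : ℝ) / 2 * (1 - ρ) / 2) := lt_of_lt_of_le hcon h1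
    exact lt_of_mul_lt_mul_left h2 hPpos.le
  obtain ⟨hmpos, hmS, hr1, hr2⟩ := small_defect s hs ρ m hρ0 hρ1 hm hδη
  have hb := hbound hmpos M
  set r : ℝ := ((s : ℝ) - m) / m with hr
  have hrs : 0 < r * s := mul_pos (by linarith) (by linarith)
  have hRpos : 0 < (r * s) ^ (3 / 2 : ℝ) := Real.rpow_pos_of_pos hrs _
  have hsum : (ρ * gam) ^ 3 / (β ^ (3 / 2 : ℝ) * (r * s) ^ (3 / 2 : ℝ)) *
      (ρ * (riemannZeta (3 / 2)).re) ≤ ∑ n ∈ Finset.Icc 1 M, gB (n * β * r * s) ^ 3 := by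
    refine le_trans ?_ (Finset.sum_le_sum fun n hn => term_bound s n hs (Finset.mem_Icc.mp hn).1
      (ρ * gam) β r t0 (by positivity) hβpos hβ2 hr1 hgB)
    rw [← Finset.mul_sum]
    exact mul_le_mul_of_nonneg_left hM.le (by positivity)
  have hfin : ρ * ((ρ * gam) ^ 3 / (β ^ (3 / 2 : ℝ) * (r * s) ^ (3 / 2 : ℝ)) *
      (ρ * (riemannZeta (3 / 2)).re)) ≤ (s : ℝ) / 2 - m := by
    refine le_trans ?_ hb
    exact mul_le_mul hmS hsum (by positivity) (le_trans hρ0.le hmS)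
  have hlow := final_ge s hs ρ (β ^ (3 / 2 : ℝ)) ((r * s) ^ (3 / 2 : ℝ)) hρ0 hPpos hRpos
    (rs_le s ρ r hρ0 hρ1 (by linarith) hr2)
  have h9 := mul_le_mul_of_nonneg_left hfin hPpos.le
  linarith

end Vale.Agent.P361.Asym
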