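import Vale.Agent.P361.Mods

/-!
# P361, module BOSE: the Bose-Einstein integral from the partial sums
-/

open MeasureTheory

namespace Vale.Agent.P361.Bo

lemma sum_shift (f : ℕ → ℝ) (M : ℕ) :
    ∑ n ∈ Finset.Icc 1 M, f n = ∑ i ∈ Finset.range M, f (i + 1) := by
  induction M with
  | zero => simp
  | succ M ih => rw [Finset.sum_Icc_succ_top (by omega), Finset.sum_range_succ, ih]

lemma geom (x : ℝ) (hx : 0 < x) :
    ENNReal.ofReal ((Real.exp x - 1)⁻¹) = ∑' n : ℕ, ENNReal.ofReal (Real.exp (-(((n : ℝ) + 1) * x))) := by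
  have h1 : Real.exp (-x) < 1 := Real.exp_lt_one_iff.mpr (by linarith)
  have h0 : 0 ≤ Real.exp (-x) := (Real.exp_pos _).le
  have h2 : ∀ n : ℕ, Real.exp (-(((n : ℝ) + 1) * x)) = Real.exp (-x) * Real.exp (-x) ^ n := by
    intro n
    rw [← Real.exp_nat_mul, ← Real.exp_add]
    congr 1
    ring
  have hs : HasSum (fun n : ℕ => Real.exp (-(((n : ℝ) + 1) * x)))
      (Real.exp (-x) * (1 - Real.exp (-x))⁻¹) := by
    simp_rw [h2]
    exact (hasSum_geometric_of_lt_one h0 h1).mul_left _
  have h3 : Real.exp (-x) * (1 - Real.exp (-x))⁻¹ = (Real.exp x - 1)⁻¹ := by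
    rw [Real.exp_neg]
    have h4 : 1 < Real.exp x := Real.one_lt_exp_iff.mpr hx
    have h5 : Real.exp x - 1 ≠ 0 := by linarith
    have h6 : Real.exp x ≠ 0 := (Real.exp_pos x).ne'
    have h7 : 1 - (Real.exp x)⁻¹ ≠ 0 := by
      rw [sub_ne_zero]
      intro h
      have := inv_lt_one_of_one_lt₀ h4
      linarith
    field_simp
  rw [← h3, ← hs.tsum_eq, ENNReal.ofReal_tsum_of_nonneg (fun n => (Real.exp_pos _).le) hs.summable]

theorem bose_proof (hG : GINT) : BOSE := by
  intro t ht B hB
  set E : (Fin 3 → ℝ) → ℝ := fun k => ∑ j, (1 - Real.cos (k j)) with hE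
  set S : Set (Fin 3 → ℝ) := Set.Icc (fun _ => -Real.pi) (fun _ => Real.pi) with hS
  have hE0 : ∀ k, 0 ≤ E k := fun k =>
    Finset.sum_nonneg fun j _ => by linarith [Real.cos_le_one (k j)]
  have hEc : Continuous E := by
    rw [hE]
    fun_prop
  have hB0 : 0 ≤ B := by simpa using hB 0
  have hcomp : IsCompact S := isCompact_Icc
  have hint : ∀ n : ℕ, IntegrableOn (fun k => Real.exp (-(((n : ℝ) + 1) * t * E k))) S := by
    intro n
    apply ContinuousOn.integrableOn_compact hcomp
    apply Continuous.continuousOn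
    fun_prop
  have hval : ∀ n : ℕ, ∫⁻ k in S, ENNReal.ofReal (Real.exp (-(((n : ℝ) + 1) * t * E k))) =
      ENNReal.ofReal ((2 * Real.pi) ^ 3 * gB (((n : ℝ) + 1) * t) ^ 3) := by
    intro n
    rw [← hG (((n : ℝ) + 1) * t),
      ofReal_integral_eq_lintegral_ofReal (hint n) (Filter.Eventually.of_forall fun k => (Real.exp_pos _).le)]
  have hgB : ∀ t, 0 ≤ gB t := by
    intro t
    unfold gB
    apply mul_nonneg (by positivity)
    apply intervalIntegral.integral_nonneg (by linarith [Real.pi_pos])
    intro x _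
    exact (Real.exp_pos _).le
  have hmeas : Measurable (fun k : Fin 3 → ℝ => (Real.exp (t * E k) - 1)⁻¹) := by
    apply Measurable.inv
    apply Continuous.measurable
    fun_prop
  have hnn : ∀ k, 0 ≤ (Real.exp (t * E k) - 1)⁻¹ := by
    intro k
    apply inv_nonneg.mpr
    have := Real.add_one_le_exp (t * E k)
    have := mul_nonneg ht.le (hE0 k)
    linarith
  have hlin : ∫⁻ k in S, ENNReal.ofReal ((Real.exp (t * E k) - 1)⁻¹) ≤
      ENNReal.ofReal ((2 * Real.pi) ^ 3 * B) := by
    calc ∫⁻ k in S, ENNReal.ofReal ((Real.exp (t * E k) - 1)⁻¹)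
        ≤ ∫⁻ k in S, ∑' n : ℕ, ENNReal.ofReal (Real.exp (-(((n : ℝ) + 1) * t * E k))) := by
          apply lintegral_mono
          intro k
          simp only
          rcases (hE0 k).eq_or_lt with h | h
          · rw [← h]
            simp
          · rw [geom (t * E k) (mul_pos ht h)]
            simp_rw [mul_assoc]
            exact le_rfl
      _ = ∑' n : ℕ, ∫⁻ k in S, ENNReal.ofReal (Real.exp (-(((n : ℝ) + 1) * t * E k))) := by
          apply lintegral_tsum
          intro n
          apply Measurable.aemeasurable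
          apply ENNReal.measurable_ofReal.comp
          apply Continuous.measurable
          fun_prop
      _ = ∑' n : ℕ, ENNReal.ofReal ((2 * Real.pi) ^ 3 * gB (((n : ℝ) + 1) * t) ^ 3) := by
          simp_rw [hval]
      _ ≤ ENNReal.ofReal ((2 * Real.pi) ^ 3 * B) := by
          apply ENNReal.tsum_le_of_sum_range_le
          intro M
          rw [← ENNReal.ofReal_sum_of_nonneg]
          · apply ENNReal.ofReal_le_ofReal
            rw [← Finset.mul_sum]
            apply mul_le_mul_of_nonneg_left _ (by positivity)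
            have := hB M
            rw [sum_shift (fun n => gB (n * t) ^ 3)] at this
            push_cast at this
            exact this
          · intro n _
            exact mul_nonneg (by positivity) (pow_nonneg (hgB _) 3)
  have hI : IntegrableOn (fun k => (Real.exp (t * E k) - 1)⁻¹) S := by
    refine ⟨hmeas.aestronglyMeasurable, ?_⟩
    rw [hasFiniteIntegral_iff_ofReal (Filter.Eventually.of_forall hnn)]
    exact lt_of_le_of_lt hlin ENNReal.ofReal_lt_top
  refine ⟨hI, ?_⟩
  have h1 : ∫ k in S, (Real.exp (t * E k) - 1)⁻¹ ≤ (2 * Real.pi) ^ 3 * B := by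
    rw [integral_eq_lintegral_of_nonneg_ae (Filter.Eventually.of_forall hnn) hmeas.aestronglyMeasurable]
    apply ENNReal.toReal_le_of_le_ofReal (mul_nonneg (by positivity) hB0) hlin
  have h2 : 0 < (2 * Real.pi) ^ 3 := by positivity
  rw [one_div, inv_mul_le_iff₀ h2]
  exact h1

end Vale.Agent.P361.Bo
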