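import Vale.Agent.P361.Mods

/-!
# P361, module CONVX: convexity of the finite-volume pressure in the field
-/

open scoped Matrix ComplexOrder

namespace Vale.Agent.P361.Cx

section gen
variable {V : Type} [Fintype V] [DecidableEq V] {s : ℕ}

lemma onSite_sub (hS : SITE) (x : V) (A B : LOp s) :
    onSite x (A - B) = onSite x A - onSite x B := by
  obtain ⟨-, hadd, hsmul, -, -, -, -⟩ := hS V s
  rw [sub_eq_add_neg, hadd, ← neg_one_smul ℂ B, hsmul, neg_one_smul, ← sub_eq_add_neg]

lemma mag_comm (hS : SITE) (x : V) (A : LOp s) (c : ℂ) (hA : s3 s * A - A * s3 s = c • A) :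
    mag V s * onSite x A - onSite x A * mag V s = c • onSite x A := by
  obtain ⟨hmul, hadd, hsmul, -, -, hcomm, -⟩ := hS V s
  unfold mag
  rw [Finset.sum_mul, Finset.mul_sum, ← Finset.sum_sub_distrib]
  rw [Finset.sum_eq_single x]
  · rw [← hmul, ← hmul, ← onSite_sub hS, hA, hsmul]
  · intro z _ hz
    rw [hcomm z x _ _ hz, sub_self]
  · intro h
    exact absurd (Finset.mem_univ x) h

lemma mul_comm_aux {n : Type} [Fintype n] (M A B : Matrix n n ℂ) (c d : ℂ)
    (hA : M * A - A * M = c • A) (hB : M * B - B * M = d • B) :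
    M * (A * B) - (A * B) * M = (c + d) • (A * B) := by
  have h : M * (A * B) - (A * B) * M = (M * A - A * M) * B + A * (M * B - B * M) := by
    noncomm_ring
  rw [h, hA, hB, Matrix.smul_mul, Matrix.mul_smul, add_smul]

lemma mag_dot (hS : SITE) (hL : LOC) (hD : DOTF) (x y : V) (hxy : x ≠ y) :
    mag V s * dot s x y - dot s x y * mag V s = 0 := by
  obtain ⟨⟨hP, -, -⟩, -, -, -, -, h3⟩ := hL s
  have hQ : s3 s * (sPlus s)ᴴ - (sPlus s)ᴴ * s3 s = (-1 : ℂ) • (sPlus s)ᴴ := by
    have h := congrArg Matrix.conjTranspose hP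
    rw [Matrix.conjTranspose_sub, Matrix.conjTranspose_mul, Matrix.conjTranspose_mul, h3.eq] at h
    rw [neg_one_smul, ← neg_sub, h]
  have e1 := mag_comm (V := V) hS x (sPlus s) 1 (by rw [one_smul]; exact hP)
  have e2 := mag_comm (V := V) hS y (sPlus s) 1 (by rw [one_smul]; exact hP)
  have e3 := mag_comm (V := V) hS x _ _ hQ
  have e4 := mag_comm (V := V) hS y _ _ hQ
  have e5 := mag_comm (V := V) hS x (s3 s) 0 (by rw [zero_smul, sub_self])
  have e6 := mag_comm (V := V) hS y (s3 s) 0 (by rw [zero_smul, sub_self])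
  have f1 := mul_comm_aux _ _ _ _ _ e5 e6
  have f2 := mul_comm_aux _ _ _ _ _ e1 e4
  have f3 := mul_comm_aux _ _ _ _ _ e3 e2
  rw [add_zero, zero_smul] at f1
  rw [show (1 : ℂ) + -1 = 0 by ring, zero_smul] at f2
  rw [show (-1 : ℂ) + 1 = 0 by ring, zero_smul] at f3
  rw [hD V s x y hxy]
  rw [mul_add, add_mul, Matrix.mul_smul, Matrix.smul_mul, mul_add, add_mul]
  rw [sub_eq_zero] at f1 f2 f3
  rw [f1, f2, f3, sub_self]

lemma mag_ham (hS : SITE) (hL : LOC) (hD : DOTF) (adj : V → V → Prop)
    (hadj : ∀ x y, adj x y → x ≠ y) : Commute (ham s adj) (mag V s) := by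
  unfold ham
  apply Commute.symm
  apply Commute.neg_right
  apply Commute.smul_right
  apply Commute.sum_right
  intro x _
  apply Commute.sum_right
  intro y _
  split_ifs with h
  · have := mag_dot (s := s) hS hL hD x y (hadj x y h)
    exact sub_eq_zero.mp this
  · exact Commute.zero_right _

/-- The total value of the third component of the spin. -/
noncomputable def mval (s : ℕ) (σ : V → Fin (s + 1)) : ℝ := ∑ x, (((σ x : ℕ) : ℝ) - (s : ℝ) / 2)

lemma mag_diag (hS : SITE) :
    mag V s = Matrix.diagonal (fun σ : V → Fin (s + 1) => ((mval s σ : ℝ) : ℂ)) := by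
  obtain ⟨-, -, -, -, -, -, hdiag⟩ := hS V s
  unfold mag s3
  ext σ τ
  rw [Matrix.sum_apply]
  simp_rw [hdiag]
  by_cases h : σ = τ
  · subst h
    simp only [Matrix.diagonal_apply_eq, mval]
    push_cast
    rfl
  · simp [Matrix.diagonal_apply_ne _ h]

omit [DecidableEq V] in
lemma mval_bound (σ : V → Fin (s + 1)) : |mval s σ| ≤ Fintype.card V * ((s : ℝ) / 2) := by
  unfold mval
  refine (Finset.abs_sum_le_sum_abs _ _).trans ?_
  rw [← nsmul_eq_mul, ← Finset.card_univ]
  apply Finset.sum_le_card_nsmul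
  intro x _
  have h1 : ((σ x : ℕ) : ℝ) ≤ s := by
    exact_mod_cast Nat.lt_succ_iff.mp (σ x).2
  have h2 : (0 : ℝ) ≤ ((σ x : ℕ) : ℝ) := Nat.cast_nonneg _
  rw [abs_le]
  constructor <;> linarith

lemma gibbs_fact (hS : SITE) (hL : LOC) (hD : DOTF) (adj : V → V → Prop)
    (hadj : ∀ x y, adj x y → x ≠ y) (β h : ℝ) :
    gibbs s adj β h = gibbs s adj β 0 *
      Matrix.diagonal (fun σ : V → Fin (s + 1) => ((Real.exp (β * h * mval s σ) : ℝ) : ℂ)) := by
  have hc := mag_ham (s := s) hS hL hD adj hadj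
  unfold gibbs
  have e1 : -((β : ℂ) • (ham s adj - (h : ℂ) • mag V s)) =
      -((β : ℂ) • (ham s adj - ((0 : ℝ) : ℂ) • mag V s)) + ((β * h : ℝ) : ℂ) • mag V s := by
    push_cast
    rw [zero_smul, sub_zero, smul_sub, smul_smul]
    abel
  rw [e1, Matrix.exp_add_of_commute]
  · congr 1
    rw [mag_diag hS, ← Matrix.diagonal_smul, Matrix.exp_diagonal]
    congr 1
    rw [Pi.exp_def]
    ext σ
    rw [← Complex.exp_eq_exp_ℂ]
    simp only [Pi.smul_apply, smul_eq_mul]
    push_cast
    rfl
  · push_cast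
    rw [zero_smul, sub_zero]
    apply Commute.neg_left
    apply Commute.smul_left
    apply Commute.smul_right
    exact hc

lemma part_eq (hS : SITE) (hL : LOC) (hD : DOTF) (adj : V → V → Prop)
    (hadj : ∀ x y, adj x y → x ≠ y) (β h : ℝ) :
    part s adj β h = ∑ σ : V → Fin (s + 1), (gibbs s adj β 0 σ σ).re * Real.exp (β * h * mval s σ) := by
  unfold part
  rw [gibbs_fact hS hL hD adj hadj β h, Matrix.trace, Complex.re_sum]
  apply Finset.sum_congr rfl
  intro σ _
  rw [Matrix.diag_apply, Matrix.mul_diagonal, Complex.re_mul_ofReal]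

lemma exmag_eq (hS : SITE) (hL : LOC) (hD : DOTF) (adj : V → V → Prop)
    (hadj : ∀ x y, adj x y → x ≠ y) (β h : ℝ) :
    ex s adj β h (mag V s) =
      ∑ σ : V → Fin (s + 1), (gibbs s adj β 0 σ σ).re * Real.exp (β * h * mval s σ) * mval s σ := by
  unfold ex
  rw [gibbs_fact hS hL hD adj hadj β h, mag_diag hS, Matrix.trace, Complex.re_sum]
  apply Finset.sum_congr rfl
  intro σ _
  rw [Matrix.diag_apply, Matrix.mul_diagonal, Matrix.mul_diagonal, Complex.re_mul_ofReal,
    Complex.re_mul_ofReal]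

end gen

/-- The supporting line of the logarithm of a sum of exponentials. -/
lemma support {ι : Type} [Fintype ι] (c m : ι → ℝ) (hc : ∀ i, 0 ≤ c i)
    (β : ℝ) (h : ℝ) (hpos : 0 < ∑ i, c i * Real.exp (β * h * m i)) (h' : ℝ) :
    Real.log (∑ i, c i * Real.exp (β * h * m i)) +
      (h' - h) * (β * ((∑ i, c i * Real.exp (β * h * m i) * m i) /
        ∑ i, c i * Real.exp (β * h * m i))) ≤ Real.log (∑ i, c i * Real.exp (β * h' * m i)) := by
  set Z := ∑ i, c i * Real.exp (β * h * m i) with hZ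
  set μ := (∑ i, c i * Real.exp (β * h * m i) * m i) / Z with hμ
  have key : Z * Real.exp ((h' - h) * (β * μ)) ≤ ∑ i, c i * Real.exp (β * h' * m i) := by
    have h1 : ∀ i, c i * Real.exp (β * h * m i) * (Real.exp ((h' - h) * (β * μ)) *
        ((h' - h) * β * (m i - μ) + 1)) ≤ c i * Real.exp (β * h' * m i) := by
      intro i
      have h2 : Real.exp (β * h' * m i) = Real.exp (β * h * m i) *
          (Real.exp ((h' - h) * (β * μ)) * Real.exp ((h' - h) * β * (m i - μ))) := by
        rw [← Real.exp_add, ← Real.exp_add]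
        congr 1
        ring
      rw [h2, ← mul_assoc (c i)]
      apply mul_le_mul_of_nonneg_left _ (mul_nonneg (hc i) (Real.exp_pos _).le)
      apply mul_le_mul_of_nonneg_left _ (Real.exp_pos _).le
      exact Real.add_one_le_exp _
    have h3 := Finset.sum_le_sum fun i (_ : i ∈ Finset.univ) => h1 i
    refine le_trans (le_of_eq ?_) h3
    have h4 : ∑ i, c i * Real.exp (β * h * m i) * (Real.exp ((h' - h) * (β * μ)) *
        ((h' - h) * β * (m i - μ) + 1)) =
        Real.exp ((h' - h) * (β * μ)) * ((h' - h) * β *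
          ((∑ i, c i * Real.exp (β * h * m i) * m i) - μ * Z) + Z) := by
      rw [hZ, Finset.mul_sum, ← Finset.sum_sub_distrib, Finset.mul_sum, ← Finset.sum_add_distrib,
        Finset.mul_sum]
      apply Finset.sum_congr rfl
      intro i _
      ring
    rw [h4, hμ, div_mul_cancel₀ _ hpos.ne']
    ring
  have hpos2 : 0 < Z * Real.exp ((h' - h) * (β * μ)) := mul_pos hpos (Real.exp_pos _)
  have := Real.log_le_log hpos2 key
  rwa [Real.log_mul hpos.ne' (Real.exp_pos _).ne', Real.log_exp] at this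

lemma nn_ne {N : ℕ} (x y : Box N) (h : nn x y) : x ≠ y := by
  rintro rfl
  unfold nn at h
  simp at h

theorem convx_proof (hS : SITE) (hL : LOC) (hD : DOTF) (hG : GIB) : CONVX := by
  intro s N β hβ
  have hadj : ∀ x y : Box N, nn x y → x ≠ y := fun x y h => nn_ne x y h
  set c : (Box N → Fin (s + 1)) → ℝ := fun σ => (gibbs s (nn (N := N)) β 0 σ σ).re with hc
  have hcn : ∀ σ, 0 ≤ c σ := by
    intro σ
    obtain ⟨-, -, h3, -, -⟩ := hG (Box N) s nn β 0 hadj
    have := h3.diag_nonneg (i := σ)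
    exact (Complex.le_def.mp this).1
  have hP : ∀ h, part s (nn (N := N)) β h = ∑ σ, c σ * Real.exp (β * h * mval s σ) :=
    fun h => part_eq hS hL hD nn hadj β h
  have hM : ∀ h, ex s (nn (N := N)) β h (mag (Box N) s) =
      ∑ σ, c σ * Real.exp (β * h * mval s σ) * mval s σ :=
    fun h => exmag_eq hS hL hD nn hadj β h
  have hpos : ∀ h, 0 < part s (nn (N := N)) β h := by
    intro h
    obtain ⟨-, -, -, -, h5⟩ := hG (Box N) s nn β h hadj
    exact h5
  have hcard : (0 : ℝ) < Fintype.card (Box N) := by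
    have : Nonempty (Box N) := ⟨⟨fun _ => 0, by simp [Finset.mem_Icc, Pi.le_def]⟩⟩
    exact_mod_cast Fintype.card_pos
  have hbc : 0 < β * Fintype.card (Box N) := mul_pos hβ hcard
  have hsup : ∀ h h', pN s N β h + (h' - h) * mN s N β h ≤ pN s N β h' := by
    intro h h'
    have h1 := support c (mval s) hcn β h (by rw [← hP]; exact hpos h) h'
    rw [← hP, ← hP, ← hM] at h1
    unfold pN mN
    rw [le_div_iff₀ hbc]
    refine le_trans (le_of_eq ?_) h1
    have := (hpos h).ne'
    field_simp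
  refine ⟨⟨convex_univ, ?_⟩, ?_, ?_⟩
  · intro x _ y _ a b ha hb hab
    have h1 := hsup (a • x + b • y) x
    have h2 := hsup (a • x + b • y) y
    have h3 := mul_le_mul_of_nonneg_left h1 ha
    have h4 := mul_le_mul_of_nonneg_left h2 hb
    simp only [smul_eq_mul] at *
    have h5 : pN s N β (a * x + b * y) = a * (pN s N β (a * x + b * y) +
        (x - (a * x + b * y)) * mN s N β (a * x + b * y)) + b * (pN s N β (a * x + b * y) +
        (y - (a * x + b * y)) * mN s N β (a * x + b * y)) := by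
      have hb' : b = 1 - a := by linarith
      rw [hb']
      ring
    rw [h5]
    linarith
  · intro h
    have h1 := hsup h 0
    linarith
  · intro h
    unfold mN
    rw [abs_div, div_le_iff₀ (abs_pos.mpr (mul_pos (hpos h) hcard).ne'),
      abs_of_pos (mul_pos (hpos h) hcard), hM, hP]
    refine (Finset.abs_sum_le_sum_abs _ _).trans ?_
    rw [Finset.sum_mul, Finset.mul_sum]
    apply Finset.sum_le_sum
    intro σ _
    rw [abs_mul, abs_of_nonneg (mul_nonneg (hcn σ) (Real.exp_pos _).le)]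
    have := mul_le_mul_of_nonneg_left (mval_bound (V := Box N) σ)
      (mul_nonneg (hcn σ) (Real.exp_pos (β * h * mval s σ)).le)
    linarith

end Vale.Agent.P361.Cx
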