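import Vale.Agent.P361.Mods

open scoped Matrix ComplexOrder

namespace Vale.Agent.P361.Dbb

theorem db_proof (hDC : DC) (hGib : GIB) (hExb : EXB) : DB := by
  intro V _ _ s adj _ β h hadj hsymm hβ u hu
  obtain ⟨hdc, hmag, hAA⟩ := hDC V s adj hadj u
  obtain ⟨-, -, -, -, hpos⟩ := hGib V s adj β h hadj
  obtain ⟨hb1, hb2⟩ := hExb V s adj β h hadj
  set E := gibbs s adj β h with hE
  set A := mode s u with hA
  set H := ham s adj with hH
  set M := mag V s with hM
  have huu : ∀ x, u x * star (u x) = 1 := by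
    intro x
    have h1 : u x * star (u x) = ((‖u x‖ ^ 2 : ℝ) : ℂ) := by
      rw [← Complex.normSq_eq_norm_sq, ← Complex.mul_conj]
      rfl
    rw [h1, hu x]
    simp
  have hF : (Matrix.trace (E * (A * Aᴴ - Aᴴ * A))).re = 2 * ex s adj β h M := by
    rw [hAA]
    have h1 : ∑ x : V, ((2 : ℂ) * (u x * star (u x))) • onSite x (s3 s) = (2 : ℂ) • M := by
      rw [hM]
      unfold mag
      rw [Finset.smul_sum]
      apply Finset.sum_congr rfl
      intro x _
      rw [huu x, mul_one]
    rw [h1, Matrix.mul_smul, Matrix.trace_smul, smul_eq_mul]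
    unfold ex
    rw [← hE]
    simp
  refine ⟨?_, hF⟩
  -- the commutator with K
  have hK : (β : ℂ) • (H - (h : ℂ) • M) * A - A * ((β : ℂ) • (H - (h : ℂ) • M)) =
      (β : ℂ) • (H * A - A * H) - ((β : ℂ) * (h : ℂ)) • A := by
    have h1 : (β : ℂ) • (H - (h : ℂ) • M) * A - A * ((β : ℂ) • (H - (h : ℂ) • M)) =
      (β : ℂ) • (H * A - A * H) - ((β : ℂ) * (h : ℂ)) • (M * A - A * M) := by
      simp only [Matrix.smul_mul, Matrix.mul_smul, Matrix.sub_mul, Matrix.mul_sub, smul_sub,
        smul_smul]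
      abel
    rw [h1, hmag]
  have hD : Aᴴ * ((β : ℂ) • (H * A - A * H) - ((β : ℂ) * (h : ℂ)) • A) -
      ((β : ℂ) • (H * A - A * H) - ((β : ℂ) * (h : ℂ)) • A) * Aᴴ =
      (β : ℂ) • (Aᴴ * (H * A - A * H) - (H * A - A * H) * Aᴴ) +
        ((β : ℂ) * (h : ℂ)) • (A * Aᴴ - Aᴴ * A) := by
    simp only [Matrix.smul_mul, Matrix.mul_smul, Matrix.sub_mul, Matrix.mul_sub, smul_sub]
    abel
  rw [hK, hD, Matrix.mul_add, Matrix.trace_add, Matrix.mul_smul, Matrix.mul_smul,
    Matrix.trace_smul, Matrix.trace_smul, Complex.add_re, smul_eq_mul, smul_eq_mul,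
    Complex.re_ofReal_mul, ← Complex.ofReal_mul, Complex.re_ofReal_mul, hF]
  -- the main term
  have hmain : (Matrix.trace (E * (Aᴴ * (H * A - A * H) - (H * A - A * H) * Aᴴ))).re =
      (1 / 2) * ∑ x, ∑ y, (if adj x y then ‖u x - u y‖ ^ 2 *
        (2 * ex s adj β h (onSite x (s3 s) * onSite y (s3 s)) +
          ex s adj β h (onSite x (sPlus s)ᴴ * onSite y (sPlus s))) else 0) := by
    rw [hdc, Matrix.mul_neg, Matrix.trace_neg, Matrix.mul_smul, Matrix.trace_smul,
      Matrix.mul_sum, Matrix.trace_sum]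
    have h1 : ∑ x, Matrix.trace (E * ∑ y, (if adj x y then
        (u x - u y) • (star (u x) • (-((2 : ℂ) • (onSite x (s3 s) * onSite y (s3 s))) -
            onSite x (sPlus s)ᴴ * onSite y (sPlus s)) +
          star (u y) • ((2 : ℂ) • (onSite x (s3 s) * onSite y (s3 s)) +
            onSite x (sPlus s) * onSite y (sPlus s)ᴴ)) else 0)) =
        ((-∑ x, ∑ y, (if adj x y then ‖u x - u y‖ ^ 2 *
        (2 * ex s adj β h (onSite x (s3 s) * onSite y (s3 s)) +
          ex s adj β h (onSite x (sPlus s)ᴴ * onSite y (sPlus s))) else 0) : ℝ) : ℂ) := by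
      rw [← Finset.sum_neg_distrib, Complex.ofReal_sum]
      apply Finset.sum_congr rfl
      intro x _
      rw [Matrix.mul_sum, Matrix.trace_sum, ← Finset.sum_neg_distrib, Complex.ofReal_sum]
      apply Finset.sum_congr rfl
      intro y _
      split_ifs with hxy
      · obtain ⟨i1, i2, e12, -, i3, -⟩ := hb1 x y (hadj x y hxy)
        have z1 : Matrix.trace (E * (onSite x (s3 s) * onSite y (s3 s))) =
            ((ex s adj β h (onSite x (s3 s) * onSite y (s3 s)) : ℝ) : ℂ) := by
          apply Complex.ext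
          · rfl
          · rw [i3]; simp
        have z2 : Matrix.trace (E * (onSite x (sPlus s)ᴴ * onSite y (sPlus s))) =
            ((ex s adj β h (onSite x (sPlus s)ᴴ * onSite y (sPlus s)) : ℝ) : ℂ) := by
          apply Complex.ext
          · rfl
          · rw [i1]; simp
        have z3 : Matrix.trace (E * (onSite x (sPlus s) * onSite y (sPlus s)ᴴ)) =
            ((ex s adj β h (onSite x (sPlus s)ᴴ * onSite y (sPlus s)) : ℝ) : ℂ) := by
          apply Complex.ext
          · rw [← e12]; rfl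
          · rw [i2]; simp
        rw [Matrix.mul_smul, Matrix.trace_smul, Matrix.mul_add, Matrix.mul_smul, Matrix.mul_smul,
          Matrix.mul_sub, Matrix.mul_neg, Matrix.mul_smul, Matrix.mul_add, Matrix.mul_smul,
          Matrix.trace_add, Matrix.trace_smul, Matrix.trace_smul, Matrix.trace_sub,
          Matrix.trace_neg, Matrix.trace_smul, Matrix.trace_add, Matrix.trace_smul, z1, z2, z3]
        have h2 : ((‖u x - u y‖ ^ 2 : ℝ) : ℂ) = (u x - u y) * (star (u x) - star (u y)) := by
          rw [← Complex.normSq_eq_norm_sq, ← Complex.mul_conj, map_sub]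
          rfl
        simp only [smul_eq_mul]
        push_cast at h2 ⊢
        rw [h2]
        ring
      · simp
    rw [h1]
    simp only [smul_eq_mul]
    generalize (∑ x, ∑ y, (if adj x y then ‖u x - u y‖ ^ 2 *
        (2 * ex s adj β h (onSite x (s3 s) * onSite y (s3 s)) +
          ex s adj β h (onSite x (sPlus s)ᴴ * onSite y (sPlus s))) else 0)) = T
    have h3 : -((1 / 2 : ℂ) * ((-T : ℝ) : ℂ)) = ((1 / 2 * T : ℝ) : ℂ) := by
      push_cast
      ring
    rw [h3, Complex.ofReal_re]
  have hsum : ∑ x, ∑ y, (if adj x y then ‖u x - u y‖ ^ 2 *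
        (2 * ex s adj β h (onSite x (s3 s) * onSite y (s3 s)) +
          ex s adj β h (onSite x (sPlus s)ᴴ * onSite y (sPlus s))) else 0) ≤
      ∑ x, ∑ y, (if adj x y then ‖u x - u y‖ ^ 2 *
        (2 * ((s : ℝ) / 2) ^ 2 * part s adj β h +
          ex s adj β h (onSite x (sPlus s)ᴴ * onSite x (sPlus s))) else 0) := by
    have h4 : ∑ x, ∑ y, (if adj x y then ‖u x - u y‖ ^ 2 *
        (2 * ((s : ℝ) / 2) ^ 2 * part s adj β h +
          ex s adj β h (onSite x (sPlus s)ᴴ * onSite x (sPlus s))) else 0) =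
        ∑ x, ∑ y, (if adj x y then ‖u x - u y‖ ^ 2 *
        (2 * ((s : ℝ) / 2) ^ 2 * part s adj β h +
          ex s adj β h (onSite y (sPlus s)ᴴ * onSite y (sPlus s))) else 0) := by
      rw [Finset.sum_comm]
      apply Finset.sum_congr rfl
      intro x _
      apply Finset.sum_congr rfl
      intro y _
      by_cases hxy : adj x y
      · rw [if_pos hxy, if_pos (hsymm x y hxy), norm_sub_rev]
      · rw [if_neg hxy, if_neg (fun hh => hxy (hsymm y x hh))]
    have h5 : ∑ x, ∑ y, (if adj x y then ‖u x - u y‖ ^ 2 *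
        (2 * ((s : ℝ) / 2) ^ 2 * part s adj β h +
          ex s adj β h (onSite x (sPlus s)ᴴ * onSite x (sPlus s))) else 0) =
        ∑ x, ∑ y, (if adj x y then ‖u x - u y‖ ^ 2 *
        (2 * ((s : ℝ) / 2) ^ 2 * part s adj β h +
          (1 / 2) * (ex s adj β h (onSite x (sPlus s)ᴴ * onSite x (sPlus s)) +
          ex s adj β h (onSite y (sPlus s)ᴴ * onSite y (sPlus s)))) else 0) := by
      have h6 : ∀ a b c : ℝ, a = b → c = (1 / 2) * (a + b) → a = c := by
        intro a b c h7 h8
        linarith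
      refine h6 _ _ _ h4 ?_
      rw [← Finset.sum_add_distrib, Finset.mul_sum]
      apply Finset.sum_congr rfl
      intro x _
      rw [← Finset.sum_add_distrib, Finset.mul_sum]
      apply Finset.sum_congr rfl
      intro y _
      split_ifs
      · ring
      · ring
    rw [h5]
    apply Finset.sum_le_sum
    intro x _
    apply Finset.sum_le_sum
    intro y _
    split_ifs with hxy
    · obtain ⟨-, -, -, i4, -, i5⟩ := hb1 x y (hadj x y hxy)
      apply mul_le_mul_of_nonneg_left _ (by positivity)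
      linarith
    · exact le_rfl
  rw [hmain]
  have := mul_le_mul_of_nonneg_left (mul_le_mul_of_nonneg_left hsum
    (by norm_num : (0 : ℝ) ≤ 1 / 2)) hβ.le
  linarith

end Vale.Agent.P361.Dbb
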