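import Vale.Agent.P361.Mods

/-! # P361, module DC: the double commutator of a mode -/

open scoped Matrix

namespace Vale.Agent.P361.DCm

section abstract_ring

variable {R : Type} [Ring R] [Algebra ℂ R]

theorem half_two (a : R) : (1 / 2 : ℂ) • ((2 : ℂ) • a) = a := by
  rw [smul_smul]
  norm_num

/-- `[B, P_x] = P_x Z_y - Z_x P_y` -/
theorem comm_BP (Px Qx Zx Py Qy Zy : R) (hZP : Zx * Px - Px * Zx = Px)
    (hPQ : Px * Qx - Qx * Px = (2 : ℂ) • Zx) (h1 : Zy * Px = Px * Zy) (h2 : Qy * Px = Px * Qy)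
    (h3 : Py * Px = Px * Py) :
    (Zx * Zy + (1 / 2 : ℂ) • (Px * Qy + Qx * Py)) * Px -
      Px * (Zx * Zy + (1 / 2 : ℂ) • (Px * Qy + Qx * Py)) = Px * Zy - Zx * Py := by
  have e1 : Zx * Zy * Px - Px * (Zx * Zy) = Px * Zy := by
    rw [mul_assoc, h1, ← mul_assoc, ← mul_assoc, ← sub_mul, hZP]
  have e2 : (Px * Qy + Qx * Py) * Px - Px * (Px * Qy + Qx * Py) = -((2 : ℂ) • (Zx * Py)) := by
    have : (Px * Qy + Qx * Py) * Px - Px * (Px * Qy + Qx * Py) =
        -((Px * Qx - Qx * Px) * Py) := by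
      rw [add_mul, mul_assoc Px Qy Px, h2, mul_assoc Qx Py Px, h3]
      noncomm_ring
    rw [this, hPQ, smul_mul_assoc]
  calc (Zx * Zy + (1 / 2 : ℂ) • (Px * Qy + Qx * Py)) * Px -
        Px * (Zx * Zy + (1 / 2 : ℂ) • (Px * Qy + Qx * Py))
      = (Zx * Zy * Px - Px * (Zx * Zy)) +
        (1 / 2 : ℂ) • ((Px * Qy + Qx * Py) * Px - Px * (Px * Qy + Qx * Py)) := by
        rw [add_mul, mul_add Px, smul_mul_assoc, mul_smul_comm, smul_sub]
        abel
    _ = Px * Zy - Zx * Py := by
        rw [e1, e2, smul_neg, half_two]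
        abel

/-- `[B, P_y] = -(P_x Z_y - Z_x P_y)` -/
theorem comm_BP' (Px Qx Zx Py Qy Zy : R) (hZP : Zy * Py - Py * Zy = Py)
    (hPQ : Py * Qy - Qy * Py = (2 : ℂ) • Zy) (h1 : Zx * Py = Py * Zx) (h2 : Px * Py = Py * Px)
    (h3 : Qx * Py = Py * Qx) :
    (Zx * Zy + (1 / 2 : ℂ) • (Px * Qy + Qx * Py)) * Py -
      Py * (Zx * Zy + (1 / 2 : ℂ) • (Px * Qy + Qx * Py)) = -(Px * Zy - Zx * Py) := by
  have e1 : Zx * Zy * Py - Py * (Zx * Zy) = Zx * Py := by
    rw [← mul_assoc Py, ← h1, mul_assoc, mul_assoc, ← mul_sub, hZP]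
  have e2 : (Px * Qy + Qx * Py) * Py - Py * (Px * Qy + Qx * Py) = -((2 : ℂ) • (Px * Zy)) := by
    have : (Px * Qy + Qx * Py) * Py - Py * (Px * Qy + Qx * Py) =
        -(Px * (Py * Qy - Qy * Py)) := by
      rw [mul_add Py, ← mul_assoc Py Px Qy, ← h2, ← mul_assoc Py Qx Py, ← h3]
      noncomm_ring
    rw [this, hPQ, mul_smul_comm]
  calc (Zx * Zy + (1 / 2 : ℂ) • (Px * Qy + Qx * Py)) * Py -
        Py * (Zx * Zy + (1 / 2 : ℂ) • (Px * Qy + Qx * Py))
      = (Zx * Zy * Py - Py * (Zx * Zy)) +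
        (1 / 2 : ℂ) • ((Px * Qy + Qx * Py) * Py - Py * (Px * Qy + Qx * Py)) := by
        rw [add_mul, mul_add Py, smul_mul_assoc, mul_smul_comm, smul_sub]
        abel
    _ = -(Px * Zy - Zx * Py) := by
        rw [e1, e2, smul_neg, half_two]
        abel

/-- an operator commuting with everything at `x` and `y` -/
theorem comm_other (Px Qx Zx Py Qy Zy W : R) (h1 : W * Px = Px * W) (h2 : W * Qx = Qx * W)
    (h3 : W * Zx = Zx * W) (h4 : W * Py = Py * W) (h5 : W * Qy = Qy * W) (h6 : W * Zy = Zy * W) :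
    (Zx * Zy + (1 / 2 : ℂ) • (Px * Qy + Qx * Py)) * W -
      W * (Zx * Zy + (1 / 2 : ℂ) • (Px * Qy + Qx * Py)) = 0 := by
  have a1 : Commute W (Zx * Zy) := Commute.mul_right h3 h6
  have a2 : Commute W (Px * Qy) := Commute.mul_right h1 h5
  have a3 : Commute W (Qx * Py) := Commute.mul_right h2 h4
  have a4 := a1.add_right ((a2.add_right a3).smul_right (1 / 2 : ℂ))
  rw [a4.eq, sub_self]

/-- `[Q_x, C] = -2 Z_x Z_y - Q_x P_y` -/
theorem comm_QC (Px Qx Zx Py Zy : R) (hZQ : Zx * Qx - Qx * Zx = -Qx)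
    (hPQ : Px * Qx - Qx * Px = (2 : ℂ) • Zx) (h1 : Zy * Qx = Qx * Zy) (h3 : Py * Qx = Qx * Py) :
    Qx * (Px * Zy - Zx * Py) - (Px * Zy - Zx * Py) * Qx =
      -((2 : ℂ) • (Zx * Zy)) - Qx * Py := by
  have e1 : Qx * (Px * Zy - Zx * Py) - (Px * Zy - Zx * Py) * Qx =
      -((Px * Qx - Qx * Px) * Zy) + (Zx * Qx - Qx * Zx) * Py := by
    rw [sub_mul (Px * Zy), mul_assoc Px Zy Qx, h1, mul_assoc Zx Py Qx, h3]
    noncomm_ring
  rw [e1, hPQ, hZQ, smul_mul_assoc, neg_mul]
  abel

/-- `[Q_y, C] = P_x Q_y + 2 Z_x Z_y` -/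
theorem comm_QC' (Px Zx Py Qy Zy : R) (hZQ : Zy * Qy - Qy * Zy = -Qy)
    (hPQ : Py * Qy - Qy * Py = (2 : ℂ) • Zy) (h1 : Px * Qy = Qy * Px) (h3 : Zx * Qy = Qy * Zx) :
    Qy * (Px * Zy - Zx * Py) - (Px * Zy - Zx * Py) * Qy =
      (2 : ℂ) • (Zx * Zy) + Px * Qy := by
  have e1 : Qy * (Px * Zy - Zx * Py) - (Px * Zy - Zx * Py) * Qy =
      Zx * (Py * Qy - Qy * Py) - Px * (Zy * Qy - Qy * Zy) := by
    rw [mul_sub Qy, ← mul_assoc Qy Px Zy, ← h1, ← mul_assoc Qy Zx Py, ← h3]
    noncomm_ring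
  rw [e1, hPQ, hZQ, mul_smul_comm, mul_neg]
  abel

omit [Algebra ℂ R] in
theorem comm_other' (Px Zx Py Zy W : R) (h1 : W * Px = Px * W)
    (h3 : W * Zx = Zx * W) (h4 : W * Py = Py * W) (h6 : W * Zy = Zy * W) :
    W * (Px * Zy - Zx * Py) - (Px * Zy - Zx * Py) * W = 0 := by
  have a1 : Commute W (Px * Zy) := Commute.mul_right h1 h6
  have a2 : Commute W (Zx * Py) := Commute.mul_right h3 h4
  rw [(a1.sub_right a2).eq, sub_self]

end abstract_ring

theorem dc_proof (hL : LOC) (hS : SITE) (hD : DOTF) : DC := by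
  classical
  intro V _ _ s adj _ hirr u
  obtain ⟨⟨lZP, lPQ, _⟩, _⟩ := hL s
  obtain ⟨sM, sA, sC, sH, _, sComm, _⟩ := hS V s
  have sSub : ∀ (x : V) (A B : LOp s), onSite x (A - B) = onSite x A - onSite x B := by
    intro x A B
    have h1 : A - B = A + (-1 : ℂ) • B := by rw [neg_one_smul, sub_eq_add_neg]
    rw [h1, sA, sC, neg_one_smul, sub_eq_add_neg]
  have sNeg : ∀ (x : V) (A : LOp s), onSite x (-A) = -onSite x A := by
    intro x A
    have h1 : -A = (-1 : ℂ) • A := by rw [neg_one_smul]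
    rw [h1, sC, neg_one_smul]
  set P : V → Op V s := fun x => onSite x (sPlus s) with hP
  set Q : V → Op V s := fun x => onSite x (sPlus s)ᴴ with hQ
  set Z : V → Op V s := fun x => onSite x (s3 s) with hZ
  have lZQ : s3 s * (sPlus s)ᴴ - (sPlus s)ᴴ * s3 s = -(sPlus s)ᴴ := by
    have h1 := congrArg Matrix.conjTranspose lZP
    rw [Matrix.conjTranspose_sub, Matrix.conjTranspose_mul, Matrix.conjTranspose_mul] at h1
    have h3 : (s3 s)ᴴ = s3 s := (hL s).2.2.2.2.2
    rw [h3] at h1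
    rw [← neg_sub, h1]
  have hZP : ∀ x, Z x * P x - P x * Z x = P x := by
    intro x
    simp only [hZ, hP]
    rw [← sM, ← sM, ← sSub, lZP]
  have hPQ : ∀ x, P x * Q x - Q x * P x = (2 : ℂ) • Z x := by
    intro x
    simp only [hZ, hP, hQ]
    rw [← sM, ← sM, ← sSub, lPQ, sC]
  have hZQ : ∀ x, Z x * Q x - Q x * Z x = -Q x := by
    intro x
    simp only [hZ, hQ]
    rw [← sM, ← sM, ← sSub, lZQ, sNeg]
  have hmode : mode s u = ∑ z, u z • P z := rfl
  have hmodeH : (mode s u)ᴴ = ∑ z, star (u z) • Q z := by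
    rw [hmode, Matrix.conjTranspose_sum]
    apply Finset.sum_congr rfl
    intro z _
    rw [Matrix.conjTranspose_smul]
    simp only [hP, hQ]
    rw [sH]
  set C : V → V → Op V s := fun x y => P x * Z y - Z x * P y with hC
  -- commutator of dot with the raising operators
  have hBP : ∀ x y, x ≠ y → ∀ z, dot s x y * P z - P z * dot s x y =
      (if z = x then C x y else 0) + (if z = y then -C x y else 0) := by
    intro x y hxy z
    rw [hD V s x y hxy]
    by_cases hzx : z = x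
    · subst hzx
      rw [if_pos rfl, if_neg hxy, add_zero]
      exact comm_BP (P z) (Q z) (Z z) (P y) (Q y) (Z y) (hZP z) (hPQ z)
        (sComm y z _ _ (Ne.symm hxy)) (sComm y z _ _ (Ne.symm hxy)) (sComm y z _ _ (Ne.symm hxy))
    · by_cases hzy : z = y
      · subst hzy
        rw [if_neg hzx, if_pos rfl, zero_add]
        exact comm_BP' (P x) (Q x) (Z x) (P z) (Q z) (Z z) (hZP z) (hPQ z)
          (sComm x z _ _ hxy) (sComm x z _ _ hxy) (sComm x z _ _ hxy)
      · rw [if_neg hzx, if_neg hzy, add_zero]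
        exact comm_other (P x) (Q x) (Z x) (P y) (Q y) (Z y) (P z)
          (sComm z x _ _ hzx) (sComm z x _ _ hzx) (sComm z x _ _ hzx)
          (sComm z y _ _ hzy) (sComm z y _ _ hzy) (sComm z y _ _ hzy)
  have hBA : ∀ x y, x ≠ y → dot s x y * mode s u - mode s u * dot s x y =
      (u x - u y) • C x y := by
    intro x y hxy
    rw [hmode, Finset.mul_sum, Finset.sum_mul, ← Finset.sum_sub_distrib]
    have h1 : ∀ z ∈ (Finset.univ : Finset V), dot s x y * (u z • P z) - u z • P z * dot s x y =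
        (if z = x then u z • C x y else 0) + (if z = y then -(u z • C x y) else 0) := by
      intro z _
      rw [mul_smul_comm, smul_mul_assoc, ← smul_sub, hBP x y hxy z, smul_add]
      congr 1
      · split_ifs
        · rfl
        · rw [smul_zero]
      · split_ifs
        · rw [smul_neg]
        · rw [smul_zero]
    rw [Finset.sum_congr rfl h1, Finset.sum_add_distrib, Finset.sum_ite_eq', Finset.sum_ite_eq',
      if_pos (Finset.mem_univ _), if_pos (Finset.mem_univ _), sub_smul, sub_eq_add_neg]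
  -- commutator of the adjoint with C
  have hQC : ∀ x y, x ≠ y → ∀ z, Q z * C x y - C x y * Q z =
      (if z = x then -((2 : ℂ) • (Z x * Z y)) - Q x * P y else 0) +
        (if z = y then (2 : ℂ) • (Z x * Z y) + P x * Q y else 0) := by
    intro x y hxy z
    by_cases hzx : z = x
    · subst hzx
      rw [if_pos rfl, if_neg hxy, add_zero]
      exact comm_QC (P z) (Q z) (Z z) (P y) (Z y) (hZQ z) (hPQ z)
        (sComm y z _ _ (Ne.symm hxy)) (sComm y z _ _ (Ne.symm hxy))
    · by_cases hzy : z = y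
      · subst hzy
        rw [if_neg hzx, if_pos rfl, zero_add]
        exact comm_QC' (P x) (Z x) (P z) (Q z) (Z z) (hZQ z) (hPQ z)
          (sComm x z _ _ hxy) (sComm x z _ _ hxy)
      · rw [if_neg hzx, if_neg hzy, add_zero]
        exact comm_other' (P x) (Z x) (P y) (Z y) (Q z)
          (sComm z x _ _ hzx) (sComm z x _ _ hzx)
          (sComm z y _ _ hzy) (sComm z y _ _ hzy)
  have hAC : ∀ x y, x ≠ y → (mode s u)ᴴ * C x y - C x y * (mode s u)ᴴ =
      star (u x) • (-((2 : ℂ) • (Z x * Z y)) - Q x * P y) +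
        star (u y) • ((2 : ℂ) • (Z x * Z y) + P x * Q y) := by
    intro x y hxy
    rw [hmodeH, Finset.sum_mul, Finset.mul_sum, ← Finset.sum_sub_distrib]
    have h1 : ∀ z ∈ (Finset.univ : Finset V), star (u z) • Q z * C x y - C x y * (star (u z) • Q z) =
        (if z = x then star (u z) • (-((2 : ℂ) • (Z x * Z y)) - Q x * P y) else 0) +
          (if z = y then star (u z) • ((2 : ℂ) • (Z x * Z y) + P x * Q y) else 0) := by
      intro z _
      rw [mul_smul_comm, smul_mul_assoc, ← smul_sub, hQC x y hxy z, smul_add]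
      congr 1
      · split_ifs
        · rfl
        · rw [smul_zero]
      · split_ifs
        · rfl
        · rw [smul_zero]
    rw [Finset.sum_congr rfl h1, Finset.sum_add_distrib, Finset.sum_ite_eq', Finset.sum_ite_eq',
      if_pos (Finset.mem_univ _), if_pos (Finset.mem_univ _)]
  refine ⟨?_, ?_, ?_⟩
  · have hHA : ham s adj * mode s u - mode s u * ham s adj =
        -((1 / 2 : ℂ) • ∑ x, ∑ y, if adj x y then (u x - u y) • C x y else 0) := by
      unfold ham
      rw [neg_mul, mul_neg, smul_mul_assoc, mul_smul_comm, Finset.sum_mul, Finset.mul_sum,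
        sub_neg_eq_add, neg_add_eq_sub, ← neg_sub, ← smul_sub, ← Finset.sum_sub_distrib]
      congr 2
      apply Finset.sum_congr rfl
      intro x _
      rw [Finset.sum_mul, Finset.mul_sum, ← Finset.sum_sub_distrib]
      apply Finset.sum_congr rfl
      intro y _
      by_cases h : adj x y
      · rw [if_pos h, if_pos h]
        exact hBA x y (hirr x y h)
      · rw [if_neg h, if_neg h, zero_mul, mul_zero, sub_zero]
    rw [hHA, mul_neg, neg_mul, mul_smul_comm, smul_mul_assoc, Finset.mul_sum, Finset.sum_mul,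
      sub_neg_eq_add, neg_add_eq_sub, ← neg_sub, ← smul_sub, ← Finset.sum_sub_distrib]
    congr 2
    apply Finset.sum_congr rfl
    intro x _
    rw [Finset.sum_mul, Finset.mul_sum, ← Finset.sum_sub_distrib]
    apply Finset.sum_congr rfl
    intro y _
    by_cases h : adj x y
    · rw [if_pos h, if_pos h, mul_smul_comm, smul_mul_assoc, ← smul_sub,
        hAC x y (hirr x y h)]
    · rw [if_neg h, if_neg h, zero_mul, mul_zero, sub_zero]
  · unfold mag
    rw [hmode, Finset.sum_mul, Finset.mul_sum]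
    rw [← Finset.sum_sub_distrib]
    have h1 : ∀ x ∈ (Finset.univ : Finset V),
        onSite x (s3 s) * ∑ z, u z • P z - (∑ z, u z • P z) * onSite x (s3 s) = u x • P x := by
      intro x _
      rw [Finset.mul_sum, Finset.sum_mul, ← Finset.sum_sub_distrib, Finset.sum_eq_single x]
      · rw [mul_smul_comm, smul_mul_assoc, ← smul_sub]
        congr 1
        exact hZP x
      · intro z _ hzx
        rw [mul_smul_comm, smul_mul_assoc, ← smul_sub]
        simp only [hP]
        rw [sComm x z _ _ (Ne.symm hzx), sub_self, smul_zero]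
      · intro h
        exact absurd (Finset.mem_univ x) h
    exact Finset.sum_congr rfl h1
  · rw [hmodeH, hmode, Finset.sum_mul, Finset.mul_sum, ← Finset.sum_sub_distrib]
    apply Finset.sum_congr rfl
    intro x _
    rw [Finset.mul_sum, Finset.sum_mul, ← Finset.sum_sub_distrib, Finset.sum_eq_single x]
    · rw [mul_smul_comm, smul_mul_assoc, mul_smul_comm, smul_mul_assoc, smul_smul, smul_smul,
        mul_comm (star (u x)) (u x), ← smul_sub, hPQ x, smul_smul, mul_comm (2 : ℂ)]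
    · intro z _ hzx
      rw [mul_smul_comm, smul_mul_assoc, mul_smul_comm, smul_mul_assoc, smul_smul, smul_smul]
      simp only [hP, hQ]
      rw [sComm x z _ _ (Ne.symm hzx), mul_comm (star (u z)) (u x), sub_self]
    · intro h
      exact absurd (Finset.mem_univ x) h

end Vale.Agent.P361.DCm
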