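import Mathlib

/-!
# P361: the quantum Heisenberg ferromagnet on boxes of Z^3

The spin is S = s/2 with s a positive integer.  The one-site space has the basis 0, 1, ..., s, and
S^3 is diagonal with entries a - s/2.
-/

open scoped Matrix

namespace Vale.Agent.P361

/-- Operators of one site. -/
abbrev LOp (s : ℕ) : Type := Matrix (Fin (s + 1)) (Fin (s + 1)) ℂ

/-- Operators of the system with the finite set V of sites. -/
abbrev Op (V : Type) (s : ℕ) : Type := Matrix (V → Fin (s + 1)) (V → Fin (s + 1)) ℂ

/-- The raising operator S^1 + i S^2 of spin s/2. -/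
noncomputable def sPlus (s : ℕ) : LOp s := fun a b =>
  if (a : ℕ) = (b : ℕ) + 1 then ((Real.sqrt (((b : ℕ) + 1 : ℝ) * ((s : ℝ) - (b : ℕ))) : ℝ) : ℂ)
  else 0

/-- The spin matrix S^1. -/
noncomputable def s1 (s : ℕ) : LOp s := (1 / 2 : ℂ) • (sPlus s + (sPlus s)ᴴ)

/-- The spin matrix S^2. -/
noncomputable def s2 (s : ℕ) : LOp s := (-(Complex.I / 2)) • (sPlus s - (sPlus s)ᴴ)

/-- The spin matrix S^3. -/
noncomputable def s3 (s : ℕ) : LOp s := Matrix.diagonal fun a => ((a : ℕ) : ℂ) - (s : ℂ) / 2

open Classical in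
/-- The one-site operator A acting at the site x. -/
noncomputable def onSite {V : Type} {s : ℕ} (x : V) (A : LOp s) : Op V s := fun σ τ =>
  if ∀ y, y ≠ x → σ y = τ y then A (σ x) (τ x) else 0

section
variable {V : Type} [Fintype V] [DecidableEq V]

/-- The operator S_x . S_y. -/
noncomputable def dot (s : ℕ) (x y : V) : Op V s :=
  onSite x (s1 s) * onSite y (s1 s) + onSite x (s2 s) * onSite y (s2 s) +
    onSite x (s3 s) * onSite y (s3 s)

open Classical in
/-- The Hamiltonian: minus the sum of S_x . S_y over the unordered pairs of adjacent sites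
(each unordered pair occurs twice among the ordered pairs). -/
noncomputable def ham (s : ℕ) (adj : V → V → Prop) : Op V s :=
  -((1 / 2 : ℂ) • ∑ x, ∑ y, if adj x y then dot s x y else 0)

variable (V) in
/-- The magnetization: the sum of S^3_x over all sites. -/
noncomputable def mag (s : ℕ) : Op V s := ∑ x : V, onSite x (s3 s)

/-- exp(-beta (H - h M)). -/
noncomputable def gibbs (s : ℕ) (adj : V → V → Prop) (β h : ℝ) : Op V s :=
  NormedSpace.exp (-((β : ℂ) • (ham s adj - (h : ℂ) • mag V s)))

/-- The partition function. -/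
noncomputable def part (s : ℕ) (adj : V → V → Prop) (β h : ℝ) : ℝ :=
  (Matrix.trace (gibbs s adj β h)).re

/-- The unnormalised expectation of an operator. -/
noncomputable def ex (s : ℕ) (adj : V → V → Prop) (β h : ℝ) (A : Op V s) : ℝ :=
  (Matrix.trace (gibbs s adj β h * A)).re

end

/-- The cube {-N, ..., N}^3. -/
abbrev Box (N : ℕ) : Type :=
  ↥(Finset.Icc (fun _ : Fin 3 => -(N : ℤ)) (fun _ : Fin 3 => (N : ℤ)))

/-- Nearest neighbours: l1 distance one. -/
def nn {N : ℕ} (x y : Box N) : Prop := ∑ i, |(x : Fin 3 → ℤ) i - (y : Fin 3 → ℤ) i| = 1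

/-- The finite-volume pressure: log Tr exp(-beta (H_N - h M_N)) / (beta |Lambda_N|). -/
noncomputable def pN (s N : ℕ) (β h : ℝ) : ℝ :=
  Real.log (part s (nn (N := N)) β h) / (β * Fintype.card (Box N))

/-- The finite-volume magnetization per site. -/
noncomputable def mN (s N : ℕ) (β h : ℝ) : ℝ :=
  ex s (nn (N := N)) β h (mag (Box N) s) / (part s (nn (N := N)) β h * Fintype.card (Box N))

/-- The pressure: the limit of the finite-volume pressures. -/
noncomputable def pressure (s : ℕ) (β h : ℝ) : ℝ :=
  Filter.limUnder Filter.atTop fun N : ℕ => pN s N β h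

/-- The spontaneous magnetization: the right derivative of the pressure at h = 0. -/
noncomputable def mS (s : ℕ) (β : ℝ) : ℝ := derivWithin (pressure s β) (Set.Ioi 0) 0

/-- The one-dimensional integral (1 / 2 pi) int_{-pi}^{pi} exp(-t (1 - cos k)) dk. -/
noncomputable def gB (t : ℝ) : ℝ :=
  (1 / (2 * Real.pi)) * ∫ κ in (-Real.pi)..Real.pi, Real.exp (-(t * (1 - Real.cos κ)))

end Vale.Agent.P361
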