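import Vale.Agent.P361.Mods

open scoped Matrix

namespace Vale.Agent.P361.DF

open Vale.Agent.P361

theorem dotf_proof (hS : SITE) : DOTF := by
  intro V _ _ s x y _
  obtain ⟨-, hadd, hsmul, -, -, -, -⟩ := hS V s
  have hsub : ∀ (x : V) (A B : LOp s), onSite x (A - B) = onSite x A - onSite x B := by
    intro x A B
    rw [sub_eq_add_neg, ← neg_one_smul ℂ B, hadd, hsmul, neg_one_smul, ← sub_eq_add_neg]
  unfold dot s1 s2
  simp only [hadd, hsmul, hsub]
  set P := onSite x (sPlus s)
  set P' := onSite x (sPlus s)ᴴ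
  set Q := onSite y (sPlus s)
  set Q' := onSite y (sPlus s)ᴴ
  simp only [smul_mul_smul_comm, mul_add, add_mul, mul_sub, sub_mul]
  have h2 : -(Complex.I / 2) * -(Complex.I / 2) = -(1 / 4 : ℂ) := by
    have := Complex.I_mul_I
    linear_combination (1 / 4 : ℂ) * this
  rw [h2]
  module

end Vale.Agent.P361.DF
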