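import Vale.Agent.P361.Mods

open scoped Matrix ComplexOrder

namespace Vale.Agent.P361.Ex

lemma sPlus_transpose (s : ℕ) : (sPlus s)ᵀ = (sPlus s)ᴴ := by
  ext a b
  rw [Matrix.transpose_apply, Matrix.conjTranspose_apply]
  unfold sPlus
  split_ifs
  · exact (Complex.conj_ofReal _).symm
  · simp

lemma sPlusH_transpose (s : ℕ) : ((sPlus s)ᴴ)ᵀ = sPlus s := by
  rw [← sPlus_transpose, Matrix.transpose_transpose]

theorem exb_proof (hSite : SITE) (hLoc : LOC) (hGib : GIB) : EXB := by
  intro V _ _ s adj β h hadj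
  obtain ⟨hmul, hadd, hsmul, hH, hT, hcomm, hdiag⟩ := hSite V s
  obtain ⟨⟨-, -, hQP⟩, -, -, h1, h2, h3⟩ := hLoc s
  obtain ⟨-, -, hpsd, hgT, hpos⟩ := hGib V s adj β h hadj
  set E := gibbs s adj β h with hE
  have hEH : Eᴴ = E := hpsd.isHermitian.eq
  -- traces
  have trT : ∀ X : Op V s, Matrix.trace (E * X) = Matrix.trace (E * Xᵀ) := by
    intro X
    rw [← Matrix.trace_transpose, Matrix.transpose_mul, hgT, Matrix.trace_mul_comm]
  have trH : ∀ X : Op V s, star (Matrix.trace (E * X)) = Matrix.trace (E * Xᴴ) := by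
    intro X
    rw [← Matrix.trace_conjTranspose, Matrix.conjTranspose_mul, hEH, Matrix.trace_mul_comm]
  have trpos : ∀ A : Op V s, 0 ≤ (Matrix.trace (E * (Aᴴ * A))).re := by
    intro A
    have h1 : (A * E * Aᴴ).PosSemidef := hpsd.mul_mul_conjTranspose_same A
    have h2 := h1.trace_nonneg
    have h3 : Matrix.trace (E * (Aᴴ * A)) = Matrix.trace (A * E * Aᴴ) := by
      rw [Matrix.mul_assoc, Matrix.trace_mul_comm A, Matrix.mul_assoc]
    rw [h3]
    exact (Complex.nonneg_iff.mp h2).1
  have trdiag : ∀ d : (V → Fin (s + 1)) → ℝ, (∀ σ, 0 ≤ d σ) →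
      0 ≤ (Matrix.trace (E * Matrix.diagonal (fun σ => (d σ : ℂ)))).re := by
    intro d hd
    rw [Matrix.trace, Complex.re_sum]
    apply Finset.sum_nonneg
    intro σ _
    rw [Matrix.diag_apply, Matrix.mul_diagonal]
    have h4 := hpsd.diag_nonneg (i := σ)
    have h5 := (Complex.nonneg_iff.mp h4).1
    rw [Complex.mul_re, Complex.ofReal_re, Complex.ofReal_im, mul_zero, sub_zero]
    exact mul_nonneg h5 (hd σ)
  have hZ : ∀ x : V, onSite x (s3 s) =
      Matrix.diagonal (fun σ : V → Fin (s + 1) => (((σ x : ℕ) : ℂ) - (s : ℂ) / 2)) := by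
    intro x
    unfold s3
    rw [hdiag]
  have hval : ∀ (x : V) (σ : V → Fin (s + 1)), (0 : ℝ) ≤ ((σ x : ℕ) : ℝ) ∧ ((σ x : ℕ) : ℝ) ≤ s := by
    intro x σ
    refine ⟨by positivity, ?_⟩
    have := (σ x).isLt
    exact_mod_cast Nat.lt_succ_iff.mp this
  have hpart : part s adj β h = (Matrix.trace E).re := rfl
  constructor
  · intro x y hxy
    set P := onSite x (sPlus s) with hP
    set Q := onSite x (sPlus s)ᴴ with hQ
    set P' := onSite y (sPlus s) with hP'
    set Q' := onSite y (sPlus s)ᴴ with hQ'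
    have eT : (Q * P')ᵀ = P * Q' := by
      rw [Matrix.transpose_mul, hT, hT, sPlus_transpose, sPlusH_transpose]
      exact (hcomm x y _ _ hxy).symm
    have eH : (Q * P')ᴴ = P * Q' := by
      rw [Matrix.conjTranspose_mul, hH, hH, Matrix.conjTranspose_conjTranspose]
      exact (hcomm x y _ _ hxy).symm
    have e1 : Matrix.trace (E * (Q * P')) = Matrix.trace (E * (P * Q')) := by
      rw [trT, eT]
    have e2 : star (Matrix.trace (E * (Q * P'))) = Matrix.trace (E * (Q * P')) := by
      rw [trH, eH, ← e1]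
    have im1 : (Matrix.trace (E * (Q * P'))).im = 0 := Complex.conj_eq_iff_im.mp e2
    have hg : ex s adj β h (P * Q') = ex s adj β h (Q * P') := by
      unfold ex
      rw [← hE, ← e1]
    refine ⟨im1, by rw [← e1]; exact im1, hg, ?_, ?_, ?_⟩
    · have h5 := trpos (P - P')
      have e3 : (P - P')ᴴ = Q - Q' := by
        rw [Matrix.conjTranspose_sub, hH, hH]
      have e4 : (Q - Q') * (P - P') = Q * P - Q * P' - P * Q' + Q' * P' := by
        have : Q' * P = P * Q' := (hcomm x y _ _ hxy).symm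
        rw [Matrix.sub_mul, Matrix.mul_sub, Matrix.mul_sub, this]
        abel
      rw [e3, e4, Matrix.mul_add, Matrix.mul_sub, Matrix.mul_sub, Matrix.trace_add,
        Matrix.trace_sub, Matrix.trace_sub, Complex.add_re, Complex.sub_re, Complex.sub_re,
        ← e1] at h5
      unfold ex
      rw [← hE]
      linarith
    · have e5 : (onSite x (s3 s) * onSite y (s3 s))ᴴ = onSite x (s3 s) * onSite y (s3 s) := by
        rw [Matrix.conjTranspose_mul, hH, hH, h3.eq, hcomm x y _ _ hxy]
      have e6 := trH (onSite x (s3 s) * onSite y (s3 s))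
      rw [e5] at e6
      exact Complex.conj_eq_iff_im.mp e6
    · have h6 := trdiag (fun σ => ((s : ℝ) / 2) ^ 2 -
        (((σ x : ℕ) : ℝ) - (s : ℝ) / 2) * (((σ y : ℕ) : ℝ) - (s : ℝ) / 2)) (by
          intro σ
          obtain ⟨a1, a2⟩ := hval x σ
          obtain ⟨b1, b2⟩ := hval y σ
          nlinarith [mul_nonneg a1 b1, mul_nonneg (sub_nonneg.mpr a2) (sub_nonneg.mpr b2),
            mul_nonneg a1 (sub_nonneg.mpr b2), mul_nonneg b1 (sub_nonneg.mpr a2)])
      have e7 : Matrix.diagonal (fun σ : V → Fin (s + 1) => ((((s : ℝ) / 2) ^ 2 -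
        (((σ x : ℕ) : ℝ) - (s : ℝ) / 2) * (((σ y : ℕ) : ℝ) - (s : ℝ) / 2) : ℝ) : ℂ)) =
          ((((s : ℝ) / 2) ^ 2 : ℝ) : ℂ) • (1 : Op V s) - onSite x (s3 s) * onSite y (s3 s) := by
        rw [hZ, hZ, Matrix.diagonal_mul_diagonal]
        ext σ τ
        by_cases hst : σ = τ
        · subst hst
          simp
        · simp [hst]
      rw [e7, Matrix.mul_sub, Matrix.trace_sub, Matrix.mul_smul, Matrix.mul_one,
        Matrix.trace_smul, Complex.sub_re, smul_eq_mul, Complex.re_ofReal_mul] at h6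
      rw [hpart]
      unfold ex
      rw [← hE]
      linarith
  · intro x
    constructor
    · have h5 := trpos (onSite x (sPlus s))
      rw [hH] at h5
      exact h5
    · have h6 := trdiag (fun σ => ((s : ℝ) - ((σ x : ℕ) : ℝ)) * ((s : ℝ) - ((σ x : ℕ) : ℝ) - 1)) (by
          intro σ
          have := (σ x).isLt
          rcases Nat.lt_or_ge (σ x : ℕ) s with h7 | h7
          · have h8 : ((σ x : ℕ) : ℝ) + 1 ≤ s := by exact_mod_cast h7
            apply mul_nonneg <;> linarith
          · have h8 : ((σ x : ℕ) : ℝ) = s := by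
              have : (σ x : ℕ) = s := by omega
              exact_mod_cast this
            rw [h8]
            simp)
      have e7 : Matrix.diagonal (fun σ : V → Fin (s + 1) =>
          ((((s : ℝ) - ((σ x : ℕ) : ℝ)) * ((s : ℝ) - ((σ x : ℕ) : ℝ) - 1) : ℝ) : ℂ)) =
          (((s : ℝ) * ((s : ℝ) / 2) : ℝ) : ℂ) • (1 : Op V s) - ((s : ℝ) : ℂ) • onSite x (s3 s) -
            onSite x (sPlus s)ᴴ * onSite x (sPlus s) := by
        rw [← hmul, hQP, hZ, hdiag]
        ext σ τ
        by_cases hst : σ = τ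
        · subst hst
          simp
          ring
        · simp [hst]
      rw [e7, Matrix.mul_sub, Matrix.trace_sub, Matrix.mul_sub, Matrix.trace_sub, Matrix.mul_smul,
        Matrix.mul_one, Matrix.trace_smul, Matrix.mul_smul, Matrix.trace_smul, Complex.sub_re,
        Complex.sub_re, smul_eq_mul, smul_eq_mul, Complex.re_ofReal_mul,
        Complex.re_ofReal_mul] at h6
      rw [hpart]
      unfold ex
      rw [← hE]
      linarith

end Vale.Agent.P361.Ex
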