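import Vale.Agent.P361.Mods

open scoped Matrix ComplexOrder
open MeasureTheory

namespace Vale.Agent.P361.Fn

/-- Geometric sum. -/
theorem geom_le (a : ℝ) (M : ℕ) :
    (Real.exp a - 1) * ∑ n ∈ Finset.Icc 1 M, Real.exp (-(n * a)) ≤ 1 := by
  have h1 : (Real.exp a - 1) * ∑ n ∈ Finset.Icc 1 M, Real.exp (-(n * a)) =
      1 - Real.exp (-(M * a)) := by
    induction M with
    | zero => simp
    | succ M ih =>
      rw [Finset.sum_Icc_succ_top (by omega), mul_add, ih, sub_mul, ← Real.exp_add]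
      have h2 : a + -(((M + 1 : ℕ) : ℝ) * a) = -(M * a) := by
        push_cast
        ring
      rw [h2]
      ring
  rw [h1]
  have := Real.exp_pos (-(M * a))
  linarith

theorem ex_mag {V : Type} [Fintype V] [DecidableEq V] (s : ℕ) (adj : V → V → Prop) (β h : ℝ) :
    ∑ x, ex s adj β h (onSite x (s3 s)) = ex s adj β h (mag V s) := by
  unfold ex mag
  rw [Matrix.mul_sum, Matrix.trace_sum, Complex.re_sum]

/-- The inequality for one mode. -/
theorem core (hRB : RB) (hGib : GIB) (hExb : EXB) (hDB : DB) {V : Type} [Fintype V]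
    [DecidableEq V] (s : ℕ) (hs : 1 ≤ s) (adj : V → V → Prop) [DecidableRel adj] (β h : ℝ)
    (hβ : 0 < β) (hh : 0 < h) (hadj : ∀ x y, adj x y → x ≠ y) (hsymm : ∀ x y, adj x y → adj y x)
    (Z L m : ℝ) (hZdef : part s adj β h = Z) (hLdef : (Fintype.card V : ℝ) = L)
    (hmdef : ex s adj β h (mag V s) / (Z * L) = m) (hm : 0 < m) :
    0 < Z * L ∧ m ≤ (s : ℝ) / 2 ∧
      ∑ x, ex s adj β h (onSite x (sPlus s)ᴴ * onSite x (sPlus s)) ≤
        s * (Z * L) * ((s : ℝ) / 2 - m) ∧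
      ∀ u : V → ℂ, (∀ x, ‖u x‖ = 1) → ∀ E0 : ℝ, 0 ≤ E0 →
        (∀ c : V → ℝ, (∀ x, 0 ≤ c x) →
          ∑ x, ∑ y, (if adj x y then ‖u x - u y‖ ^ 2 * c x else 0) ≤ 4 * E0 * ∑ x, c x) →
        ∀ M : ℕ, 2 * (m * (Z * L)) * ∑ n ∈ Finset.Icc 1 M,
          Real.exp (-(n * (β * (((s - m) / m) * s * E0) + β * h))) ≤
          (Matrix.trace (gibbs s adj β h * ((mode s u)ᴴ * mode s u))).re := by
  obtain ⟨hHh, hMh, hE, hEt, hZ⟩ := hGib V s adj β h hadj
  obtain ⟨-, hb2⟩ := hExb V s adj β h hadj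
  rw [hZdef] at hZ
  have hL0 : 0 ≤ L := by
    rw [← hLdef]
    positivity
  have hL : 0 < L := by
    rcases hL0.lt_or_eq with h1 | h1
    · exact h1
    · exfalso
      have : m = 0 := by
        rw [← hmdef, ← h1]
        simp
      linarith
  have hs0 : (0 : ℝ) < s := by exact_mod_cast hs
  have hZL : 0 < Z * L := mul_pos hZ hL
  have hexm : ex s adj β h (mag V s) = m * (Z * L) := by
    rw [← hmdef, div_mul_cancel₀]
    exact hZL.ne'
  have hnx0 : ∀ x, 0 ≤ ex s adj β h (onSite x (sPlus s)ᴴ * onSite x (sPlus s)) :=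
    fun x => (hb2 x).1
  have hexsum : ∑ x, ex s adj β h (onSite x (s3 s)) = m * (Z * L) := by
    rw [← hexm]
    exact ex_mag s adj β h
  have hnsum : ∑ x, ex s adj β h (onSite x (sPlus s)ᴴ * onSite x (sPlus s)) ≤
      s * (Z * L) * ((s : ℝ) / 2 - m) := by
    have h1 : ∑ x, ex s adj β h (onSite x (sPlus s)ᴴ * onSite x (sPlus s)) ≤
        ∑ x : V, (s : ℝ) * ((s : ℝ) / 2 * Z - ex s adj β h (onSite x (s3 s))) := by
      apply Finset.sum_le_sum
      intro x _
      have := (hb2 x).2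
      rw [hZdef] at this
      exact this
    refine h1.trans (le_of_eq ?_)
    rw [← Finset.mul_sum, Finset.sum_sub_distrib, hexsum]
    simp only [Finset.sum_const, Finset.card_univ, nsmul_eq_mul]
    rw [hLdef]
    ring
  have hms : m ≤ (s : ℝ) / 2 := by
    have h1 : 0 ≤ ∑ x, ex s adj β h (onSite x (sPlus s)ᴴ * onSite x (sPlus s)) :=
      Finset.sum_nonneg fun x _ => hnx0 x
    have h2 : 0 ≤ s * (Z * L) * ((s : ℝ) / 2 - m) := h1.trans hnsum
    have h3 : 0 < s * (Z * L) := mul_pos hs0 hZL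
    have h4 : 0 ≤ (s : ℝ) / 2 - m := nonneg_of_mul_nonneg_right h2 h3
    linarith
  have hsm : 0 < (s - m) / m := div_pos (by linarith) hm
  refine ⟨hZL, hms, hnsum, ?_⟩
  intro u hu E0 hE0 hgeo M
  have hF0 : 0 < 2 * (m * (Z * L)) := by positivity
  have ha0 : 0 < β * (((s - m) / m) * s * E0) + β * h := by
    have h1 : 0 ≤ β * (((s - m) / m) * s * E0) := by positivity
    have h2 : 0 < β * h := mul_pos hβ hh
    linarith
  generalize had : β * (((s - m) / m) * s * E0) + β * h = a at ha0 ⊢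
  have hmode : 2 * (m * (Z * L)) ≤ (Real.exp a - 1) *
      (Matrix.trace (gibbs s adj β h * ((mode s u)ᴴ * mode s u))).re := by
    have hgeo := hgeo (fun x => 2 * ((s : ℝ) / 2) ^ 2 * Z +
      ex s adj β h (onSite x (sPlus s)ᴴ * onSite x (sPlus s))) (fun x => by
      have := hnx0 x
      positivity)
    obtain ⟨hd1, hd2⟩ := hDB V s adj β h hadj hsymm hβ u hu
    rw [hexm] at hd1 hd2
    have hK : ((β : ℂ) • (ham s adj - (h : ℂ) • mag V s)).IsHermitian := by
      have e1 : star (β : ℂ) = (β : ℂ) := Complex.conj_ofReal β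
      have e2 : star (h : ℂ) = (h : ℂ) := Complex.conj_ofReal h
      unfold Matrix.IsHermitian
      rw [Matrix.conjTranspose_smul, Matrix.conjTranspose_sub, Matrix.conjTranspose_smul,
        hHh.eq, hMh.eq, e1, e2]
    have hrb := hRB _ ((β : ℂ) • (ham s adj - (h : ℂ) • mag V s)) (mode s u) hK a ha0
    have hg : NormedSpace.exp (-((β : ℂ) • (ham s adj - (h : ℂ) • mag V s))) =
        gibbs s adj β h := rfl
    rw [hg, hd2] at hrb
    apply hrb
    refine hd1.trans ?_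
    rw [hZdef]
    have hc : ∑ x : V, (2 * ((s : ℝ) / 2) ^ 2 * Z +
        ex s adj β h (onSite x (sPlus s)ᴴ * onSite x (sPlus s))) ≤ s * (Z * L) * (s - m) := by
      rw [Finset.sum_add_distrib]
      simp only [Finset.sum_const, Finset.card_univ, nsmul_eq_mul]
      rw [hLdef]
      have h6 : s * (Z * L) * (s - m) =
          L * (2 * ((s : ℝ) / 2) ^ 2 * Z) + s * (Z * L) * ((s : ℝ) / 2 - m) := by ring
      rw [h6]
      linarith
    have h2 := mul_le_mul_of_nonneg_left hc (by positivity : 0 ≤ 4 * E0)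
    have h3 := hgeo.trans h2
    have h4 := mul_le_mul_of_nonneg_left h3 hβ.le
    have h5 : β * (2 * E0 * (s * (Z * L) * (s - m))) + β * h * (2 * (m * (Z * L))) =
        a * (2 * (m * (Z * L))) := by
      rw [← had]
      field_simp
    rw [← h5]
    linarith [h4]
  have h1 : 0 < Real.exp a - 1 := by
    have := Real.add_one_lt_exp ha0.ne'
    linarith
  have h3 := geom_le a M
  have h4 : (Real.exp a - 1) * (2 * (m * (Z * L)) * ∑ n ∈ Finset.Icc 1 M, Real.exp (-(n * a))) ≤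
      (Real.exp a - 1) * (Matrix.trace (gibbs s adj β h * ((mode s u)ᴴ * mode s u))).re := by
    calc (Real.exp a - 1) * (2 * (m * (Z * L)) * ∑ n ∈ Finset.Icc 1 M, Real.exp (-(n * a))) =
        2 * (m * (Z * L)) * ((Real.exp a - 1) * ∑ n ∈ Finset.Icc 1 M, Real.exp (-(n * a))) := by
          ring
      _ ≤ 2 * (m * (Z * L)) * 1 := mul_le_mul_of_nonneg_left h3 hF0.le
      _ = 2 * (m * (Z * L)) := mul_one _
      _ ≤ _ := hmode
  exact le_of_mul_le_mul_left h4 h1

/-- The integration step, abstractly. -/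
theorem integrate (hGint : GINT) (nk : (Fin 3 → ℝ) → ℝ) (S F β h t : ℝ) (M : ℕ)
    (hcont : ContinuousOn nk (Set.Icc (fun _ : Fin 3 => -Real.pi) (fun _ : Fin 3 => Real.pi)))
    (hint : ∫ k in Set.Icc (fun _ : Fin 3 => -Real.pi) (fun _ : Fin 3 => Real.pi), nk k =
      (2 * Real.pi) ^ 3 * S)
    (hle : ∀ k : Fin 3 → ℝ, F * ∑ n ∈ Finset.Icc 1 M,
      Real.exp (-(n * (β * (t * ∑ j, (1 - Real.cos (k j))) + β * h))) ≤ nk k) :
    F * ∑ n ∈ Finset.Icc 1 M, Real.exp (-(n * β * h)) * gB (n * β * t) ^ 3 ≤ S := by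
  have hcomp : IsCompact (Set.Icc (fun _ : Fin 3 => -Real.pi) (fun _ : Fin 3 => Real.pi)) :=
    isCompact_Icc
  have hcont2 : Continuous fun k : Fin 3 → ℝ =>
      F * ∑ n ∈ Finset.Icc 1 M,
        Real.exp (-(n * (β * (t * ∑ j, (1 - Real.cos (k j))) + β * h))) := by
    fun_prop
  have hle : ∫ k in Set.Icc (fun _ : Fin 3 => -Real.pi) (fun _ : Fin 3 => Real.pi),
      F * ∑ n ∈ Finset.Icc 1 M,
        Real.exp (-(n * (β * (t * ∑ j, (1 - Real.cos (k j))) + β * h))) ≤
      ∫ k in Set.Icc (fun _ : Fin 3 => -Real.pi) (fun _ : Fin 3 => Real.pi), nk k := by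
    apply setIntegral_mono_on
    · exact hcont2.continuousOn.integrableOn_compact hcomp
    · exact hcont.integrableOn_compact hcomp
    · exact hcomp.measurableSet
    · intro k _
      exact hle k
  have hcalc : ∫ k in Set.Icc (fun _ : Fin 3 => -Real.pi) (fun _ : Fin 3 => Real.pi),
      F * ∑ n ∈ Finset.Icc 1 M,
        Real.exp (-(n * (β * (t * ∑ j, (1 - Real.cos (k j))) + β * h))) =
      F * ∑ n ∈ Finset.Icc 1 M, Real.exp (-(n * β * h)) *
        ((2 * Real.pi) ^ 3 * gB (n * β * t) ^ 3) := by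
    rw [integral_const_mul, integral_finsetSum]
    · congr 1
      apply Finset.sum_congr rfl
      intro n _
      rw [← hGint, ← integral_const_mul]
      congr 1
      funext k
      rw [← Real.exp_add]
      congr 1
      ring
    · intro n _
      apply Continuous.integrableOn_Icc
      fun_prop
  rw [hcalc, hint] at hle
  have hpi : (0 : ℝ) < (2 * Real.pi) ^ 3 := by positivity
  have h1 : F * ∑ n ∈ Finset.Icc 1 M, Real.exp (-(n * β * h)) *
        ((2 * Real.pi) ^ 3 * gB (n * β * t) ^ 3) =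
      (2 * Real.pi) ^ 3 * (F * ∑ n ∈ Finset.Icc 1 M, Real.exp (-(n * β * h)) *
        gB (n * β * t) ^ 3) := by
    rw [Finset.mul_sum, Finset.mul_sum, Finset.mul_sum]
    apply Finset.sum_congr rfl
    intro n _
    ring
  rw [h1] at hle
  exact le_of_mul_le_mul_left hle hpi

theorem fin_proof (hRB : RB) (hGib : GIB) (hExb : EXB) (hDB : DB)
    (hGeo : GEO) (hPars : PARS) (hGint : GINT) : FIN := by
  intro s N hs β h hβ hh hm M
  have : DecidableRel (nn (N := N)) := fun _ _ => Classical.propDecidable _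
  have hadj : ∀ x y : Box N, nn x y → x ≠ y := (hGeo N 0).1
  have hsymm : ∀ x y : Box N, nn x y → nn y x := (hGeo N 0).2.1
  obtain ⟨m, hmdef⟩ : ∃ m, m = mN s N β h := ⟨_, rfl⟩
  obtain ⟨Z, hZdef⟩ : ∃ Z, part s (nn (N := N)) β h = Z := ⟨_, rfl⟩
  obtain ⟨L, hLdef⟩ : ∃ L, (Fintype.card (Box N) : ℝ) = L := ⟨_, rfl⟩
  have hmm : ex s (nn (N := N)) β h (mag (Box N) s) / (Z * L) = m := by
    rw [hmdef]
    unfold mN
    rw [hZdef, hLdef]
  rw [← hmdef] at hm ⊢
  obtain ⟨hZL, hms, hnsum, hmode⟩ := core hRB hGib hExb hDB s hs (nn (N := N)) β h hβ hh hadj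
    hsymm Z L m hZdef hLdef hmm hm
  obtain ⟨hcont, hint⟩ := hPars s N (gibbs s (nn (N := N)) β h)
  have hs0 : (0 : ℝ) < s := by exact_mod_cast hs
  have h2 := integrate hGint _ _ (2 * (m * (Z * L))) β h ((s - m) / m * s) M hcont hint (by
    intro k
    have hE0 : 0 ≤ ∑ j, (1 - Real.cos (k j)) := Finset.sum_nonneg fun j _ => by
      have := Real.cos_le_one (k j)
      linarith
    exact hmode (wave N k) (hGeo N k).2.2.1 _ hE0 (hGeo N k).2.2.2 M)
  have h3 : 2 * (m * (Z * L)) * ∑ n ∈ Finset.Icc 1 M, Real.exp (-(n * β * h)) *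
      gB (n * β * ((s - m) / m * s)) ^ 3 ≤ s * (Z * L) * ((s : ℝ) / 2 - m) := h2.trans hnsum
  have h5 : ∑ n ∈ Finset.Icc 1 M, Real.exp (-(n * β * h)) *
      gB (n * β * ((s - m) / m * s)) ^ 3 = ∑ n ∈ Finset.Icc 1 M, Real.exp (-(n * β * h)) *
      gB (n * β * ((s - m) / m) * s) ^ 3 := by
    apply Finset.sum_congr rfl
    intro n _
    rw [mul_assoc (n * β : ℝ)]
  rw [h5] at h3
  have h4 : (s * (Z * L)) * (m / ((s : ℝ) / 2) * ∑ n ∈ Finset.Icc 1 M, Real.exp (-(n * β * h)) *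
      gB (n * β * ((s - m) / m) * s) ^ 3) ≤ (s * (Z * L)) * ((s : ℝ) / 2 - m) := by
    refine le_trans (le_of_eq ?_) h3
    generalize (∑ n ∈ Finset.Icc 1 M, Real.exp (-(n * β * h)) *
      gB (n * β * ((s - m) / m) * s) ^ 3) = T
    field_simp
  exact le_of_mul_le_mul_left h4 (mul_pos hs0 hZL)

end Vale.Agent.P361.Fn
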