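import Vale.Agent.P361.Mods

/-!
P361, module GEO (helper15).
-/

namespace Vale.Agent.P361.Geo

theorem nn_cases {N : ℕ} (x y : Box N) (h : nn x y) :
    ∃ j : Fin 3, ∃ b : Bool, ∀ i, (y : Fin 3 → ℤ) i =
      (x : Fin 3 → ℤ) i + if i = j then (if b then 1 else -1) else 0 := by
  unfold nn at h
  rw [Fin.sum_univ_three] at h
  have h0 := abs_cases ((x : Fin 3 → ℤ) 0 - (y : Fin 3 → ℤ) 0)
  have h1 := abs_cases ((x : Fin 3 → ℤ) 1 - (y : Fin 3 → ℤ) 1)
  have h2 := abs_cases ((x : Fin 3 → ℤ) 2 - (y : Fin 3 → ℤ) 2)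
  have h3 : ((x : Fin 3 → ℤ) 0 ≠ (y : Fin 3 → ℤ) 0 ∧ (x : Fin 3 → ℤ) 1 = (y : Fin 3 → ℤ) 1 ∧
      (x : Fin 3 → ℤ) 2 = (y : Fin 3 → ℤ) 2) ∨ ((x : Fin 3 → ℤ) 0 = (y : Fin 3 → ℤ) 0 ∧
      (x : Fin 3 → ℤ) 1 ≠ (y : Fin 3 → ℤ) 1 ∧ (x : Fin 3 → ℤ) 2 = (y : Fin 3 → ℤ) 2) ∨
      ((x : Fin 3 → ℤ) 0 = (y : Fin 3 → ℤ) 0 ∧ (x : Fin 3 → ℤ) 1 = (y : Fin 3 → ℤ) 1 ∧
      (x : Fin 3 → ℤ) 2 ≠ (y : Fin 3 → ℤ) 2) := by
    omega
  have hb : ∀ a b : ℤ, |a - b| = 1 → ∃ c : Bool, b = a + (if c then 1 else -1) := by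
    intro a b hab
    rcases abs_cases (a - b) with h | h
    · exact ⟨false, by simp; omega⟩
    · exact ⟨true, by simp; omega⟩
  rcases h3 with h3 | h3 | h3
  · obtain ⟨c, hc⟩ := hb ((x : Fin 3 → ℤ) 0) ((y : Fin 3 → ℤ) 0) (by omega)
    refine ⟨0, c, ?_⟩
    intro i
    fin_cases i
    · simpa using hc
    · simpa using h3.2.1.symm
    · simpa using h3.2.2.symm
  · obtain ⟨c, hc⟩ := hb ((x : Fin 3 → ℤ) 1) ((y : Fin 3 → ℤ) 1) (by omega)
    refine ⟨1, c, ?_⟩
    intro i
    fin_cases i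
    · simpa using h3.1.symm
    · simpa using hc
    · simpa using h3.2.2.symm
  · obtain ⟨c, hc⟩ := hb ((x : Fin 3 → ℤ) 2) ((y : Fin 3 → ℤ) 2) (by omega)
    refine ⟨2, c, ?_⟩
    intro i
    fin_cases i
    · simpa using h3.1.symm
    · simpa using h3.2.1.symm
    · simpa using hc

theorem norm_wave (N : ℕ) (k : Fin 3 → ℝ) (x : Box N) : ‖wave N k x‖ = 1 := by
  unfold wave
  rw [mul_comm]
  exact Complex.norm_exp_ofReal_mul_I _

theorem norm_one_sub_exp (θ : ℝ) : ‖1 - Complex.exp (Complex.I * (θ : ℂ))‖ ^ 2 =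
    2 * (1 - Real.cos θ) := by
  rw [mul_comm, Complex.sq_norm, Complex.normSq_apply, Complex.exp_mul_I]
  simp only [Complex.sub_re, Complex.one_re, Complex.add_re, Complex.sub_im, Complex.one_im,
    Complex.add_im, Complex.mul_re, Complex.mul_im, Complex.I_re, Complex.I_im,
    Complex.cos_ofReal_re, Complex.cos_ofReal_im, Complex.sin_ofReal_re, Complex.sin_ofReal_im]
  have := Real.sin_sq_add_cos_sq θ
  nlinarith

theorem wave_diff {N : ℕ} (k : Fin 3 → ℝ) (x y : Box N) (j : Fin 3) (b : Bool)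
    (h : ∀ i, (y : Fin 3 → ℤ) i =
      (x : Fin 3 → ℤ) i + if i = j then (if b then 1 else -1) else 0) :
    ‖wave N k x - wave N k y‖ ^ 2 = 2 * (1 - Real.cos (k j)) := by
  have h1 : wave N k y = wave N k x * Complex.exp (Complex.I *
      (((if b then k j else - k j) : ℝ) : ℂ)) := by
    unfold wave
    rw [← Complex.exp_add, ← mul_add, ← Complex.ofReal_add]
    congr 4
    have h2 : ∀ i, k i * (((y : Fin 3 → ℤ) i : ℤ) : ℝ) = k i * (((x : Fin 3 → ℤ) i : ℤ) : ℝ) +
        if i = j then (if b then k j else - k j) else 0 := by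
      intro i
      rw [h i]
      by_cases hij : i = j
      · subst hij
        cases b <;> simp <;> ring
      · simp [hij]
    rw [Finset.sum_congr rfl fun i _ => h2 i, Finset.sum_add_distrib, Finset.sum_ite_eq'
      Finset.univ j]
    simp
  have h3 : wave N k x - wave N k y = wave N k x * (1 - Complex.exp (Complex.I *
      (((if b then k j else - k j) : ℝ) : ℂ))) := by
    rw [h1]
    ring
  rw [h3, norm_mul, mul_pow, norm_wave, one_pow, one_mul, norm_one_sub_exp]
  cases b <;> simp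

theorem geo_proof : GEO := by
  intro N _ k
  refine ⟨?_, ?_, norm_wave N k, ?_⟩
  · intro x y h hxy
    subst hxy
    unfold nn at h
    simp at h
  · intro x y h
    unfold nn at h ⊢
    rw [← h]
    exact Finset.sum_congr rfl fun i _ => abs_sub_comm _ _
  · intro c hc
    rw [Finset.mul_sum]
    refine Finset.sum_le_sum ?_
    intro x _
    classical
    have h1 : ∀ y : Box N, (if nn x y then ‖wave N k x - wave N k y‖ ^ 2 * c x else 0) ≤
        ∑ jb : Fin 3 × Bool, if (∀ i, (y : Fin 3 → ℤ) i =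
          (x : Fin 3 → ℤ) i + if i = jb.1 then (if jb.2 then 1 else -1) else 0) then
          2 * (1 - Real.cos (k jb.1)) * c x else 0 := by
      intro y
      have hnn : ∀ jb : Fin 3 × Bool, 0 ≤ (if (∀ i, (y : Fin 3 → ℤ) i =
          (x : Fin 3 → ℤ) i + if i = jb.1 then (if jb.2 then 1 else -1) else 0) then
          2 * (1 - Real.cos (k jb.1)) * c x else 0) := by
        intro jb
        have hp : 0 ≤ 2 * (1 - Real.cos (k jb.1)) * c x := by
          have := Real.cos_le_one (k jb.1)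
          exact mul_nonneg (by linarith) (hc x)
        split_ifs <;> first | exact hp | exact le_refl _
      by_cases hxy : nn x y
      · rw [if_pos hxy]
        obtain ⟨j, b, hjb⟩ := nn_cases x y hxy
        refine le_trans ?_ (Finset.single_le_sum (fun jb _ => hnn jb) (Finset.mem_univ (j, b)))
        rw [wave_diff k x y j b hjb]
        simp only
        rw [if_pos hjb]
      · rw [if_neg hxy]
        exact Finset.sum_nonneg fun jb _ => hnn jb
    refine le_trans (Finset.sum_le_sum fun y _ => h1 y) ?_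
    rw [Finset.sum_comm]
    have h2 : ∀ jb : Fin 3 × Bool, (∑ y : Box N, if (∀ i, (y : Fin 3 → ℤ) i =
          (x : Fin 3 → ℤ) i + if i = jb.1 then (if jb.2 then 1 else -1) else 0) then
          2 * (1 - Real.cos (k jb.1)) * c x else 0) ≤ 2 * (1 - Real.cos (k jb.1)) * c x := by
      intro jb
      have hnn : 0 ≤ 2 * (1 - Real.cos (k jb.1)) * c x := by
        have := Real.cos_le_one (k jb.1)
        exact mul_nonneg (by linarith) (hc x)
      rw [← Finset.sum_filter, Finset.sum_const, nsmul_eq_mul]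
      have hcard : (Finset.univ.filter fun y : Box N => ∀ i, (y : Fin 3 → ℤ) i =
          (x : Fin 3 → ℤ) i + if i = jb.1 then (if jb.2 then 1 else -1) else 0).card ≤ 1 := by
        rw [Finset.card_le_one]
        intro a ha b hb
        rw [Finset.mem_filter] at ha hb
        apply Subtype.ext
        funext i
        rw [ha.2 i, hb.2 i]
      have hcard' : (((Finset.univ.filter fun y : Box N => ∀ i, (y : Fin 3 → ℤ) i =
          (x : Fin 3 → ℤ) i + if i = jb.1 then (if jb.2 then 1 else -1) else 0).card : ℕ) : ℝ)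
          ≤ 1 := by exact_mod_cast hcard
      nlinarith
    refine le_trans (Finset.sum_le_sum fun jb _ => h2 jb) ?_
    rw [Fintype.sum_prod_type]
    simp only [Fintype.sum_bool, Fin.sum_univ_three]
    apply le_of_eq
    ring

end Vale.Agent.P361.Geo
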