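import Vale.Agent.P361.Mods

open scoped Matrix ComplexOrder

namespace Vale.Agent.P361.Gi

lemma sPlus_transpose (s : ℕ) : (sPlus s)ᵀ = (sPlus s)ᴴ := by
  ext a b
  rw [Matrix.transpose_apply, Matrix.conjTranspose_apply]
  unfold sPlus
  split_ifs
  · exact (Complex.conj_ofReal _).symm
  · simp

lemma sPlusH_transpose (s : ℕ) : ((sPlus s)ᴴ)ᵀ = sPlus s := by
  rw [← sPlus_transpose, Matrix.transpose_transpose]

lemma s1_transpose (s : ℕ) : (s1 s)ᵀ = s1 s := by
  unfold s1
  rw [Matrix.transpose_smul, Matrix.transpose_add, sPlus_transpose, sPlusH_transpose]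
  congr 1
  exact add_comm _ _

lemma s2_transpose (s : ℕ) : (s2 s)ᵀ = -s2 s := by
  unfold s2
  rw [Matrix.transpose_smul, Matrix.transpose_sub, sPlus_transpose, sPlusH_transpose,
    ← smul_neg, neg_sub]

lemma s3_transpose (s : ℕ) : (s3 s)ᵀ = s3 s := by
  unfold s3
  rw [Matrix.diagonal_transpose]

theorem gib_proof (hSite : SITE) (hLoc : LOC) : GIB := by
  intro V _ _ s adj β h hadj
  obtain ⟨hmul, hadd, hsmul, hH, hT, hcomm, hdiag⟩ := hSite V s
  obtain ⟨-, -, -, h1, h2, h3⟩ := hLoc s
  have hneg : ∀ (x : V) (A : LOp s), onSite x (-A) = -onSite x A := by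
    intro x A
    have := hsmul x (-1) A
    simpa using this
  have hterm : ∀ x y : V, x ≠ y → ∀ A : LOp s, A.IsHermitian →
      (onSite x A * onSite y A)ᴴ = onSite x A * onSite y A := by
    intro x y hxy A hA
    rw [Matrix.conjTranspose_mul, hH, hH, hA.eq, hcomm x y _ _ hxy]
  have htermT : ∀ x y : V, x ≠ y → ∀ A : LOp s, Aᵀ = A →
      (onSite x A * onSite y A)ᵀ = onSite x A * onSite y A := by
    intro x y hxy A hA
    rw [Matrix.transpose_mul, hT, hT, hA, hcomm x y _ _ hxy]
  have htermT' : ∀ x y : V, x ≠ y → ∀ A : LOp s, Aᵀ = -A →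
      (onSite x A * onSite y A)ᵀ = onSite x A * onSite y A := by
    intro x y hxy A hA
    rw [Matrix.transpose_mul, hT, hT, hA, hneg, hneg, neg_mul_neg, hcomm x y _ _ hxy]
  have hdotH : ∀ x y : V, x ≠ y → (dot s x y)ᴴ = dot s x y := by
    intro x y hxy
    unfold dot
    rw [Matrix.conjTranspose_add, Matrix.conjTranspose_add, hterm x y hxy _ h1,
      hterm x y hxy _ h2, hterm x y hxy _ h3]
  have hdotT : ∀ x y : V, x ≠ y → (dot s x y)ᵀ = dot s x y := by
    intro x y hxy
    unfold dot
    rw [Matrix.transpose_add, Matrix.transpose_add, htermT x y hxy _ (s1_transpose s),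
      htermT' x y hxy _ (s2_transpose s), htermT x y hxy _ (s3_transpose s)]
  have hhamH : (ham s adj)ᴴ = ham s adj := by
    unfold ham
    rw [Matrix.conjTranspose_neg, Matrix.conjTranspose_smul, Matrix.conjTranspose_sum]
    congr 1
    have hs : star (1 / 2 : ℂ) = 1 / 2 := by simp
    rw [hs]
    congr 1
    apply Finset.sum_congr rfl
    intro x _
    rw [Matrix.conjTranspose_sum]
    apply Finset.sum_congr rfl
    intro y _
    split_ifs with hxy
    · exact hdotH x y (hadj x y hxy)
    · simp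
  have hhamT : (ham s adj)ᵀ = ham s adj := by
    unfold ham
    rw [Matrix.transpose_neg, Matrix.transpose_smul, Matrix.transpose_sum]
    congr 2
    apply Finset.sum_congr rfl
    intro x _
    rw [Matrix.transpose_sum]
    apply Finset.sum_congr rfl
    intro y _
    split_ifs with hxy
    · exact hdotT x y (hadj x y hxy)
    · simp
  have hmagH : (mag V s)ᴴ = mag V s := by
    unfold mag
    rw [Matrix.conjTranspose_sum]
    apply Finset.sum_congr rfl
    intro x _
    rw [hH, h3.eq]
  have hmagT : (mag V s)ᵀ = mag V s := by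
    unfold mag
    rw [Matrix.transpose_sum]
    apply Finset.sum_congr rfl
    intro x _
    rw [hT, s3_transpose]
  set K : Op V s := (β : ℂ) • (ham s adj - (h : ℂ) • mag V s) with hK
  have hKH : Kᴴ = K := by
    rw [hK, Matrix.conjTranspose_smul, Matrix.conjTranspose_sub, Matrix.conjTranspose_smul, hhamH,
      hmagH]
    simp
  have hKT : Kᵀ = K := by
    rw [hK, Matrix.transpose_smul, Matrix.transpose_sub, Matrix.transpose_smul, hhamT, hmagT]
  have hg : gibbs s adj β h = NormedSpace.exp (-K) := rfl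
  have hgT : (gibbs s adj β h)ᵀ = gibbs s adj β h := by
    rw [hg, ← Matrix.exp_transpose, Matrix.transpose_neg, hKT]
  set X : Op V s := NormedSpace.exp ((1 / 2 : ℂ) • (-K)) with hX
  have hXH : Xᴴ = X := by
    rw [hX, ← Matrix.exp_conjTranspose, Matrix.conjTranspose_smul, Matrix.conjTranspose_neg, hKH]
    simp
  have hXX : gibbs s adj β h = Xᴴ * X := by
    rw [hXH, hX, ← Matrix.exp_add_of_commute _ _ (Commute.refl _), hg, ← add_smul]
    norm_num
  have hXu : IsUnit X := Matrix.isUnit_exp _
  have hpd : (gibbs s adj β h).PosDef := by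
    rw [hXX]
    exact Matrix.PosDef.conjTranspose_mul_self X (Matrix.mulVec_injective_of_isUnit hXu)
  refine ⟨hhamH, hmagH, hpd.posSemidef, hgT, ?_⟩
  have htr := hpd.trace_pos
  unfold part
  exact (Complex.pos_iff.mp htr).1

end Vale.Agent.P361.Gi
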