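import Vale.Agent.P361.Mods

open scoped Matrix
open MeasureTheory

namespace Vale.Agent.P361.GI

open Vale.Agent.P361

theorem gint_proof : GINT := by
  intro t
  have h1 : Set.Icc (fun _ : Fin 3 => -Real.pi) (fun _ : Fin 3 => Real.pi) =
      Set.univ.pi fun _ : Fin 3 => Set.Icc (-Real.pi) Real.pi := by
    rw [Set.pi_univ_Icc]
  have h2 : ∀ k : Fin 3 → ℝ, Real.exp (-(t * ∑ j, (1 - Real.cos (k j)))) =
      ∏ j, Real.exp (-(t * (1 - Real.cos (k j)))) := by
    intro k
    rw [← Real.exp_sum, Finset.mul_sum, ← Finset.sum_neg_distrib]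
  rw [h1]
  simp only [h2]
  rw [volume_pi, Measure.restrict_pi_pi]
  rw [MeasureTheory.integral_fintype_prod_eq_prod (𝕜 := ℝ) (fun _ : Fin 3 => fun x : ℝ => Real.exp (-(t * (1 - Real.cos x))))]
  rw [Finset.prod_const, Finset.card_univ, Fintype.card_fin]
  have h3 : ∫ x in Set.Icc (-Real.pi) Real.pi, Real.exp (-(t * (1 - Real.cos x))) =
      2 * Real.pi * gB t := by
    unfold gB
    rw [intervalIntegral.integral_of_le (by linarith [Real.pi_pos]), integral_Icc_eq_integral_Ioc]
    have := Real.pi_pos.ne'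
    field_simp
  rw [h3, mul_pow]

end Vale.Agent.P361.GI
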