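import Vale.Agent.P361.Mods

open scoped Matrix

namespace Vale.Agent.P361.LO

open Vale.Agent.P361

lemma sPlus_succ (s : ℕ) (a b : Fin (s + 1)) (h : (a : ℕ) = (b : ℕ) + 1) :
    sPlus s a b = ((Real.sqrt (((b : ℕ) + 1 : ℝ) * ((s : ℝ) - (b : ℕ))) : ℝ) : ℂ) := by
  simp only [sPlus]
  rw [if_pos h]

lemma sPlus_ne (s : ℕ) (a b : Fin (s + 1)) (h : (a : ℕ) ≠ (b : ℕ) + 1) : sPlus s a b = 0 := by
  simp only [sPlus]
  rw [if_neg h]

lemma sq_val (s : ℕ) (b : Fin (s + 1)) :
    ((Real.sqrt (((b : ℕ) + 1 : ℝ) * ((s : ℝ) - (b : ℕ))) : ℝ) : ℂ) *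
      ((Real.sqrt (((b : ℕ) + 1 : ℝ) * ((s : ℝ) - (b : ℕ))) : ℝ) : ℂ) =
      (((b : ℕ) : ℂ) + 1) * ((s : ℂ) - ((b : ℕ) : ℂ)) := by
  have hb : ((b : ℕ) : ℝ) ≤ s := by exact_mod_cast Nat.lt_succ_iff.mp b.2
  have h0 : (0 : ℝ) ≤ ((b : ℕ) + 1 : ℝ) * ((s : ℝ) - (b : ℕ)) :=
    mul_nonneg (by positivity) (by linarith)
  rw [← Complex.ofReal_mul, Real.mul_self_sqrt h0]
  push_cast
  ring

lemma star_sPlus (s : ℕ) (a b : Fin (s + 1)) : star (sPlus s a b) = sPlus s a b := by
  by_cases h : (a : ℕ) = (b : ℕ) + 1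
  · rw [sPlus_succ s a b h]
    exact Complex.conj_ofReal _
  · rw [sPlus_ne s a b h, star_zero]

lemma relC (s : ℕ) : (sPlus s)ᴴ * sPlus s =
    Matrix.diagonal (fun a : Fin (s + 1) => (((a : ℕ) : ℂ) + 1) * ((s : ℂ) - ((a : ℕ) : ℂ))) := by
  ext a b
  rw [Matrix.mul_apply]
  simp only [Matrix.conjTranspose_apply, star_sPlus]
  by_cases hab : a = b
  · subst hab
    rw [Matrix.diagonal_apply_eq]
    by_cases ha : (a : ℕ) < s
    · let c : Fin (s + 1) := ⟨a + 1, by omega⟩
      rw [Finset.sum_eq_single c]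
      · rw [sPlus_succ s c a rfl, sq_val]
      · intro d _ hd
        rw [sPlus_ne s d a, zero_mul]
        intro h
        exact hd (Fin.ext h)
      · intro h
        exact absurd (Finset.mem_univ _) h
    · have has : (a : ℕ) = s := by have := a.2; omega
      rw [has, sub_self, mul_zero]
      apply Finset.sum_eq_zero
      intro d _
      rw [sPlus_ne s d a, zero_mul]
      have := d.2
      omega
  · rw [Matrix.diagonal_apply_ne _ hab]
    apply Finset.sum_eq_zero
    intro d _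
    by_cases h : (d : ℕ) = a + 1
    · rw [sPlus_ne s d b, mul_zero]
      intro h2
      apply hab
      apply Fin.ext
      omega
    · rw [sPlus_ne s d a h, zero_mul]

lemma relC' (s : ℕ) : sPlus s * (sPlus s)ᴴ =
    Matrix.diagonal (fun a : Fin (s + 1) => ((a : ℕ) : ℂ) * ((s : ℂ) + 1 - ((a : ℕ) : ℂ))) := by
  ext a b
  rw [Matrix.mul_apply]
  simp only [Matrix.conjTranspose_apply, star_sPlus]
  by_cases hab : a = b
  · subst hab
    rw [Matrix.diagonal_apply_eq]
    by_cases ha : (a : ℕ) = 0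
    · rw [ha]
      simp only [Nat.cast_zero, zero_mul]
      apply Finset.sum_eq_zero
      intro d _
      rw [sPlus_ne s a d, zero_mul]
      omega
    · let c : Fin (s + 1) := ⟨a - 1, by have := a.2; omega⟩
      have hc : (a : ℕ) = (c : ℕ) + 1 := by
        show (a : ℕ) = (a : ℕ) - 1 + 1
        omega
      rw [Finset.sum_eq_single c]
      · rw [sPlus_succ s a c hc, sq_val]
        have : ((a : ℕ) : ℂ) = ((c : ℕ) : ℂ) + 1 := by
          rw [hc]
          push_cast
          ring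
        rw [this]
        ring
      · intro d _ hd
        rw [sPlus_ne s a d, zero_mul]
        intro h
        apply hd
        apply Fin.ext
        omega
      · intro h
        exact absurd (Finset.mem_univ _) h
  · rw [Matrix.diagonal_apply_ne _ hab]
    apply Finset.sum_eq_zero
    intro d _
    by_cases h : (a : ℕ) = d + 1
    · rw [sPlus_ne s b d, mul_zero]
      intro h2
      apply hab
      apply Fin.ext
      omega
    · rw [sPlus_ne s a d h, zero_mul]

lemma relA (s : ℕ) : s3 s * sPlus s - sPlus s * s3 s = sPlus s := by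
  ext a b
  rw [s3, Matrix.sub_apply, Matrix.diagonal_mul, Matrix.mul_diagonal]
  by_cases h : (a : ℕ) = (b : ℕ) + 1
  · rw [h]
    push_cast
    ring
  · rw [sPlus_ne s a b h]
    ring

lemma s3_herm (s : ℕ) : (s3 s)ᴴ = s3 s := by
  rw [s3, Matrix.diagonal_conjTranspose]
  congr 1
  funext a
  simp

lemma relB (s : ℕ) : sPlus s * (sPlus s)ᴴ - (sPlus s)ᴴ * sPlus s = (2 : ℂ) • s3 s := by
  rw [relC, relC', s3, Matrix.diagonal_sub, ← Matrix.diagonal_smul]
  congr 1
  funext a
  simp only [Pi.smul_apply, smul_eq_mul]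
  ring

theorem loc_proof : LOC := by
  intro s
  have hA := relA s
  have hB := relB s
  have hA' : s3 s * (sPlus s)ᴴ - (sPlus s)ᴴ * s3 s = -(sPlus s)ᴴ := by
    have := congrArg Matrix.conjTranspose hA
    rw [Matrix.conjTranspose_sub, Matrix.conjTranspose_mul, Matrix.conjTranspose_mul,
      s3_herm] at this
    rw [← neg_sub, this]
  have h4 : (1 / 2 : ℂ) * -(Complex.I / 2) = -(Complex.I / 4) := by ring
  have h4' : -(Complex.I / 2) * (1 / 2 : ℂ) = -(Complex.I / 4) := by ring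
  have hI : Complex.I * Complex.I = -1 := Complex.I_mul_I
  refine ⟨⟨hA, hB, relC s⟩, ⟨?_, ?_, ?_⟩, ?_, ?_, ?_, ?_⟩
  · unfold s1 s2
    rw [smul_mul_smul_comm, smul_mul_smul_comm, h4, h4']
    have e : (sPlus s + (sPlus s)ᴴ) * (sPlus s - (sPlus s)ᴴ) -
        (sPlus s - (sPlus s)ᴴ) * (sPlus s + (sPlus s)ᴴ) = (-2 : ℂ) • ((2 : ℂ) • s3 s) := by
      rw [← hB]
      simp only [mul_add, add_mul, mul_sub, sub_mul]
      module
    rw [← smul_sub, e]
    module
  · unfold s2 s1
    rw [smul_mul_assoc, mul_smul_comm, ← smul_sub]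
    have e : (sPlus s - (sPlus s)ᴴ) * s3 s - s3 s * (sPlus s - (sPlus s)ᴴ) =
        -(sPlus s + (sPlus s)ᴴ) := by
      have e1 : sPlus s * s3 s - s3 s * sPlus s = -sPlus s := by rw [← neg_sub, hA]
      have e2 : (sPlus s)ᴴ * s3 s - s3 s * (sPlus s)ᴴ = (sPlus s)ᴴ := by
        rw [← neg_sub, hA', neg_neg]
      calc (sPlus s - (sPlus s)ᴴ) * s3 s - s3 s * (sPlus s - (sPlus s)ᴴ)
          = (sPlus s * s3 s - s3 s * sPlus s) - ((sPlus s)ᴴ * s3 s - s3 s * (sPlus s)ᴴ) := by
            simp only [mul_sub, sub_mul]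
            abel
        _ = -(sPlus s + (sPlus s)ᴴ) := by
            rw [e1, e2]
            abel
    rw [e]
    module
  · unfold s2 s1
    rw [smul_mul_assoc, mul_smul_comm, ← smul_sub]
    have e : s3 s * (sPlus s + (sPlus s)ᴴ) - (sPlus s + (sPlus s)ᴴ) * s3 s =
        sPlus s - (sPlus s)ᴴ := by
      calc s3 s * (sPlus s + (sPlus s)ᴴ) - (sPlus s + (sPlus s)ᴴ) * s3 s
          = (s3 s * sPlus s - sPlus s * s3 s) + (s3 s * (sPlus s)ᴴ - (sPlus s)ᴴ * s3 s) := by
            simp only [mul_add, add_mul]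
            abel
        _ = sPlus s - (sPlus s)ᴴ := by
            rw [hA, hA']
            abel
    rw [e, smul_smul]
    congr 1
    linear_combination (1 / 2 : ℂ) * hI
  · unfold s1 s2
    rw [smul_mul_smul_comm, smul_mul_smul_comm]
    have h2 : -(Complex.I / 2) * -(Complex.I / 2) = -(1 / 4 : ℂ) := by
      linear_combination (1 / 4 : ℂ) * hI
    rw [h2]
    have e : ((1 / 2 : ℂ) * (1 / 2)) • ((sPlus s + (sPlus s)ᴴ) * (sPlus s + (sPlus s)ᴴ)) +
        (-(1 / 4 : ℂ)) • ((sPlus s - (sPlus s)ᴴ) * (sPlus s - (sPlus s)ᴴ)) =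
        (1 / 2 : ℂ) • (sPlus s * (sPlus s)ᴴ + (sPlus s)ᴴ * sPlus s) := by
      simp only [mul_add, add_mul, mul_sub, sub_mul]
      module
    rw [e, relC, relC', s3, Matrix.diagonal_mul_diagonal, Matrix.diagonal_add,
      ← Matrix.diagonal_smul, Matrix.diagonal_add, ← Matrix.diagonal_one, ← Matrix.diagonal_smul]
    congr 1
    funext a
    simp only [Pi.smul_apply, smul_eq_mul]
    ring
  · unfold s1
    rw [Matrix.IsHermitian, Matrix.conjTranspose_smul, Matrix.conjTranspose_add,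
      Matrix.conjTranspose_conjTranspose, add_comm (sPlus s)ᴴ (sPlus s)]
    congr 1
    simp
  · unfold s2
    rw [Matrix.IsHermitian, Matrix.conjTranspose_smul, Matrix.conjTranspose_sub,
      Matrix.conjTranspose_conjTranspose]
    have : star (-(Complex.I / 2)) = Complex.I / 2 := by
      simp [Complex.conj_I]
      ring
    rw [this]
    module
  · exact s3_herm s

end Vale.Agent.P361.LO
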