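import Vale.Agent.P361.Mods

/-! # P361, module PARS: Parseval on the box -/

open scoped Matrix ComplexOrder
open MeasureTheory

namespace Vale.Agent.P361.PA

/-- the one-dimensional integral -/
theorem int_one (d : ℤ) : ∫ κ in Set.Icc (-Real.pi) Real.pi,
    Complex.exp (Complex.I * ((κ * (d : ℝ) : ℝ) : ℂ)) = if d = 0 then (2 * Real.pi : ℂ) else 0 := by
  rw [integral_Icc_eq_integral_Ioc, ← intervalIntegral.integral_of_le (by linarith [Real.pi_pos])]
  split_ifs with h
  · subst h
    simp only [Int.cast_zero, mul_zero, Complex.ofReal_zero, Complex.exp_zero]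
    rw [intervalIntegral.integral_const]
    rw [Complex.real_smul, mul_one]
    push_cast
    ring
  · have hc : (Complex.I * (d : ℂ)) ≠ 0 :=
      mul_ne_zero Complex.I_ne_zero (by exact_mod_cast h)
    have h1 : ∀ κ : ℝ, Complex.exp (Complex.I * ((κ * (d : ℝ) : ℝ) : ℂ)) =
        Complex.exp ((Complex.I * (d : ℂ)) * (κ : ℂ)) := by
      intro κ
      congr 1
      push_cast
      ring
    simp_rw [h1]
    rw [integral_exp_mul_complex hc]
    have h2 : Complex.exp (Complex.I * (d : ℂ) * ((Real.pi : ℝ) : ℂ)) =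
        Complex.exp (Complex.I * (d : ℂ) * ((-Real.pi : ℝ) : ℂ)) := by
      rw [Complex.exp_eq_exp_iff_exists_int]
      refine ⟨d, ?_⟩
      push_cast
      ring
    rw [h2, sub_self, zero_div]

/-- the three-dimensional integral -/
theorem int_three (d : Fin 3 → ℤ) :
    ∫ k in Set.Icc (fun _ : Fin 3 => -Real.pi) (fun _ : Fin 3 => Real.pi),
      Complex.exp (Complex.I * ((∑ i, k i * (d i : ℝ) : ℝ) : ℂ)) =
        if d = 0 then ((2 * Real.pi) ^ 3 : ℂ) else 0 := by
  have h1 : (volume : Measure (Fin 3 → ℝ)).restrict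
      (Set.Icc (fun _ : Fin 3 => -Real.pi) (fun _ : Fin 3 => Real.pi)) =
      Measure.pi (fun _ : Fin 3 => (volume : Measure ℝ).restrict (Set.Icc (-Real.pi) Real.pi)) := by
    rw [← Set.pi_univ_Icc, volume_pi, Measure.restrict_pi_pi]
  rw [h1]
  have h2 : ∀ k : Fin 3 → ℝ, Complex.exp (Complex.I * ((∑ i, k i * (d i : ℝ) : ℝ) : ℂ)) =
      ∏ i, Complex.exp (Complex.I * ((k i * (d i : ℝ) : ℝ) : ℂ)) := by
    intro k
    rw [← Complex.exp_sum]
    congr 1
    rw [Complex.ofReal_sum, Finset.mul_sum]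
  simp_rw [h2]
  rw [integral_fintype_prod_eq_prod
    (fun (i : Fin 3) (κ : ℝ) => Complex.exp (Complex.I * ((κ * (d i : ℝ) : ℝ) : ℂ)))]
  simp_rw [int_one]
  split_ifs with h
  · subst h
    simp
  · obtain ⟨i, hi⟩ := Function.ne_iff.1 h
    apply Finset.prod_eq_zero (Finset.mem_univ i)
    rw [if_neg]
    exact hi

theorem pars_proof : PARS := by
  intro s N E
  set T : Box N → Box N → ℂ := fun x y =>
    Matrix.trace (E * (onSite x (sPlus s)ᴴ * onSite y (sPlus s))) with hT
  have hadj : ∀ x : Box N, (onSite x (sPlus s))ᴴ = onSite x (sPlus s)ᴴ := by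
    intro x
    ext σ τ
    rw [Matrix.conjTranspose_apply]
    unfold onSite
    by_cases h : ∀ y, y ≠ x → σ y = τ y
    · rw [if_pos h, if_pos (fun y hy => (h y hy).symm), Matrix.conjTranspose_apply]
    · rw [if_neg h, if_neg (fun hh => h (fun y hy => (hh y hy).symm)), star_zero]
  -- expansion
  have hexp : ∀ k : Fin 3 → ℝ,
      Matrix.trace (E * ((mode s (wave N k))ᴴ * mode s (wave N k))) =
        ∑ x : Box N, ∑ y : Box N, Complex.exp (Complex.I *
          ((∑ i, k i * (((y : Fin 3 → ℤ) i - (x : Fin 3 → ℤ) i : ℤ) : ℝ) : ℝ) : ℂ)) * T x y := by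
    intro k
    unfold mode
    rw [Matrix.conjTranspose_sum, Finset.sum_mul_sum, Finset.mul_sum, Matrix.trace_sum]
    apply Finset.sum_congr rfl
    intro x _
    rw [Finset.mul_sum, Matrix.trace_sum]
    apply Finset.sum_congr rfl
    intro y _
    rw [Matrix.conjTranspose_smul, hadj, smul_mul_assoc, mul_smul_comm, mul_smul_comm,
      mul_smul_comm, Matrix.trace_smul, Matrix.trace_smul, smul_eq_mul, smul_eq_mul, ← mul_assoc]
    congr 1
    unfold wave
    rw [Complex.star_def, ← Complex.exp_conj, ← Complex.exp_add]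
    congr 1
    rw [map_mul, Complex.conj_I, Complex.conj_ofReal]
    push_cast
    rw [neg_mul, neg_add_eq_sub, ← mul_sub, ← Finset.sum_sub_distrib]
    congr 1
    apply Finset.sum_congr rfl
    intro i _
    ring
  have hcontF : Continuous (fun k : Fin 3 → ℝ =>
      Matrix.trace (E * ((mode s (wave N k))ᴴ * mode s (wave N k)))) := by
    simp_rw [hexp]
    fun_prop
  refine ⟨(Complex.continuous_re.comp hcontF).continuousOn, ?_⟩
  have hcomp : IsCompact (Set.Icc (fun _ : Fin 3 => -Real.pi) (fun _ : Fin 3 => Real.pi)) :=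
    isCompact_Icc
  have hint : IntegrableOn (fun k : Fin 3 → ℝ =>
      Matrix.trace (E * ((mode s (wave N k))ᴴ * mode s (wave N k))))
      (Set.Icc (fun _ : Fin 3 => -Real.pi) (fun _ : Fin 3 => Real.pi)) :=
    hcontF.continuousOn.integrableOn_compact hcomp
  have hre : ∫ k in Set.Icc (fun _ : Fin 3 => -Real.pi) (fun _ : Fin 3 => Real.pi),
      (Matrix.trace (E * ((mode s (wave N k))ᴴ * mode s (wave N k)))).re =
      (∫ k in Set.Icc (fun _ : Fin 3 => -Real.pi) (fun _ : Fin 3 => Real.pi),
        Matrix.trace (E * ((mode s (wave N k))ᴴ * mode s (wave N k)))).re := by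
    have := integral_re (𝕜 := ℂ) hint
    simpa using this
  rw [hre]
  have hI : ∫ k in Set.Icc (fun _ : Fin 3 => -Real.pi) (fun _ : Fin 3 => Real.pi),
        Matrix.trace (E * ((mode s (wave N k))ᴴ * mode s (wave N k))) =
      ((2 * Real.pi) ^ 3 : ℂ) * ∑ x : Box N, T x x := by
    simp_rw [hexp]
    have hi : ∀ x y : Box N, IntegrableOn (fun k : Fin 3 → ℝ => Complex.exp (Complex.I *
          ((∑ i, k i * (((y : Fin 3 → ℤ) i - (x : Fin 3 → ℤ) i : ℤ) : ℝ) : ℝ) : ℂ)) * T x y)
        (Set.Icc (fun _ : Fin 3 => -Real.pi) (fun _ : Fin 3 => Real.pi)) := by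
      intro x y
      have hc : Continuous (fun k : Fin 3 → ℝ => Complex.exp (Complex.I *
          ((∑ i, k i * (((y : Fin 3 → ℤ) i - (x : Fin 3 → ℤ) i : ℤ) : ℝ) : ℝ) : ℂ)) * T x y) := by
        fun_prop
      exact hc.continuousOn.integrableOn_compact hcomp
    rw [integral_finsetSum _ (fun x _ => integrable_finsetSum _ (fun y _ => hi x y)),
      Finset.mul_sum]
    apply Finset.sum_congr rfl
    intro x _
    rw [integral_finsetSum _ (fun y _ => hi x y), Finset.sum_eq_single x]
    · rw [integral_mul_const]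
      have := int_three (fun i => (x : Fin 3 → ℤ) i - (x : Fin 3 → ℤ) i)
      rw [this, if_pos]
      funext i
      simp
    · intro y _ hyx
      rw [integral_mul_const]
      have := int_three (fun i => (y : Fin 3 → ℤ) i - (x : Fin 3 → ℤ) i)
      rw [this, if_neg, zero_mul]
      intro h
      apply hyx
      apply Subtype.ext
      funext i
      have := congrFun h i
      simp only [Pi.zero_apply] at this
      omega
    · intro h
      exact absurd (Finset.mem_univ x) h
  rw [hI]
  have h3 : ((2 * Real.pi) ^ 3 : ℂ) = (((2 * Real.pi) ^ 3 : ℝ) : ℂ) := by push_cast; ring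
  rw [h3, Complex.re_ofReal_mul, Complex.re_sum]

end Vale.Agent.P361.PA
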