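import Vale.Agent.P361.Mods

open scoped Matrix ComplexOrder

namespace Vale.Agent.P361.Rb

lemma tangent (a D : ℝ) (ha : 0 < a) :
    (Real.exp D - 1) * ((Real.exp a - 1) - Real.exp a * (D - a)) ≤ (Real.exp a - 1) ^ 2 := by
  set y := D - a with hy
  set t := Real.exp a with ht
  have hD : Real.exp D = t * Real.exp y := by
    rw [ht, ← Real.exp_add, hy]
    congr 1
    ring
  have ht1 : 1 < t := by
    rw [ht]
    exact Real.one_lt_exp_iff.mpr ha
  set z := Real.exp y with hz
  have h1 : 0 ≤ 1 - z + y * z := by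
    have h2 : 1 - y ≤ Real.exp (-y) := by
      have := Real.add_one_le_exp (-y)
      linarith
    have h3 : (1 - y) * z ≤ Real.exp (-y) * z :=
      mul_le_mul_of_nonneg_right h2 (Real.exp_pos y).le
    rw [hz, ← Real.exp_add] at h3
    simp only [neg_add_cancel, Real.exp_zero] at h3
    rw [← hz] at h3
    linarith
  have h4 : 0 ≤ y * (z - 1) := by
    rcases le_total 0 y with h | h
    · have : 1 ≤ z := by rw [hz]; exact Real.one_le_exp h
      exact mul_nonneg h (by linarith)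
    · have : z ≤ 1 := by rw [hz]; exact Real.exp_le_one_iff.mpr h
      exact mul_nonneg_of_nonpos_of_nonpos h (by linarith)
  rw [hD]
  have h5 : 0 ≤ t * ((t - 1) * (1 - z + y * z) + y * (z - 1)) := by
    apply mul_nonneg (by linarith)
    have := mul_nonneg (by linarith : (0 : ℝ) ≤ t - 1) h1
    linarith
  nlinarith [h5]

section diag
variable {n : Type} [Fintype n] [DecidableEq n]

lemma trace_star (d : n → ℝ) (B X : Matrix n n ℂ) :
    Matrix.trace (Matrix.diagonal (fun i => (d i : ℂ)) * (Bᴴ * X)) =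
      ∑ i, ∑ j, (d i : ℂ) * (star (B j i) * X j i) := by
  rw [Matrix.trace]
  apply Finset.sum_congr rfl
  intro i _
  rw [Matrix.diag_apply, Matrix.diagonal_mul, Matrix.mul_apply, Finset.mul_sum]
  apply Finset.sum_congr rfl
  intro j _
  rw [Matrix.conjTranspose_apply]

lemma trace_star' (d : n → ℝ) (B X : Matrix n n ℂ) :
    Matrix.trace (Matrix.diagonal (fun i => (d i : ℂ)) * (X * Bᴴ)) =
      ∑ i, ∑ j, (d j : ℂ) * (star (B j i) * X j i) := by
  rw [Matrix.trace, Finset.sum_comm]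
  apply Finset.sum_congr rfl
  intro j _
  rw [Matrix.diag_apply, Matrix.diagonal_mul, Matrix.mul_apply, Finset.mul_sum]
  apply Finset.sum_congr rfl
  intro i _
  rw [Matrix.conjTranspose_apply]
  ring

lemma diag_case (E : n → ℝ) (B : Matrix n n ℂ) (a : ℝ) (ha : 0 < a)
    (hD : (Matrix.trace (Matrix.diagonal (fun i => ((Real.exp (-(E i)) : ℝ) : ℂ)) *
      (Bᴴ * (Matrix.diagonal (fun i => (E i : ℂ)) * B - B * Matrix.diagonal (fun i => (E i : ℂ))) -
        (Matrix.diagonal (fun i => (E i : ℂ)) * B - B * Matrix.diagonal (fun i => (E i : ℂ))) *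
          Bᴴ))).re ≤ a * (Matrix.trace (Matrix.diagonal (fun i => ((Real.exp (-(E i)) : ℝ) : ℂ)) *
            (B * Bᴴ - Bᴴ * B))).re) :
    (Matrix.trace (Matrix.diagonal (fun i => ((Real.exp (-(E i)) : ℝ) : ℂ)) *
            (B * Bᴴ - Bᴴ * B))).re ≤
      (Real.exp a - 1) * (Matrix.trace (Matrix.diagonal (fun i => ((Real.exp (-(E i)) : ℝ) : ℂ)) *
            (Bᴴ * B))).re := by
  set d : n → ℝ := fun i => Real.exp (-(E i)) with hd
  have hb : (Matrix.trace (Matrix.diagonal (fun i => (d i : ℂ)) * (Bᴴ * B))).re =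
      ∑ i, ∑ j, d i * ‖B j i‖ ^ 2 := by
    rw [trace_star, Complex.re_sum]
    apply Finset.sum_congr rfl
    intro i _
    rw [Complex.re_sum]
    apply Finset.sum_congr rfl
    intro j _
    have : star (B j i) * B j i = ((‖B j i‖ ^ 2 : ℝ) : ℂ) := by
      rw [← Complex.normSq_eq_norm_sq, Complex.normSq_eq_conj_mul_self]
      rfl
    rw [this, ← Complex.ofReal_mul, Complex.ofReal_re]
  have hF : (Matrix.trace (Matrix.diagonal (fun i => (d i : ℂ)) * (B * Bᴴ - Bᴴ * B))).re =
      ∑ i, ∑ j, (d j - d i) * ‖B j i‖ ^ 2 := by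
    rw [Matrix.mul_sub, Matrix.trace_sub, trace_star, trace_star', Complex.sub_re, Complex.re_sum,
      Complex.re_sum, ← Finset.sum_sub_distrib]
    apply Finset.sum_congr rfl
    intro i _
    rw [Complex.re_sum, Complex.re_sum, ← Finset.sum_sub_distrib]
    apply Finset.sum_congr rfl
    intro j _
    have : star (B j i) * B j i = ((‖B j i‖ ^ 2 : ℝ) : ℂ) := by
      rw [← Complex.normSq_eq_norm_sq, Complex.normSq_eq_conj_mul_self]
      rfl
    rw [this, ← Complex.ofReal_mul, Complex.ofReal_re, ← Complex.ofReal_mul, Complex.ofReal_re]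
    ring
  have hDD : (Matrix.trace (Matrix.diagonal (fun i => (d i : ℂ)) *
      (Bᴴ * (Matrix.diagonal (fun i => (E i : ℂ)) * B - B * Matrix.diagonal (fun i => (E i : ℂ))) -
        (Matrix.diagonal (fun i => (E i : ℂ)) * B - B * Matrix.diagonal (fun i => (E i : ℂ))) *
          Bᴴ))).re = ∑ i, ∑ j, (d j - d i) * (E i - E j) * ‖B j i‖ ^ 2 := by
    rw [Matrix.mul_sub, Matrix.trace_sub, trace_star, trace_star', Complex.sub_re, Complex.re_sum,
      Complex.re_sum, ← Finset.sum_sub_distrib]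
    apply Finset.sum_congr rfl
    intro i _
    rw [Complex.re_sum, Complex.re_sum, ← Finset.sum_sub_distrib]
    apply Finset.sum_congr rfl
    intro j _
    have : star (B j i) * B j i = ((‖B j i‖ ^ 2 : ℝ) : ℂ) := by
      rw [← Complex.normSq_eq_norm_sq, Complex.normSq_eq_conj_mul_self]
      rfl
    rw [Matrix.sub_apply, Matrix.diagonal_mul, Matrix.mul_diagonal]
    have e1 : star (B j i) * ((E j : ℂ) * B j i - B j i * (E i : ℂ)) =
        (((E j - E i) * ‖B j i‖ ^ 2 : ℝ) : ℂ) := by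
      have : star (B j i) * ((E j : ℂ) * B j i - B j i * (E i : ℂ)) =
        ((E j : ℂ) - (E i : ℂ)) * (star (B j i) * B j i) := by ring
      rw [this, ‹star (B j i) * B j i = _›]
      push_cast
      ring
    rw [e1, ← Complex.ofReal_mul, Complex.ofReal_re, ← Complex.ofReal_mul, Complex.ofReal_re]
    ring
  rw [hDD, hF] at hD
  rw [hb, hF]
  set F := ∑ i, ∑ j, (d j - d i) * ‖B j i‖ ^ 2 with hFdef
  set DD := ∑ i, ∑ j, (d j - d i) * (E i - E j) * ‖B j i‖ ^ 2 with hDDdef
  set b := ∑ i, ∑ j, d i * ‖B j i‖ ^ 2 with hbdef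
  set t := Real.exp a with ht
  have ht1 : 1 < t := by
    rw [ht]
    exact Real.one_lt_exp_iff.mpr ha
  have key : (t - 1 + t * a) * F - t * DD ≤ (t - 1) ^ 2 * b := by
    rw [hFdef, hDDdef, hbdef, Finset.mul_sum, Finset.mul_sum, Finset.mul_sum,
      ← Finset.sum_sub_distrib]
    apply Finset.sum_le_sum
    intro i _
    rw [Finset.mul_sum, Finset.mul_sum, Finset.mul_sum, ← Finset.sum_sub_distrib]
    apply Finset.sum_le_sum
    intro j _
    have h1 := tangent a (E i - E j) ha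
    have h2 : d j = d i * Real.exp (E i - E j) := by
      rw [hd]
      simp only
      rw [← Real.exp_add]
      congr 1
      ring
    have h3 : 0 ≤ d i * ‖B j i‖ ^ 2 := by
      apply mul_nonneg
      · exact (Real.exp_pos _).le
      · positivity
    have h4 := mul_le_mul_of_nonneg_left h1 h3
    rw [h2]
    rw [← ht] at h4
    calc (t - 1 + t * a) * ((d i * Real.exp (E i - E j) - d i) * ‖B j i‖ ^ 2) -
        t * ((d i * Real.exp (E i - E j) - d i) * (E i - E j) * ‖B j i‖ ^ 2)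
        = d i * ‖B j i‖ ^ 2 * ((Real.exp (E i - E j) - 1) * (t - 1 - t * (E i - E j - a))) := by
          ring
      _ ≤ d i * ‖B j i‖ ^ 2 * (t - 1) ^ 2 := h4
      _ = (t - 1) ^ 2 * (d i * ‖B j i‖ ^ 2) := by ring
  have h5 : t * DD ≤ t * (a * F) := mul_le_mul_of_nonneg_left hD (by linarith)
  have h6 : (t - 1) * F ≤ (t - 1) * ((t - 1) * b) := by nlinarith
  exact le_of_mul_le_mul_left h6 (by linarith)

end diag

theorem rb_proof : RB := by
  intro n _ _ K A hK a ha hD
  set U : Matrix n n ℂ := (hK.eigenvectorUnitary : Matrix n n ℂ) with hU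
  set E := hK.eigenvalues with hE
  have hUU : U * Uᴴ = 1 := by
    have := Unitary.coe_mul_star_self hK.eigenvectorUnitary
    exact this
  have hUU' : Uᴴ * U = 1 := by
    have := Unitary.coe_star_mul_self hK.eigenvectorUnitary
    exact this
  have hinv : U⁻¹ = Uᴴ := Matrix.inv_eq_right_inv hUU
  have hunit : IsUnit U := (Matrix.isUnit_iff_isUnit_det U).mpr (by
    rw [← Matrix.isUnit_iff_isUnit_det]
    exact ⟨⟨U, Uᴴ, hUU, hUU'⟩, rfl⟩)
  set L : Matrix n n ℂ := Matrix.diagonal (fun i => (E i : ℂ)) with hL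
  have hKs : K = U * L * Uᴴ := by
    have h := hK.spectral_theorem
    rw [Unitary.conjStarAlgAut_apply] at h
    exact h
  have hexp : NormedSpace.exp (-K) =
      U * Matrix.diagonal (fun i => ((Real.exp (-(E i)) : ℝ) : ℂ)) * Uᴴ := by
    have h1 : -K = U * (Matrix.diagonal (fun i => -(E i : ℂ))) * U⁻¹ := by
      have h2 : (Matrix.diagonal fun i => -(E i : ℂ)) = -L := by
        rw [hL, Matrix.diagonal_neg]
      rw [hinv, h2, hKs, Matrix.mul_neg, Matrix.neg_mul]
    rw [h1, Matrix.exp_conj _ _ hunit, Matrix.exp_diagonal, hinv]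
    congr 3
    ext i
    rw [Pi.coe_exp, ← Complex.exp_eq_exp_ℂ]
    push_cast
    rfl
  set G : Matrix n n ℂ := Matrix.diagonal (fun i => ((Real.exp (-(E i)) : ℝ) : ℂ)) with hG
  set B : Matrix n n ℂ := Uᴴ * A * U with hB
  have hA : A = U * B * Uᴴ := by
    rw [hB]
    calc A = (U * Uᴴ) * A * (U * Uᴴ) := by rw [hUU]; simp
      _ = U * (Uᴴ * A * U) * Uᴴ := by simp only [Matrix.mul_assoc]
  have hAs : Aᴴ = U * Bᴴ * Uᴴ := by
    rw [hA]
    simp only [Matrix.conjTranspose_mul, Matrix.conjTranspose_conjTranspose, Matrix.mul_assoc]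
  have conj : ∀ X Y : Matrix n n ℂ, (U * X * Uᴴ) * (U * Y * Uᴴ) = U * (X * Y) * Uᴴ := by
    intro X Y
    calc (U * X * Uᴴ) * (U * Y * Uᴴ) = U * X * (Uᴴ * U) * Y * Uᴴ := by
          simp only [Matrix.mul_assoc]
      _ = U * (X * Y) * Uᴴ := by rw [hUU']; simp only [Matrix.mul_assoc, Matrix.one_mul]
  have conjsub : ∀ X Y : Matrix n n ℂ, (U * X * Uᴴ) - (U * Y * Uᴴ) = U * (X - Y) * Uᴴ := by
    intro X Y
    rw [Matrix.mul_sub, Matrix.sub_mul]
  have trconj : ∀ X : Matrix n n ℂ, Matrix.trace (U * X * Uᴴ) = Matrix.trace X := by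
    intro X
    rw [Matrix.trace_mul_comm, ← Matrix.mul_assoc, hUU', Matrix.one_mul]
  rw [hexp, hKs, hAs, hA] at hD
  rw [hexp, hAs, hA]
  simp only [conj, conjsub, trconj] at hD ⊢
  exact diag_case E B a ha hD

end Vale.Agent.P361.Rb
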