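import Vale.Agent.P361.Mods

open scoped Matrix

namespace Vale.Agent.P361.SI

open Vale.Agent.P361

variable {V : Type} {s : ℕ}

lemma onSite_of (x : V) (A : LOp s) (σ τ : V → Fin (s + 1)) (h : ∀ y, y ≠ x → σ y = τ y) :
    onSite x A σ τ = A (σ x) (τ x) := by
  classical
  simp only [onSite]
  rw [if_pos h]

lemma onSite_of_not (x : V) (A : LOp s) (σ τ : V → Fin (s + 1)) (h : ¬ ∀ y, y ≠ x → σ y = τ y) :
    onSite x A σ τ = 0 := by
  classical
  simp only [onSite]
  rw [if_neg h]

lemma mul_same [Fintype V] [DecidableEq V] (x : V) (A B : LOp s) :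
    onSite x (A * B) = onSite x A * onSite x B := by
  ext σ τ
  rw [Matrix.mul_apply]
  by_cases h : ∀ y, y ≠ x → σ y = τ y
  · rw [onSite_of x _ σ τ h, Matrix.mul_apply]
    apply Fintype.sum_of_injective (fun c => Function.update σ x c)
    · intro c c' hcc
      have := congrFun hcc x
      simpa using this
    · intro ρ hρ
      rw [onSite_of_not x A σ ρ, zero_mul]
      intro h2
      apply hρ
      refine ⟨ρ x, ?_⟩
      funext y
      by_cases hy : y = x
      · subst hy; simp
      · simp [hy, h2 y hy]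
    · intro c
      rw [onSite_of x A, onSite_of x B]
      · simp
      · intro y hy
        simp [hy, h y hy]
      · intro y hy
        simp [hy]
  · rw [onSite_of_not x _ σ τ h]
    symm
    apply Finset.sum_eq_zero
    intro ρ _
    by_cases h1 : ∀ y, y ≠ x → σ y = ρ y
    · rw [onSite_of_not x B ρ τ, mul_zero]
      intro h2
      exact h fun y hy => (h1 y hy).trans (h2 y hy)
    · rw [onSite_of_not x A σ ρ h1, zero_mul]

open Classical in
lemma mul_diff [Fintype V] [DecidableEq V] (x y : V) (A B : LOp s) (hxy : x ≠ y)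
    (σ τ : V → Fin (s + 1)) :
    (onSite x A * onSite y B) σ τ =
      if ∀ z, z ≠ x → z ≠ y → σ z = τ z then A (σ x) (τ x) * B (σ y) (τ y) else 0 := by
  rw [Matrix.mul_apply]
  by_cases h : ∀ z, z ≠ x → z ≠ y → σ z = τ z
  · rw [if_pos h, Finset.sum_eq_single (Function.update σ x (τ x))]
    · rw [onSite_of x A, onSite_of y B]
      · simp [hxy.symm]
      · intro z hz
        by_cases hzx : z = x
        · subst hzx; simp
        · simp [hzx, h z hzx hz]
      · intro z hz
        simp [hz]
    · intro ρ _ hρ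
      by_cases h1 : ∀ z, z ≠ x → σ z = ρ z
      · by_cases h2 : ∀ z, z ≠ y → ρ z = τ z
        · exfalso
          apply hρ
          funext z
          by_cases hzx : z = x
          · subst hzx
            simp [h2 z hxy]
          · simp [hzx, h1 z hzx]
        · rw [onSite_of_not y B ρ τ h2, mul_zero]
      · rw [onSite_of_not x A σ ρ h1, zero_mul]
    · intro h1
      exact absurd (Finset.mem_univ _) h1
  · rw [if_neg h]
    apply Finset.sum_eq_zero
    intro ρ _
    by_cases h1 : ∀ z, z ≠ x → σ z = ρ z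
    · rw [onSite_of_not y B ρ τ, mul_zero]
      intro h2
      exact h fun z hzx hzy => (h1 z hzx).trans (h2 z hzy)
    · rw [onSite_of_not x A σ ρ h1, zero_mul]

theorem site_proof : SITE := by
  intro V _ _ s
  refine ⟨mul_same, ?_, ?_, ?_, ?_, ?_, ?_⟩
  · intro x A B
    ext σ τ
    by_cases h : ∀ y, y ≠ x → σ y = τ y
    · rw [Matrix.add_apply, onSite_of _ _ _ _ h, onSite_of _ _ _ _ h, onSite_of _ _ _ _ h]
      rfl
    · rw [Matrix.add_apply, onSite_of_not _ _ _ _ h, onSite_of_not _ _ _ _ h,
        onSite_of_not _ _ _ _ h, add_zero]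
  · intro x c A
    ext σ τ
    by_cases h : ∀ y, y ≠ x → σ y = τ y
    · rw [Matrix.smul_apply, onSite_of _ _ _ _ h, onSite_of _ _ _ _ h]
      rfl
    · rw [Matrix.smul_apply, onSite_of_not _ _ _ _ h, onSite_of_not _ _ _ _ h, smul_zero]
  · intro x A
    ext σ τ
    rw [Matrix.conjTranspose_apply]
    by_cases h : ∀ y, y ≠ x → σ y = τ y
    · rw [onSite_of _ _ _ _ h, onSite_of _ _ _ _ (fun y hy => (h y hy).symm)]
      rfl
    · rw [onSite_of_not _ _ _ _ h, onSite_of_not _ _ _ _ (fun h2 => h fun y hy => (h2 y hy).symm),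
        star_zero]
  · intro x A
    ext σ τ
    rw [Matrix.transpose_apply]
    by_cases h : ∀ y, y ≠ x → σ y = τ y
    · rw [onSite_of _ _ _ _ h, onSite_of _ _ _ _ (fun y hy => (h y hy).symm)]
      rfl
    · rw [onSite_of_not _ _ _ _ h, onSite_of_not _ _ _ _ (fun h2 => h fun y hy => (h2 y hy).symm)]
  · intro x y A B hxy
    ext σ τ
    rw [mul_diff x y A B hxy, mul_diff y x B A hxy.symm]
    have e : (∀ z, z ≠ x → z ≠ y → σ z = τ z) ↔ (∀ z, z ≠ y → z ≠ x → σ z = τ z) :=
      ⟨fun h z h1 h2 => h z h2 h1, fun h z h1 h2 => h z h2 h1⟩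
    by_cases h : ∀ z, z ≠ x → z ≠ y → σ z = τ z
    · rw [if_pos h, if_pos (e.mp h), mul_comm]
    · rw [if_neg h, if_neg (fun h2 => h (e.mpr h2))]
  · intro x d
    ext σ τ
    by_cases hst : σ = τ
    · subst hst
      rw [onSite_of _ _ _ _ (fun _ _ => rfl), Matrix.diagonal_apply_eq, Matrix.diagonal_apply_eq]
    · rw [Matrix.diagonal_apply_ne _ hst]
      by_cases h : ∀ y, y ≠ x → σ y = τ y
      · rw [onSite_of _ _ _ _ h, Matrix.diagonal_apply_ne]
        intro h2
        apply hst
        funext y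
        by_cases hy : y = x
        · subst hy; exact h2
        · exact h y hy
      · rw [onSite_of_not _ _ _ _ h]

end Vale.Agent.P361.SI
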