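import Vale.Agent.P361.Mods

open scoped Matrix ComplexOrder
open Filter Topology MeasureTheory

namespace Vale.Agent.P361.Th

theorem gB_cont : Continuous gB := by
  unfold gB
  apply Continuous.mul continuous_const
  apply intervalIntegral.continuous_parametric_intervalIntegral_of_continuous'
  fun_prop

theorem gB_nonneg (t : ℝ) : 0 ≤ gB t := by
  unfold gB
  apply mul_nonneg (by positivity)
  apply intervalIntegral.integral_nonneg
  · linarith [Real.pi_pos]
  · intro κ _
    positivity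

theorem gB_anti {t t' : ℝ} (h : t ≤ t') : gB t' ≤ gB t := by
  unfold gB
  apply mul_le_mul_of_nonneg_left _ (by positivity)
  apply intervalIntegral.integral_mono_on
  · linarith [Real.pi_pos]
  · apply Continuous.intervalIntegrable
    fun_prop
  · apply Continuous.intervalIntegrable
    fun_prop
  · intro κ _
    apply Real.exp_le_exp.mpr
    have h1 : 0 ≤ 1 - Real.cos κ := by linarith [Real.cos_le_one κ]
    have h2 := mul_le_mul_of_nonneg_right h h1
    linarith

theorem lhs_mono (s : ℕ) (hs0 : (0 : ℝ) < s) (β h m' m : ℝ) (hβ : 0 < β) (hm0 : 0 < m')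
    (hN : m' < m) (M : ℕ) :
    m' / ((s : ℝ) / 2) * ∑ n ∈ Finset.Icc 1 M, Real.exp (-(n * β * h)) *
        gB (n * β * ((s - m') / m') * s) ^ 3 ≤
        m / ((s : ℝ) / 2) * ∑ n ∈ Finset.Icc 1 M, Real.exp (-(n * β * h)) *
        gB (n * β * ((s - m) / m) * s) ^ 3 := by
  have hmpos : 0 < m := hm0.trans hN
  apply mul_le_mul
  · exact div_le_div_of_nonneg_right hN.le (by positivity)
  · apply Finset.sum_le_sum
    intro n _
    apply mul_le_mul_of_nonneg_left _ (Real.exp_pos _).le
    apply pow_le_pow_left₀ (gB_nonneg _)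
    apply gB_anti
    have h1 : (s - m) / m ≤ (s - m') / m' := by
      rw [div_le_div_iff₀ hmpos hm0]
      have := mul_lt_mul_of_pos_left hN hs0
      linarith
    have h2 : (0 : ℝ) ≤ n * β := by positivity
    have h3 := mul_le_mul_of_nonneg_left h1 h2
    exact mul_le_mul_of_nonneg_right h3 hs0.le
  · apply Finset.sum_nonneg
    intro n _
    have := gB_nonneg (n * β * ((s - m') / m') * s)
    positivity
  · positivity

section
variable (hPlim : PLIM) (hConvx : CONVX)
include hPlim

theorem tendsto_pressure (s : ℕ) (β h : ℝ) (hβ : 0 < β) :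
    Tendsto (fun N : ℕ => pN s N β h) atTop (𝓝 (pressure s β h)) := by
  obtain ⟨L, hL⟩ := hPlim s β h hβ
  have : pressure s β h = L := hL.limUnder_eq
  rw [this]
  exact hL

include hConvx

theorem pressure_convex (s : ℕ) (β : ℝ) (hβ : 0 < β) :
    ConvexOn ℝ Set.univ (pressure s β) := by
  refine ⟨convex_univ, ?_⟩
  intro x _ y _ a b ha hb hab
  have h1 := tendsto_pressure hPlim s β (a • x + b • y) hβ
  have h2 := (tendsto_pressure hPlim s β x hβ).const_mul a
  have h3 := (tendsto_pressure hPlim s β y hβ).const_mul b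
  refine le_of_tendsto_of_tendsto' h1 (h2.add h3) ?_
  intro N
  exact (hConvx s N β hβ).1.2 (Set.mem_univ x) (Set.mem_univ y) ha hb hab

theorem mS_slope (s : ℕ) (β : ℝ) (hβ : 0 < β) (h : ℝ) (hh : 0 < h) :
    h * mS s β ≤ pressure s β h - pressure s β 0 := by
  have h1 : mS s β ≤ slope (pressure s β) 0 h :=
    (pressure_convex hPlim hConvx s β hβ).rightDeriv_le_slope_of_mem_interior
      (by simp) (Set.mem_univ _) hh
  rw [slope_def_field, sub_zero, le_div_iff₀ hh] at h1
  linarith

theorem eventually_mN (s : ℕ) (β : ℝ) (hβ : 0 < β) (h : ℝ) (hh : 0 < h) (m' : ℝ)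
    (hm' : m' < mS s β) : ∀ᶠ N : ℕ in atTop, m' < mN s N β h := by
  have h1 := (tendsto_pressure hPlim s β h hβ).sub (tendsto_pressure hPlim s β 0 hβ)
  have h2 : h * m' < pressure s β h - pressure s β 0 :=
    lt_of_lt_of_le (mul_lt_mul_of_pos_left hm' hh) (mS_slope hPlim hConvx s β hβ h hh)
  filter_upwards [h1.eventually_const_lt h2] with N hN
  have h3 := (hConvx s N β hβ).2.1 h
  have h4 : h * m' < h * mN s N β h := lt_of_lt_of_le hN h3
  exact lt_of_mul_lt_mul_left h4 hh.le

theorem mS_le (s : ℕ) (β : ℝ) (hβ : 0 < β) : mS s β ≤ (s : ℝ) / 2 := by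
  have h1 := (tendsto_pressure hPlim s β 1 hβ).sub (tendsto_pressure hPlim s β 0 hβ)
  have h2 := mS_slope hPlim hConvx s β hβ 1 one_pos
  rw [one_mul] at h2
  refine h2.trans ?_
  refine le_of_tendsto' h1 ?_
  intro N
  have h3 := (hConvx s N β hβ).2.1 1
  have h4 := (abs_le.mp ((hConvx s N β hβ).2.2 1)).2
  linarith

end

theorem thermo_proof (hFin : FIN) (hConvx : CONVX) (hPlim : PLIM) : THERMO := by
  intro s hs β hβ
  refine ⟨mS_le hPlim hConvx s β hβ, ?_⟩
  intro hm M
  have hs0 : (0 : ℝ) < s := by exact_mod_cast hs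
  -- step 1: for m' < mS and h > 0
  have step1 : ∀ m' : ℝ, 0 < m' → m' < mS s β → ∀ h : ℝ, 0 < h →
      m' / ((s : ℝ) / 2) * ∑ n ∈ Finset.Icc 1 M, Real.exp (-(n * β * h)) *
        gB (n * β * ((s - m') / m') * s) ^ 3 ≤ (s : ℝ) / 2 - m' := by
    intro m' hm0 hm1 h hh
    obtain ⟨N, hN⟩ := (eventually_mN hPlim hConvx s β hβ h hh m' hm1).exists
    have hmpos : 0 < mN s N β h := hm0.trans hN
    have hfin := hFin s N hs β h hβ hh hmpos M
    have hmono := lhs_mono s hs0 β h m' (mN s N β h) hβ hm0 hN M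
    refine hmono.trans (hfin.trans ?_)
    exact sub_le_sub_left hN.le _
  -- step 2: h to 0
  have step2 : ∀ m' : ℝ, 0 < m' → m' < mS s β →
      m' / ((s : ℝ) / 2) * ∑ n ∈ Finset.Icc 1 M,
        gB (n * β * ((s - m') / m') * s) ^ 3 ≤ (s : ℝ) / 2 - m' := by
    intro m' hm0 hm1
    have hc : Continuous fun h : ℝ => m' / ((s : ℝ) / 2) * ∑ n ∈ Finset.Icc 1 M,
        Real.exp (-(n * β * h)) * gB (n * β * ((s - m') / m') * s) ^ 3 := by
      fun_prop
    have h1 : Tendsto (fun h : ℝ => m' / ((s : ℝ) / 2) * ∑ n ∈ Finset.Icc 1 M,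
        Real.exp (-(n * β * h)) * gB (n * β * ((s - m') / m') * s) ^ 3) (𝓝[>] 0)
        (𝓝 (m' / ((s : ℝ) / 2) * ∑ n ∈ Finset.Icc 1 M,
        Real.exp (-(n * β * 0)) * gB (n * β * ((s - m') / m') * s) ^ 3)) :=
      (hc.tendsto 0).mono_left nhdsWithin_le_nhds
    have h2 := le_of_tendsto h1 (by
      filter_upwards [self_mem_nhdsWithin] with h hh
      exact step1 m' hm0 hm1 h hh)
    simpa using h2
  -- step 3: m' to mS
  have hgc : ∀ n : ℕ, ContinuousAt (fun m' : ℝ => gB (n * β * ((s - m') / m') * s) ^ 3)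
      (mS s β) := by
    intro n
    apply ContinuousAt.pow
    apply ContinuousAt.comp (g := gB)
    · exact gB_cont.continuousAt
    · apply ContinuousAt.mul _ continuousAt_const
      apply ContinuousAt.mul continuousAt_const
      exact ContinuousAt.div (by fun_prop) continuousAt_id hm.ne'
  have hc : ContinuousAt (fun m' : ℝ => m' / ((s : ℝ) / 2) * ∑ n ∈ Finset.Icc 1 M,
        gB (n * β * ((s - m') / m') * s) ^ 3) (mS s β) := by
    apply ContinuousAt.mul (by fun_prop)
    exact tendsto_finsetSum _ fun n _ => hgc n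
  have h1 := hc.tendsto.mono_left (nhdsWithin_le_nhds (s := Set.Iio (mS s β)))
  have h2 : Tendsto (fun m' : ℝ => (s : ℝ) / 2 - m') (𝓝[<] (mS s β))
      (𝓝 ((s : ℝ) / 2 - mS s β)) := by
    apply Tendsto.mono_left _ nhdsWithin_le_nhds
    exact (continuous_const.sub continuous_id).tendsto _
  refine le_of_tendsto_of_tendsto h1 h2 ?_
  filter_upwards [Ioo_mem_nhdsLT hm] with m' hm'
  exact step2 m' hm'.1 hm'.2

end Vale.Agent.P361.Th
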