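import Vale.Agent.P361.Mods
import Vale.Agent.P361.RB
import Vale.Agent.P361.Site
import Vale.Agent.P361.Loc
import Vale.Agent.P361.Dotf
import Vale.Agent.P361.Dc
import Vale.Agent.P361.Gib
import Vale.Agent.P361.Exb
import Vale.Agent.P361.Db
import Vale.Agent.P361.Geo
import Vale.Agent.P361.Pars
import Vale.Agent.P361.Gint
import Vale.Agent.P361.Fin
import Vale.Agent.P361.Thermo

open Filter Topology MeasureTheory

namespace Vale.Agent.P361.Fi

/-- The thermodynamic consequence for the Bose integral. -/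
theorem bose_of (hThermo : THERMO) (hBose : BOSE) (s : ℕ) (hs : 1 ≤ s) (β : ℝ) (hβ : 0 < β)
    (hm : 0 < mS s β) :
    IntegrableOn (fun k : Fin 3 → ℝ => (Real.exp (β * (((s : ℝ) - mS s β) / mS s β *
        (s * ∑ j, (1 - Real.cos (k j))))) - 1)⁻¹)
      (Set.Icc (fun _ => -Real.pi) (fun _ => Real.pi)) ∧
    mS s β / ((s : ℝ) / 2) * ((1 / (2 * Real.pi) ^ 3) *
      ∫ k in Set.Icc (fun _ : Fin 3 => -Real.pi) (fun _ : Fin 3 => Real.pi),
        (Real.exp (β * (((s : ℝ) - mS s β) / mS s β *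
          (s * ∑ j, (1 - Real.cos (k j))))) - 1)⁻¹) ≤ (s : ℝ) / 2 - mS s β := by
  obtain ⟨h1, h2⟩ := hThermo s hs β hβ
  have h3 := h2 hm
  have hs0 : (0 : ℝ) < s := by exact_mod_cast hs
  generalize mS s β = m at hm h1 h3 ⊢
  have hsm : 0 < ((s : ℝ) - m) / m := div_pos (by linarith) hm
  have ht : 0 < β * (((s : ℝ) - m) / m) * s := by positivity
  have hr : 0 < m / ((s : ℝ) / 2) := by positivity
  have hB : ∀ M : ℕ, ∑ n ∈ Finset.Icc 1 M, gB (n * (β * (((s : ℝ) - m) / m) * s)) ^ 3 ≤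
      ((s : ℝ) / 2 - m) / (m / ((s : ℝ) / 2)) := by
    intro M
    rw [le_div_iff₀ hr, mul_comm]
    refine le_trans (le_of_eq ?_) (h3 M)
    congr 1
    apply Finset.sum_congr rfl
    intro n _
    congr 2
    ring
  obtain ⟨g1, g2⟩ := hBose _ ht _ hB
  have hfun : (fun k : Fin 3 → ℝ => (Real.exp (β * (((s : ℝ) - m) / m *
        (s * ∑ j, (1 - Real.cos (k j))))) - 1)⁻¹) = fun k : Fin 3 → ℝ =>
        (Real.exp (β * (((s : ℝ) - m) / m) * s * ∑ j, (1 - Real.cos (k j))) - 1)⁻¹ := by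
    funext k
    congr 3
    ring
  rw [hfun]
  refine ⟨g1, ?_⟩
  rw [le_div_iff₀ hr, mul_comm] at g2
  exact g2

/-- The lower limit. -/
theorem liminf_of (hThermo : THERMO) (hAsym : ASYM) (s : ℕ) (hs : 1 ≤ s) :
    (((riemannZeta (3 / 2)).re /
        (8 * Real.pi ^ (3 / 2 : ℝ) * ((s : ℝ) / 2) ^ (3 / 2 : ℝ)) : ℝ) : EReal) ≤
      liminf (fun β : ℝ => ((β ^ (3 / 2 : ℝ) * ((s : ℝ) / 2 - mS s β) : ℝ) : EReal)) atTop := by
  apply le_of_forall_lt
  intro c hc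
  obtain ⟨c', hc1, hc2⟩ := EReal.lt_iff_exists_real_btwn.mp hc
  refine lt_of_lt_of_le hc1 ?_
  have hc3 : c' < blochC s := by
    unfold blochC
    exact_mod_cast hc2
  obtain ⟨β0, hβ0, hβ⟩ := hAsym s hs c' hc3
  refine le_liminf_of_le (by isBoundedDefault) ?_
  filter_upwards [eventually_ge_atTop β0] with β hb
  have hb0 : 0 < β := hβ0.trans_le hb
  obtain ⟨h1, h2⟩ := hThermo s hs β hb0
  have := hβ β hb (mS s β) h1 h2
  exact_mod_cast this

end Vale.Agent.P361.Fi
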