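import Vale.Agent.P361.Defs

/-!
Interface for P361 (helper22): one-sided Bloch law.  Every `def X : Prop` is a module: prove
`theorem x_proof (deps) : X` in its own file and in the namespace Vale.Agent.P361.XX.
-/

open scoped Matrix ComplexOrder
open Filter Topology

namespace Vale.Agent.P361

/-- M1 (RB). Roepstorff's inequality: for real Delta and a > 0,
(e^Delta - 1)((e^a - 1) - e^a (Delta - a)) <= (e^a - 1)^2. -/
def RB : Prop := ∀ (n : Type) [Fintype n] [DecidableEq n] (K A : Matrix n n ℂ), K.IsHermitian →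
  ∀ a : ℝ, 0 < a →
    (Matrix.trace (NormedSpace.exp (-K) *
      (Aᴴ * (K * A - A * K) - (K * A - A * K) * Aᴴ))).re ≤
        a * (Matrix.trace (NormedSpace.exp (-K) * (A * Aᴴ - Aᴴ * A))).re →
    (Matrix.trace (NormedSpace.exp (-K) * (A * Aᴴ - Aᴴ * A))).re ≤
      (Real.exp a - 1) * (Matrix.trace (NormedSpace.exp (-K) * (Aᴴ * A))).re

/-- M2 (LOC). Spin relations at one site. -/
def LOC : Prop := ∀ s : ℕ,
  (s3 s * sPlus s - sPlus s * s3 s = sPlus s ∧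
    sPlus s * (sPlus s)ᴴ - (sPlus s)ᴴ * sPlus s = (2 : ℂ) • s3 s ∧
    (sPlus s)ᴴ * sPlus s =
      Matrix.diagonal (fun a : Fin (s + 1) => (((a : ℕ) : ℂ) + 1) * ((s : ℂ) - ((a : ℕ) : ℂ)))) ∧
  (s1 s * s2 s - s2 s * s1 s = Complex.I • s3 s ∧ s2 s * s3 s - s3 s * s2 s = Complex.I • s1 s ∧
    s3 s * s1 s - s1 s * s3 s = Complex.I • s2 s) ∧
  (s1 s * s1 s + s2 s * s2 s + s3 s * s3 s = ((s : ℂ) / 2 * ((s : ℂ) / 2 + 1)) • 1) ∧
  (s1 s).IsHermitian ∧ (s2 s).IsHermitian ∧ (s3 s).IsHermitian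

/-- M3 (SITE). Algebra of one-site operators. -/
def SITE : Prop := ∀ (V : Type) [Fintype V] [DecidableEq V] (s : ℕ),
  (∀ (x : V) (A B : LOp s), onSite x (A * B) = onSite x A * onSite x B) ∧
  (∀ (x : V) (A B : LOp s), onSite x (A + B) = onSite x A + onSite x B) ∧
  (∀ (x : V) (c : ℂ) (A : LOp s), onSite x (c • A) = c • onSite x A) ∧
  (∀ (x : V) (A : LOp s), (onSite x A)ᴴ = onSite x Aᴴ) ∧
  (∀ (x : V) (A : LOp s), (onSite x A)ᵀ = onSite x Aᵀ) ∧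
  (∀ (x y : V) (A B : LOp s), x ≠ y → onSite x A * onSite y B = onSite y B * onSite x A) ∧
  (∀ (x : V) (d : Fin (s + 1) → ℂ),
    onSite x (Matrix.diagonal d) = Matrix.diagonal (fun σ : V → Fin (s + 1) => d (σ x)))

/-- M4 (DOTF). dot through raising and lowering operators (uses SITE). -/
def DOTF : Prop := ∀ (V : Type) [Fintype V] [DecidableEq V] (s : ℕ) (x y : V), x ≠ y →
  dot s x y = onSite x (s3 s) * onSite y (s3 s) +
    (1 / 2 : ℂ) • (onSite x (sPlus s) * onSite y (sPlus s)ᴴ +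
      onSite x (sPlus s)ᴴ * onSite y (sPlus s))

/-- The mode sum_x u_x S^+_x. -/
noncomputable def mode {V : Type} [Fintype V] (s : ℕ) (u : V → ℂ) : Op V s :=
  ∑ x, u x • onSite x (sPlus s)

/-- M5 (DC). Double commutator (uses LOC, SITE, DOTF). -/
def DC : Prop := ∀ (V : Type) [Fintype V] [DecidableEq V] (s : ℕ) (adj : V → V → Prop)
  [DecidableRel adj], (∀ x y, adj x y → x ≠ y) → ∀ u : V → ℂ,
    ((mode s u)ᴴ * (ham s adj * mode s u - mode s u * ham s adj) -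
      (ham s adj * mode s u - mode s u * ham s adj) * (mode s u)ᴴ =
      -((1 / 2 : ℂ) • ∑ x, ∑ y, if adj x y then
        (u x - u y) • (star (u x) • (-((2 : ℂ) • (onSite x (s3 s) * onSite y (s3 s))) -
            onSite x (sPlus s)ᴴ * onSite y (sPlus s)) +
          star (u y) • ((2 : ℂ) • (onSite x (s3 s) * onSite y (s3 s)) +
            onSite x (sPlus s) * onSite y (sPlus s)ᴴ)) else 0)) ∧
    (mag V s * mode s u - mode s u * mag V s = mode s u) ∧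
    (mode s u * (mode s u)ᴴ - (mode s u)ᴴ * mode s u =
      ∑ x, ((2 : ℂ) * (u x * star (u x))) • onSite x (s3 s))

/-- M6 (GIB). The Gibbs operator: hermitian exponent, positive semidefinite, symmetric (real),
positive trace (uses SITE, LOC, DOTF). -/
def GIB : Prop := ∀ (V : Type) [Fintype V] [DecidableEq V] (s : ℕ) (adj : V → V → Prop) (β h : ℝ),
  (∀ x y, adj x y → x ≠ y) →
    (ham s adj).IsHermitian ∧ (mag V s).IsHermitian ∧
    (gibbs s adj β h).PosSemidef ∧ (gibbs s adj β h)ᵀ = gibbs s adj β h ∧ 0 < part s adj β h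

/-- M7 (EXB). Bounds for expectations (uses SITE, LOC, GIB). -/
def EXB : Prop := ∀ (V : Type) [Fintype V] [DecidableEq V] (s : ℕ) (adj : V → V → Prop) (β h : ℝ),
  (∀ x y, adj x y → x ≠ y) →
    (∀ x y : V, x ≠ y →
      (Matrix.trace (gibbs s adj β h * (onSite x (sPlus s)ᴴ * onSite y (sPlus s)))).im = 0 ∧
      (Matrix.trace (gibbs s adj β h * (onSite x (sPlus s) * onSite y (sPlus s)ᴴ))).im = 0 ∧
      ex s adj β h (onSite x (sPlus s) * onSite y (sPlus s)ᴴ) =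
        ex s adj β h (onSite x (sPlus s)ᴴ * onSite y (sPlus s)) ∧
      ex s adj β h (onSite x (sPlus s)ᴴ * onSite y (sPlus s)) ≤
        (1 / 2) * (ex s adj β h (onSite x (sPlus s)ᴴ * onSite x (sPlus s)) +
          ex s adj β h (onSite y (sPlus s)ᴴ * onSite y (sPlus s))) ∧
      (Matrix.trace (gibbs s adj β h * (onSite x (s3 s) * onSite y (s3 s)))).im = 0 ∧
      ex s adj β h (onSite x (s3 s) * onSite y (s3 s)) ≤ ((s : ℝ) / 2) ^ 2 * part s adj β h) ∧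
    (∀ x : V, 0 ≤ ex s adj β h (onSite x (sPlus s)ᴴ * onSite x (sPlus s)) ∧
      ex s adj β h (onSite x (sPlus s)ᴴ * onSite x (sPlus s)) ≤
        s * ((s : ℝ) / 2 * part s adj β h - ex s adj β h (onSite x (s3 s))))

/-- M8 (DB). Bound for the double commutator with K = beta (H - h M) (uses DC, GIB, EXB). -/
def DB : Prop := ∀ (V : Type) [Fintype V] [DecidableEq V] (s : ℕ) (adj : V → V → Prop)
  [DecidableRel adj] (β h : ℝ), (∀ x y, adj x y → x ≠ y) → (∀ x y, adj x y → adj y x) → 0 < β →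
    ∀ u : V → ℂ, (∀ x, ‖u x‖ = 1) →
      (Matrix.trace (gibbs s adj β h * ((mode s u)ᴴ *
        ((β : ℂ) • (ham s adj - (h : ℂ) • mag V s) * mode s u -
          mode s u * ((β : ℂ) • (ham s adj - (h : ℂ) • mag V s))) -
        ((β : ℂ) • (ham s adj - (h : ℂ) • mag V s) * mode s u -
          mode s u * ((β : ℂ) • (ham s adj - (h : ℂ) • mag V s))) * (mode s u)ᴴ))).re ≤
      β * ((1 / 2) * ∑ x, ∑ y, (if adj x y then ‖u x - u y‖ ^ 2 *
        (2 * ((s : ℝ) / 2) ^ 2 * part s adj β h +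
          ex s adj β h (onSite x (sPlus s)ᴴ * onSite x (sPlus s))) else 0)) +
        β * h * (2 * ex s adj β h (mag V s)) ∧
      (Matrix.trace (gibbs s adj β h *
        (mode s u * (mode s u)ᴴ - (mode s u)ᴴ * mode s u))).re = 2 * ex s adj β h (mag V s)

/-- The plane wave with momentum k on the box. -/
noncomputable def wave (N : ℕ) (k : Fin 3 → ℝ) : Box N → ℂ := fun x =>
  Complex.exp (Complex.I * ((∑ i, k i * ((x : Fin 3 → ℤ) i : ℝ) : ℝ) : ℂ))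

/-- M9 (GEO). Geometry of the box. -/
def GEO : Prop := ∀ (N : ℕ) [DecidableRel (nn (N := N))] (k : Fin 3 → ℝ),
  (∀ x y : Box N, nn x y → x ≠ y) ∧ (∀ x y : Box N, nn x y → nn y x) ∧
  (∀ x : Box N, ‖wave N k x‖ = 1) ∧
  ∀ c : Box N → ℝ, (∀ x, 0 ≤ c x) →
    ∑ x, ∑ y, (if nn x y then ‖wave N k x - wave N k y‖ ^ 2 * c x else 0) ≤
      4 * (∑ j, (1 - Real.cos (k j))) * ∑ x, c x

/-- M10 (PARS). Parseval on the box, for an arbitrary operator E. -/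
def PARS : Prop := ∀ (s N : ℕ) (E : Op (Box N) s),
  ContinuousOn (fun k : Fin 3 → ℝ =>
    (Matrix.trace (E * ((mode s (wave N k))ᴴ * mode s (wave N k)))).re)
    (Set.Icc (fun _ => -Real.pi) (fun _ => Real.pi)) ∧
  ∫ k in Set.Icc (fun _ : Fin 3 => -Real.pi) (fun _ : Fin 3 => Real.pi),
    (Matrix.trace (E * ((mode s (wave N k))ᴴ * mode s (wave N k)))).re =
      (2 * Real.pi) ^ 3 *
        ∑ x : Box N, (Matrix.trace (E * (onSite x (sPlus s)ᴴ * onSite x (sPlus s)))).re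

/-- M11 (GINT). The three-dimensional integral as a product. -/
def GINT : Prop := ∀ t : ℝ,
  ∫ k in Set.Icc (fun _ : Fin 3 => -Real.pi) (fun _ : Fin 3 => Real.pi),
    Real.exp (-(t * ∑ j, (1 - Real.cos (k j)))) = (2 * Real.pi) ^ 3 * gB t ^ 3

/-- M12 (FIN). The finite-volume inequality (uses RB, SITE, GIB, EXB, DB, GEO, PARS, GINT). -/
def FIN : Prop := ∀ (s N : ℕ), 1 ≤ s → ∀ β h : ℝ, 0 < β → 0 < h → 0 < mN s N β h → ∀ M : ℕ,
  mN s N β h / ((s : ℝ) / 2) * ∑ n ∈ Finset.Icc 1 M, Real.exp (-(n * β * h)) *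
    gB (n * β * ((s - mN s N β h) / mN s N β h) * s) ^ 3 ≤ (s : ℝ) / 2 - mN s N β h

/-- M13 (CONVX). Convexity in the field: H and M commute, M is diagonal, so the partition function
is a sum of exponentials with nonnegative coefficients (uses SITE, DOTF, LOC, GIB). -/
def CONVX : Prop := ∀ (s N : ℕ) (β : ℝ), 0 < β →
  ConvexOn ℝ Set.univ (pN s N β) ∧
  (∀ h : ℝ, pN s N β h - pN s N β 0 ≤ h * mN s N β h) ∧ (∀ h : ℝ, |mN s N β h| ≤ (s : ℝ) / 2)

/-- M14 (PLIM). Existence of the pressure. -/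
def PLIM : Prop := ∀ (s : ℕ) (β h : ℝ), 0 < β →
  ∃ L : ℝ, Tendsto (fun N : ℕ => pN s N β h) atTop (𝓝 L)

/-- M15 (THERMO). Infinite volume (uses FIN, CONVX, PLIM). -/
def THERMO : Prop := ∀ s : ℕ, 1 ≤ s → ∀ β : ℝ, 0 < β →
  mS s β ≤ (s : ℝ) / 2 ∧ (0 < mS s β → ∀ M : ℕ,
    mS s β / ((s : ℝ) / 2) * ∑ n ∈ Finset.Icc 1 M,
      gB (n * β * ((s - mS s β) / mS s β) * s) ^ 3 ≤ (s : ℝ) / 2 - mS s β)

/-- Bloch's constant zeta(3/2) / (8 pi^(3/2) S^(3/2)) with S = s/2. -/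
noncomputable def blochC (s : ℕ) : ℝ :=
  (riemannZeta (3 / 2)).re / (8 * Real.pi ^ (3 / 2 : ℝ) * ((s : ℝ) / 2) ^ (3 / 2 : ℝ))

/-- M16 (ASYM). Asymptotics. -/
def ASYM : Prop := ∀ s : ℕ, 1 ≤ s → ∀ c : ℝ, c < blochC s →
  ∃ β0 : ℝ, 0 < β0 ∧ ∀ β : ℝ, β0 ≤ β → ∀ m : ℝ, m ≤ (s : ℝ) / 2 →
    (0 < m → ∀ M : ℕ, m / ((s : ℝ) / 2) * ∑ n ∈ Finset.Icc 1 M,
      gB (n * β * ((s - m) / m) * s) ^ 3 ≤ (s : ℝ) / 2 - m) →
    c ≤ β ^ (3 / 2 : ℝ) * ((s : ℝ) / 2 - m)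

/-- M17 (BOSE). The Bose-Einstein integral from the partial sums. -/
def BOSE : Prop := ∀ t : ℝ, 0 < t → ∀ B : ℝ,
  (∀ M : ℕ, ∑ n ∈ Finset.Icc 1 M, gB (n * t) ^ 3 ≤ B) →
  MeasureTheory.IntegrableOn (fun k : Fin 3 → ℝ =>
    (Real.exp (t * ∑ j, (1 - Real.cos (k j))) - 1)⁻¹)
    (Set.Icc (fun _ => -Real.pi) (fun _ => Real.pi)) ∧
  (1 / (2 * Real.pi) ^ 3) * ∫ k in Set.Icc (fun _ : Fin 3 => -Real.pi) (fun _ : Fin 3 => Real.pi),
    (Real.exp (t * ∑ j, (1 - Real.cos (k j))) - 1)⁻¹ ≤ B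

end Vale.Agent.P361
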