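import Vale.Agent.P361.Mods

/-! P361, module PLIM, part 1: monotonicity of the trace of the exponential. -/

open scoped Matrix ComplexOrder

namespace Vale.Agent.P361.PL

section
variable {n : Type*} [Fintype n] [DecidableEq n]

/-- `U diag(E) U*` with `U` unitary -/
structure Dec (K : Matrix n n ℂ) (U : Matrix n n ℂ) (E : n → ℝ) : Prop where
  uu : U * Uᴴ = 1
  uu' : Uᴴ * U = 1
  eq : K = U * Matrix.diagonal (fun i => (E i : ℂ)) * Uᴴ

theorem exists_dec (K : Matrix n n ℂ) (hK : K.IsHermitian) : ∃ U E, Dec K U E := by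
  refine ⟨(hK.eigenvectorUnitary : Matrix n n ℂ), hK.eigenvalues, ?_, ?_, ?_⟩
  · exact Unitary.coe_mul_star_self hK.eigenvectorUnitary
  · exact Unitary.coe_star_mul_self hK.eigenvectorUnitary
  · have h := hK.spectral_theorem
    rw [Unitary.conjStarAlgAut_apply] at h
    exact h

theorem Dec.trace_exp {K U : Matrix n n ℂ} {E : n → ℝ} (h : Dec K U E) :
    Matrix.trace (NormedSpace.exp K) = ((∑ i, Real.exp (E i) : ℝ) : ℂ) := by
  have hinv : U⁻¹ = Uᴴ := Matrix.inv_eq_right_inv h.uu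
  have hunit : IsUnit U := (Matrix.isUnit_iff_isUnit_det U).mpr (by
    rw [← Matrix.isUnit_iff_isUnit_det]
    exact ⟨⟨U, Uᴴ, h.uu, h.uu'⟩, rfl⟩)
  have h1 : K = U * (Matrix.diagonal (fun i => (E i : ℂ))) * U⁻¹ := by
    rw [hinv]
    exact h.eq
  rw [h1, Matrix.exp_conj _ _ hunit, Matrix.exp_diagonal, hinv, Matrix.trace_mul_comm,
    ← Matrix.mul_assoc, h.uu', Matrix.one_mul, Matrix.trace_diagonal]
  push_cast
  refine Finset.sum_congr rfl fun i _ => ?_
  rw [Pi.coe_exp, ← Complex.exp_eq_exp_ℂ]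

/-- the unitary change of basis is doubly stochastic -/
theorem row_sum {W : Matrix n n ℂ} (h : W * Wᴴ = 1) (j : n) : ∑ i, ‖W j i‖ ^ 2 = 1 := by
  have h1 := congrFun (congrFun h j) j
  rw [Matrix.mul_apply, Matrix.one_apply_eq] at h1
  have h2 : ∀ i, W j i * Wᴴ i j = ((‖W j i‖ ^ 2 : ℝ) : ℂ) := by
    intro i
    rw [Matrix.conjTranspose_apply, ← Complex.normSq_eq_norm_sq, Complex.normSq_eq_conj_mul_self,
      mul_comm]
    rfl
  rw [Finset.sum_congr rfl fun i _ => h2 i, ← Complex.ofReal_sum] at h1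
  exact_mod_cast h1

theorem col_sum {W : Matrix n n ℂ} (h : Wᴴ * W = 1) (i : n) : ∑ j, ‖W j i‖ ^ 2 = 1 := by
  have h1 := congrFun (congrFun h i) i
  rw [Matrix.mul_apply, Matrix.one_apply_eq] at h1
  have h2 : ∀ j, Wᴴ i j * W j i = ((‖W j i‖ ^ 2 : ℝ) : ℂ) := by
    intro j
    rw [Matrix.conjTranspose_apply, ← Complex.normSq_eq_norm_sq, Complex.normSq_eq_conj_mul_self]
    rfl
  rw [Finset.sum_congr rfl fun j _ => h2 j, ← Complex.ofReal_sum] at h1
  exact_mod_cast h1

/-- monotonicity (Peierls) -/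
theorem trace_exp_le (A B : Matrix n n ℂ) (hA : A.IsHermitian) (hB : B.IsHermitian) (c : ℝ)
    (h : ((c : ℂ) • (1 : Matrix n n ℂ) + B - A).PosSemidef) :
    (Matrix.trace (NormedSpace.exp A)).re ≤
      Real.exp c * (Matrix.trace (NormedSpace.exp B)).re := by
  obtain ⟨U, a, hU⟩ := exists_dec A hA
  obtain ⟨V, b, hV⟩ := exists_dec B hB
  rw [hU.trace_exp, hV.trace_exp, Complex.ofReal_re, Complex.ofReal_re]
  set W : Matrix n n ℂ := Vᴴ * U with hW
  have w1 : W * Wᴴ = 1 := by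
    rw [hW, Matrix.conjTranspose_mul, Matrix.conjTranspose_conjTranspose, Matrix.mul_assoc,
      ← Matrix.mul_assoc U, hU.uu, Matrix.one_mul, hV.uu']
  have w2 : Wᴴ * W = 1 := by
    rw [hW, Matrix.conjTranspose_mul, Matrix.conjTranspose_conjTranspose, Matrix.mul_assoc,
      ← Matrix.mul_assoc V, hV.uu, Matrix.one_mul, hU.uu']
  have key : ∀ i, a i ≤ c + ∑ j, ‖W j i‖ ^ 2 * b j := by
    intro i
    have h1 := h.conjTranspose_mul_mul_same U
    have h2 : Uᴴ * ((c : ℂ) • (1 : Matrix n n ℂ) + B - A) * U =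
        (c : ℂ) • 1 + Wᴴ * Matrix.diagonal (fun i => (b i : ℂ)) * W -
          Matrix.diagonal (fun i => (a i : ℂ)) := by
      have e1 : Uᴴ * A * U = Matrix.diagonal (fun i => (a i : ℂ)) := by
        rw [hU.eq]
        calc Uᴴ * (U * Matrix.diagonal (fun i => (a i : ℂ)) * Uᴴ) * U
            = (Uᴴ * U) * Matrix.diagonal (fun i => (a i : ℂ)) * (Uᴴ * U) := by
              simp only [Matrix.mul_assoc]
          _ = Matrix.diagonal (fun i => (a i : ℂ)) := by
              rw [hU.uu', Matrix.one_mul, Matrix.mul_one]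
      have e2 : Uᴴ * B * U = Wᴴ * Matrix.diagonal (fun i => (b i : ℂ)) * W := by
        rw [hV.eq, hW, Matrix.conjTranspose_mul, Matrix.conjTranspose_conjTranspose]
        simp only [Matrix.mul_assoc]
      rw [Matrix.mul_sub, Matrix.sub_mul, Matrix.mul_add, Matrix.add_mul, e1, e2,
        Matrix.mul_smul, Matrix.mul_one, Matrix.smul_mul, hU.uu']
    rw [h2] at h1
    have h3 := h1.diag_nonneg (i := i)
    have h4 : (Wᴴ * Matrix.diagonal (fun i => (b i : ℂ)) * W) i i =
        ((∑ j, ‖W j i‖ ^ 2 * b j : ℝ) : ℂ) := by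
      rw [Matrix.mul_apply]
      push_cast
      refine Finset.sum_congr rfl fun j _ => ?_
      rw [Matrix.mul_diagonal, Matrix.conjTranspose_apply]
      have : star (W j i) * W j i = ((‖W j i‖ ^ 2 : ℝ) : ℂ) := by
        rw [← Complex.normSq_eq_norm_sq, Complex.normSq_eq_conj_mul_self]
        rfl
      calc star (W j i) * (b j : ℂ) * W j i = (star (W j i) * W j i) * (b j : ℂ) := by ring
        _ = _ := by rw [this]; push_cast; rfl
    rw [Matrix.sub_apply, Matrix.add_apply, h4, Matrix.smul_apply, Matrix.one_apply_eq,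
      Matrix.diagonal_apply_eq, smul_eq_mul, mul_one, ← Complex.ofReal_add,
      ← Complex.ofReal_sub] at h3
    have h5 : (0 : ℝ) ≤ c + ∑ j, ‖W j i‖ ^ 2 * b j - a i := by exact_mod_cast h3
    linarith
  have jensen : ∀ i, Real.exp (∑ j, ‖W j i‖ ^ 2 * b j) ≤ ∑ j, ‖W j i‖ ^ 2 * Real.exp (b j) := by
    intro i
    have := convexOn_exp.map_sum_le (t := Finset.univ) (w := fun j => ‖W j i‖ ^ 2)
      (p := fun j => b j) (fun j _ => by positivity) (col_sum w2 i) (fun j _ => Set.mem_univ _)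
    simpa only [smul_eq_mul] using this
  calc ∑ i, Real.exp (a i) ≤ ∑ i, Real.exp c * ∑ j, ‖W j i‖ ^ 2 * Real.exp (b j) := by
        refine Finset.sum_le_sum fun i _ => ?_
        calc Real.exp (a i) ≤ Real.exp (c + ∑ j, ‖W j i‖ ^ 2 * b j) :=
              Real.exp_le_exp.2 (key i)
          _ = Real.exp c * Real.exp (∑ j, ‖W j i‖ ^ 2 * b j) := Real.exp_add _ _
          _ ≤ _ := mul_le_mul_of_nonneg_left (jensen i) (Real.exp_pos c).le
    _ = Real.exp c * ∑ j, ∑ i, ‖W j i‖ ^ 2 * Real.exp (b j) := by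
        rw [← Finset.mul_sum, Finset.sum_comm]
    _ = Real.exp c * ∑ j, Real.exp (b j) := by
        congr 1
        refine Finset.sum_congr rfl fun j _ => ?_
        rw [← Finset.sum_mul, row_sum w1 j, one_mul]

end

end Vale.Agent.P361.PL
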