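import Vale.Agent.P361.PL1
import Vale.Agent.P361.Site
import Vale.Agent.P361.Loc
import Vale.Agent.P361.Gib

/-! P361, module PLIM, part 2: isomorphism invariance, factorisation and perturbation of the
partition function. -/

open scoped Matrix ComplexOrder Kronecker

namespace Vale.Agent.P361.PL

/-- the exponent -/
noncomputable def expo {V : Type} [Fintype V] [DecidableEq V] (s : ℕ) (adj : V → V → Prop)
    (β h : ℝ) : Op V s := -((β : ℂ) • (ham s adj - (h : ℂ) • mag V s))

/-- an injective algebra map carrying one-site operators to one-site operators -/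
structure Tr {V V' : Type} [Fintype V] [DecidableEq V] [Fintype V'] [DecidableEq V'] (s : ℕ)
    (ι : V → V') (φ : Op V s →ₐ[ℂ] Op V' s) : Prop where
  site : ∀ (x : V) (A : LOp s), φ (onSite x A) = onSite (ι x) A

section
variable {V V' : Type} [Fintype V] [DecidableEq V] [Fintype V'] [DecidableEq V'] {s : ℕ}
  {ι : V → V'} {φ : Op V s →ₐ[ℂ] Op V' s}

theorem Tr.dot (h : Tr s ι φ) (x y : V) : φ (P361.dot s x y) = P361.dot s (ι x) (ι y) := by
  unfold P361.dot
  simp only [map_add, map_mul, h.site]

theorem Tr.mag (h : Tr s ι φ) : φ (P361.mag V s) = ∑ x : V, onSite (ι x) (s3 s) := by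
  unfold P361.mag
  rw [map_sum]
  exact Finset.sum_congr rfl fun x _ => h.site x _

theorem Tr.ham (h : Tr s ι φ) (adj : V → V → Prop) [DecidableRel adj] : φ (P361.ham s adj) =
    -((1 / 2 : ℂ) • ∑ x, ∑ y, if adj x y then P361.dot s (ι x) (ι y) else 0) := by
  unfold P361.ham
  rw [map_neg, map_smul, map_sum]
  congr 2
  refine Finset.sum_congr rfl fun x _ => ?_
  rw [map_sum]
  refine Finset.sum_congr rfl fun y _ => ?_
  by_cases hxy : adj x y
  · rw [if_pos hxy, if_pos hxy, h.dot]
  · rw [if_neg hxy, if_neg hxy, map_zero]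

end

/-! ### relabelling of the sites -/

section
variable {V V' : Type} [Fintype V] [DecidableEq V] [Fintype V'] [DecidableEq V'] {s : ℕ}

/-- relabelling of configurations -/
def cfg (e : V ≃ V') (s : ℕ) : (V → Fin (s + 1)) ≃ (V' → Fin (s + 1)) :=
  Equiv.arrowCongr e (Equiv.refl _)

theorem cfg_apply (e : V ≃ V') (σ : V → Fin (s + 1)) (y : V') :
    cfg e s σ y = σ (e.symm y) := rfl

/-- relabelling of operators -/
noncomputable def rel (e : V ≃ V') (s : ℕ) : Op V s ≃ₐ[ℂ] Op V' s :=
  Matrix.reindexAlgEquiv ℂ ℂ (cfg e s)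

theorem rel_apply (e : V ≃ V') (A : Op V s) (σ τ : V' → Fin (s + 1)) :
    rel e s A σ τ = A (fun x => σ (e x)) (fun x => τ (e x)) := by
  unfold rel
  rw [Matrix.coe_reindexAlgEquiv]
  rfl

theorem rel_site (e : V ≃ V') (x : V) (A : LOp s) :
    rel e s (onSite x A) = onSite (e x) A := by
  ext σ τ
  rw [rel_apply]
  by_cases h : ∀ y, y ≠ x → σ (e y) = τ (e y)
  · rw [SI.onSite_of _ _ _ _ h, SI.onSite_of]
    intro y hy
    have := h (e.symm y) (fun hc => hy (by rw [← hc, Equiv.apply_symm_apply]))
    rwa [Equiv.apply_symm_apply] at this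
  · rw [SI.onSite_of_not _ _ _ _ h, SI.onSite_of_not]
    intro hc
    apply h
    intro y hy
    exact hc (e y) (fun h2 => hy (e.injective h2))

theorem rel_star (e : V ≃ V') (A : Op V s) : (rel e s A)ᴴ = rel e s Aᴴ := by
  ext σ τ
  rw [Matrix.conjTranspose_apply, rel_apply, rel_apply, Matrix.conjTranspose_apply]

theorem rel_diag (e : V ≃ V') (d : (V → Fin (s + 1)) → ℂ) :
    rel e s (Matrix.diagonal d) = Matrix.diagonal (fun σ => d (fun x => σ (e x))) := by
  ext σ τ
  rw [rel_apply]
  by_cases h : σ = τ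
  · subst h
    rw [Matrix.diagonal_apply_eq, Matrix.diagonal_apply_eq]
  · rw [Matrix.diagonal_apply_ne _ h, Matrix.diagonal_apply_ne]
    intro hc
    apply h
    funext y
    have := congrFun hc (e.symm y)
    simpa using this

theorem trace_exp_rel (e : V ≃ V') (K : Op V s) (hK : K.IsHermitian) :
    Matrix.trace (NormedSpace.exp (rel e s K)) = Matrix.trace (NormedSpace.exp K) := by
  obtain ⟨U, E, h⟩ := exists_dec K hK
  have h' : Dec (rel e s K) (rel e s U) (fun σ => E (fun x => σ (e x))) := by
    refine ⟨?_, ?_, ?_⟩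
    · rw [rel_star, ← map_mul, h.uu, map_one]
    · rw [rel_star, ← map_mul, h.uu', map_one]
    · rw [rel_star, ← rel_diag e (fun σ => (E σ : ℂ)), ← map_mul, ← map_mul, ← h.eq]
  rw [h.trace_exp, h'.trace_exp]
  congr 1
  exact Fintype.sum_equiv (cfg e s).symm _ _ (fun σ => rfl)

theorem part_congr (e : V ≃ V') (adj : V → V → Prop) (adj' : V' → V' → Prop)
    (hne : ∀ x y, adj x y → x ≠ y) (h : ∀ x y, adj x y ↔ adj' (e x) (e y)) (β h' : ℝ) :
    part s adj β h' = part s adj' β h' := by
  classical
  have hT : Tr s e (rel e s : Op V s →ₐ[ℂ] Op V' s) := ⟨rel_site e⟩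
  have hG := Gi.gib_proof SI.site_proof LO.loc_proof V s adj β h' hne
  have hK : (expo s adj β h').IsHermitian := by
    unfold expo
    refine Matrix.IsHermitian.neg ?_
    have h1 : ((h' : ℂ) • mag V s).IsHermitian := by
      unfold Matrix.IsHermitian
      rw [Matrix.conjTranspose_smul, hG.2.1.eq]
      congr 1
      exact Complex.conj_ofReal h'
    have h2 := hG.1.sub h1
    unfold Matrix.IsHermitian
    rw [Matrix.conjTranspose_smul, h2.eq]
    congr 1
    exact Complex.conj_ofReal β
  have e1 : rel e s (expo s adj β h') = expo s adj' β h' := by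
    unfold expo
    have m1 := hT.mag
    have m2 := hT.ham adj
    have a1 : rel e s (mag V s) = mag V' s := by
      refine m1.trans ?_
      unfold P361.mag
      exact Fintype.sum_equiv e _ _ (fun x => rfl)
    have a2 : rel e s (ham s adj) = ham s adj' := by
      refine m2.trans ?_
      unfold P361.ham
      congr 2
      refine Fintype.sum_equiv e _ _ (fun x => ?_)
      refine Fintype.sum_equiv e _ _ (fun y => ?_)
      by_cases hxy : adj x y
      · rw [if_pos hxy, if_pos ((h x y).1 hxy)]
      · rw [if_neg hxy, if_neg (fun hc => hxy ((h x y).2 hc))]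
    rw [map_neg, map_smul, map_sub, map_smul, a1, a2]
  unfold part gibbs
  have e2 := trace_exp_rel e _ hK
  rw [e1] at e2
  unfold expo at e2
  rw [e2]

end

end Vale.Agent.P361.PL
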