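import Vale.Agent.P361.PL2

/-! P361, module PLIM, part 3: factorisation of the partition function over components. -/

open scoped Matrix ComplexOrder Kronecker

namespace Vale.Agent.P361.PL

theorem Dec.sub {m n : Type*} [Fintype n] [DecidableEq n] [Fintype m] [DecidableEq m]
    {K U : Matrix n n ℂ} {E : n → ℝ} (h : Dec K U E) (e : m ≃ n) :
    Dec (K.submatrix e e) (U.submatrix e e) (fun i => E (e i)) := by
  refine ⟨?_, ?_, ?_⟩
  · rw [Matrix.conjTranspose_submatrix, Matrix.submatrix_mul_equiv, h.uu,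
      Matrix.submatrix_one_equiv]
  · rw [Matrix.conjTranspose_submatrix, Matrix.submatrix_mul_equiv, h.uu',
      Matrix.submatrix_one_equiv]
  · have h1 : Matrix.diagonal (fun i => (E (e i) : ℂ)) =
        (Matrix.diagonal (fun i => (E i : ℂ))).submatrix e e := by
      rw [Matrix.submatrix_diagonal_equiv]
      rfl
    rw [h1, Matrix.conjTranspose_submatrix, Matrix.submatrix_mul_equiv,
      Matrix.submatrix_mul_equiv, ← h.eq]

theorem Dec.kron {m n : Type*} [Fintype n] [DecidableEq n] [Fintype m] [DecidableEq m]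
    {A U : Matrix m m ℂ} {E : m → ℝ} {B W : Matrix n n ℂ} {F : n → ℝ} (h : Dec A U E)
    (h' : Dec B W F) :
    Dec (A ⊗ₖ (1 : Matrix n n ℂ) + (1 : Matrix m m ℂ) ⊗ₖ B) (U ⊗ₖ W)
      (fun p => E p.1 + F p.2) := by
  refine ⟨?_, ?_, ?_⟩
  · rw [Matrix.conjTranspose_kronecker, ← Matrix.mul_kronecker_mul, h.uu, h'.uu,
      Matrix.one_kronecker_one]
  · rw [Matrix.conjTranspose_kronecker, ← Matrix.mul_kronecker_mul, h.uu', h'.uu',
      Matrix.one_kronecker_one]
  · have h1 : Matrix.diagonal (fun p : m × n => ((E p.1 + F p.2 : ℝ) : ℂ)) =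
        Matrix.diagonal (fun i => (E i : ℂ)) ⊗ₖ (1 : Matrix n n ℂ) +
          (1 : Matrix m m ℂ) ⊗ₖ Matrix.diagonal (fun i => (F i : ℂ)) := by
      rw [← Matrix.diagonal_one, ← Matrix.diagonal_one, Matrix.diagonal_kronecker_diagonal,
        Matrix.diagonal_kronecker_diagonal, Matrix.diagonal_add]
      congr 1
      funext p
      push_cast
      ring
    rw [h1, Matrix.mul_add, Matrix.add_mul, Matrix.conjTranspose_kronecker,
      ← Matrix.mul_kronecker_mul, ← Matrix.mul_kronecker_mul, ← Matrix.mul_kronecker_mul,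
      ← Matrix.mul_kronecker_mul, Matrix.mul_one, Matrix.mul_one, h.uu, h'.uu, ← h.eq, ← h'.eq]

section
variable {V V' : Type} [Fintype V] [DecidableEq V] [Fintype V'] [DecidableEq V'] {s : ℕ}

theorem expo_herm (s : ℕ) (adj : V → V → Prop) (hne : ∀ x y, adj x y → x ≠ y) (β h : ℝ) :
    (expo s adj β h).IsHermitian := by
  have hG := Gi.gib_proof SI.site_proof LO.loc_proof V s adj β h hne
  unfold expo
  refine Matrix.IsHermitian.neg ?_
  have h1 : ((h : ℂ) • mag V s).IsHermitian := by
    unfold Matrix.IsHermitian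
    rw [Matrix.conjTranspose_smul, hG.2.1.eq]
    congr 1
    exact Complex.conj_ofReal h
  have h2 := hG.1.sub h1
  unfold Matrix.IsHermitian
  rw [Matrix.conjTranspose_smul, h2.eq]
  congr 1
  exact Complex.conj_ofReal β

/-- configurations on a disjoint union -/
def sumE (V V' : Type) (s : ℕ) :
    (V ⊕ V' → Fin (s + 1)) ≃ (V → Fin (s + 1)) × (V' → Fin (s + 1)) :=
  Equiv.sumArrowEquivProdArrow V V' (Fin (s + 1))

/-- operators of the first part -/
noncomputable def inL (V V' : Type) [Fintype V] [DecidableEq V] [Fintype V'] [DecidableEq V']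
    (s : ℕ) : Op V s →ₐ[ℂ] Op (V ⊕ V') s :=
  AlgHom.ofLinearMap
    { toFun := fun X => (X ⊗ₖ (1 : Op V' s)).submatrix (sumE V V' s) (sumE V V' s)
      map_add' := by
        intro X Y
        rw [Matrix.add_kronecker]
        rfl
      map_smul' := by
        intro c X
        rw [Matrix.smul_kronecker]
        rfl }
    (by
      change ((1 : Op V s) ⊗ₖ (1 : Op V' s)).submatrix (sumE V V' s) (sumE V V' s) = 1
      rw [Matrix.one_kronecker_one, Matrix.submatrix_one_equiv])
    (by
      intro X Y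
      change ((X * Y) ⊗ₖ (1 : Op V' s)).submatrix (sumE V V' s) (sumE V V' s) =
        (X ⊗ₖ (1 : Op V' s)).submatrix (sumE V V' s) (sumE V V' s) *
          (Y ⊗ₖ (1 : Op V' s)).submatrix (sumE V V' s) (sumE V V' s)
      rw [Matrix.submatrix_mul_equiv, ← Matrix.mul_kronecker_mul, Matrix.one_mul])

/-- operators of the second part -/
noncomputable def inR (V V' : Type) [Fintype V] [DecidableEq V] [Fintype V'] [DecidableEq V']
    (s : ℕ) : Op V' s →ₐ[ℂ] Op (V ⊕ V') s :=
  AlgHom.ofLinearMap
    { toFun := fun X => ((1 : Op V s) ⊗ₖ X).submatrix (sumE V V' s) (sumE V V' s)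
      map_add' := by
        intro X Y
        rw [Matrix.kronecker_add]
        rfl
      map_smul' := by
        intro c X
        rw [Matrix.kronecker_smul]
        rfl }
    (by
      change ((1 : Op V s) ⊗ₖ (1 : Op V' s)).submatrix (sumE V V' s) (sumE V V' s) = 1
      rw [Matrix.one_kronecker_one, Matrix.submatrix_one_equiv])
    (by
      intro X Y
      change ((1 : Op V s) ⊗ₖ (X * Y)).submatrix (sumE V V' s) (sumE V V' s) =
        ((1 : Op V s) ⊗ₖ X).submatrix (sumE V V' s) (sumE V V' s) *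
          ((1 : Op V s) ⊗ₖ Y).submatrix (sumE V V' s) (sumE V V' s)
      rw [Matrix.submatrix_mul_equiv, ← Matrix.mul_kronecker_mul, Matrix.one_mul])

theorem inL_apply (X : Op V s) : inL V V' s X =
    (X ⊗ₖ (1 : Op V' s)).submatrix (sumE V V' s) (sumE V V' s) := rfl

theorem inR_apply (X : Op V' s) : inR V V' s X =
    ((1 : Op V s) ⊗ₖ X).submatrix (sumE V V' s) (sumE V V' s) := rfl

theorem trL : Tr s (Sum.inl : V → V ⊕ V') (inL V V' s) := by
  refine ⟨fun x A => ?_⟩
  ext σ τ
  rw [inL_apply, Matrix.submatrix_apply, Matrix.kroneckerMap_apply]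
  by_cases h2 : (sumE V V' s σ).2 = (sumE V V' s τ).2
  · rw [h2, Matrix.one_apply_eq, mul_one]
    by_cases h1 : ∀ y, y ≠ x → (sumE V V' s σ).1 y = (sumE V V' s τ).1 y
    · rw [SI.onSite_of _ _ _ _ h1, SI.onSite_of]
      · rfl
      · rintro (y | y) hy
        · exact h1 y (fun hc => hy (by rw [hc]))
        · exact congrFun h2 y
    · rw [SI.onSite_of_not _ _ _ _ h1, SI.onSite_of_not]
      intro hc
      apply h1
      intro y hy
      exact hc (Sum.inl y) (fun h3 => hy (Sum.inl_injective h3))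
  · rw [Matrix.one_apply_ne h2, mul_zero, SI.onSite_of_not]
    intro hc
    apply h2
    funext y
    exact hc (Sum.inr y) (by simp)

theorem trR : Tr s (Sum.inr : V' → V ⊕ V') (inR V V' s) := by
  refine ⟨fun x A => ?_⟩
  ext σ τ
  rw [inR_apply, Matrix.submatrix_apply, Matrix.kroneckerMap_apply]
  by_cases h2 : (sumE V V' s σ).1 = (sumE V V' s τ).1
  · rw [h2, Matrix.one_apply_eq, one_mul]
    by_cases h1 : ∀ y, y ≠ x → (sumE V V' s σ).2 y = (sumE V V' s τ).2 y
    · rw [SI.onSite_of _ _ _ _ h1, SI.onSite_of]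
      · rfl
      · rintro (y | y) hy
        · exact congrFun h2 y
        · exact h1 y (fun hc => hy (by rw [hc]))
    · rw [SI.onSite_of_not _ _ _ _ h1, SI.onSite_of_not]
      intro hc
      apply h1
      intro y hy
      exact hc (Sum.inr y) (fun h3 => hy (Sum.inr_injective h3))
  · rw [Matrix.one_apply_ne h2, zero_mul, SI.onSite_of_not]
    intro hc
    apply h2
    funext y
    exact hc (Sum.inl y) (by simp)

theorem expo_sum (adj : V → V → Prop) (adj' : V' → V' → Prop) (β h : ℝ) :
    expo s (Sum.LiftRel adj adj') β h =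
      inL V V' s (expo s adj β h) + inR V V' s (expo s adj' β h) := by
  classical
  have a1 : mag (V ⊕ V') s = inL V V' s (mag V s) + inR V V' s (mag V' s) := by
    rw [trL.mag, trR.mag]
    unfold mag
    rw [Fintype.sum_sum_type]
  have key1 : ∀ {A B C : Op (V ⊕ V') s}, A = C → B = 0 → A + B = C := by
    intro A B C h1 h2
    rw [h1, h2, add_zero]
  have key2 : ∀ {A B C : Op (V ⊕ V') s}, B = C → A = 0 → A + B = C := by
    intro A B C h1 h2
    rw [h1, h2, zero_add]
  have a2 : ham s (Sum.LiftRel adj adj') =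
      inL V V' s (ham s adj) + inR V V' s (ham s adj') := by
    rw [trL.ham, trR.ham]
    unfold ham
    rw [← neg_add, ← smul_add]
    congr 2
    rw [Fintype.sum_sum_type]
    congr 1
    · refine Finset.sum_congr rfl fun x _ => ?_
      rw [Fintype.sum_sum_type]
      refine key1 ?_ ?_
      · refine Finset.sum_congr rfl fun y _ => ?_
        by_cases hxy : adj x y
        · rw [if_pos hxy, if_pos (Sum.liftRel_inl_inl.2 hxy)]
        · rw [if_neg hxy, if_neg (fun hc => hxy (Sum.liftRel_inl_inl.1 hc))]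
      · refine Finset.sum_eq_zero fun y _ => ?_
        rw [if_neg]
        exact Sum.not_liftRel_inl_inr
    · refine Finset.sum_congr rfl fun x _ => ?_
      rw [Fintype.sum_sum_type]
      refine key2 ?_ ?_
      · refine Finset.sum_congr rfl fun y _ => ?_
        by_cases hxy : adj' x y
        · rw [if_pos hxy, if_pos (Sum.liftRel_inr_inr.2 hxy)]
        · rw [if_neg hxy, if_neg (fun hc => hxy (Sum.liftRel_inr_inr.1 hc))]
      · refine Finset.sum_eq_zero fun y _ => ?_
        rw [if_neg]
        exact Sum.not_liftRel_inr_inl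
  unfold expo
  rw [a1, a2]
  simp only [map_neg, map_smul, map_sub, smul_sub, smul_add]
  abel

theorem part_sum (adj : V → V → Prop) (adj' : V' → V' → Prop)
    (hne : ∀ x y, adj x y → x ≠ y) (hne' : ∀ x y, adj' x y → x ≠ y) (β h : ℝ) :
    part s (Sum.LiftRel adj adj') β h = part s adj β h * part s adj' β h := by
  obtain ⟨U, E, hU⟩ := exists_dec _ (expo_herm s adj hne β h)
  obtain ⟨W, F, hW⟩ := exists_dec _ (expo_herm s adj' hne' β h)
  have hk := (hU.kron hW).sub (sumE V V' s)
  have e1 : expo s (Sum.LiftRel adj adj') β h =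
      (expo s adj β h ⊗ₖ (1 : Op V' s) + (1 : Op V s) ⊗ₖ expo s adj' β h).submatrix
        (sumE V V' s) (sumE V V' s) := by
    rw [expo_sum, inL_apply, inR_apply]
    rfl
  rw [← e1] at hk
  have t1 := hk.trace_exp
  have t2 := hU.trace_exp
  have t3 := hW.trace_exp
  unfold part gibbs
  change (Matrix.trace (NormedSpace.exp (expo s (Sum.LiftRel adj adj') β h))).re =
    (Matrix.trace (NormedSpace.exp (expo s adj β h))).re *
      (Matrix.trace (NormedSpace.exp (expo s adj' β h))).re
  rw [t1, t2, t3, Complex.ofReal_re, Complex.ofReal_re, Complex.ofReal_re]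
  rw [Equiv.sum_comp (sumE V V' s) (fun p => Real.exp (E p.1 + F p.2)), Fintype.sum_prod_type,
    Finset.sum_mul_sum]
  refine Finset.sum_congr rfl fun i _ => Finset.sum_congr rfl fun j _ => ?_
  exact Real.exp_add _ _

theorem part_pos (adj : V → V → Prop) (hne : ∀ x y, adj x y → x ≠ y) (β h : ℝ) :
    0 < part s adj β h :=
  (Gi.gib_proof SI.site_proof LO.loc_proof V s adj β h hne).2.2.2.2

end

end Vale.Agent.P361.PL
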