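import Vale.Agent.P361.PL3

/-! P361, module PLIM, part 4: removing bonds changes the logarithm of the partition function by a
bounded amount per bond. -/

open scoped Matrix ComplexOrder

namespace Vale.Agent.P361.PL

/-- `S (S + 1)` -/
noncomputable def cs (s : ℕ) : ℝ := (s : ℝ) / 2 * ((s : ℝ) / 2 + 1)

theorem cs_nonneg (s : ℕ) : 0 ≤ cs s := by
  unfold cs
  positivity

section
variable {V : Type} [Fintype V] [DecidableEq V]

theorem dot_psd (s : ℕ) (x y : V) (hxy : x ≠ y) (ε : ℝ) (hε : ε * ε = 1) :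
    (((cs s : ℝ) : ℂ) • (1 : Op V s) + (ε : ℂ) • dot s x y).PosSemidef := by
  obtain ⟨hmul, hadd, hsmul, hH, hT, hcomm, hdiag⟩ := SI.site_proof V s
  obtain ⟨_, _, hcas, h1, h2, h3⟩ := LO.loc_proof s
  have hone : ∀ z : V, onSite z (1 : LOp s) = 1 := by
    intro z
    have := hdiag z (fun _ => 1)
    rw [Matrix.diagonal_one] at this
    rw [this, Matrix.diagonal_one]
  have hsq : ∀ z : V, onSite z (s1 s) * onSite z (s1 s) + onSite z (s2 s) * onSite z (s2 s) +
      onSite z (s3 s) * onSite z (s3 s) = ((cs s : ℝ) : ℂ) • (1 : Op V s) := by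
    intro z
    rw [← hmul, ← hmul, ← hmul, ← hadd, ← hadd, hcas, hsmul, hone]
    congr 1
    unfold cs
    push_cast
    ring
  have hpsd : ∀ A : LOp s, A.IsHermitian →
      ((onSite x A + (ε : ℂ) • onSite y A) * (onSite x A + (ε : ℂ) • onSite y A)).PosSemidef := by
    intro A hA
    have e : (onSite x A + (ε : ℂ) • onSite y A)ᴴ = onSite x A + (ε : ℂ) • onSite y A := by
      rw [Matrix.conjTranspose_add, Matrix.conjTranspose_smul, hH, hH, hA.eq]
      congr 2
      exact Complex.conj_ofReal ε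
    have h := Matrix.posSemidef_conjTranspose_mul_self (onSite x A + (ε : ℂ) • onSite y A)
    rw [e] at h
    exact h
  have hexp : ∀ A : LOp s, (onSite x A + (ε : ℂ) • onSite y A) *
      (onSite x A + (ε : ℂ) • onSite y A) = onSite x A * onSite x A + onSite y A * onSite y A +
        (2 : ℂ) • ((ε : ℂ) • (onSite x A * onSite y A)) := by
    intro A
    have hc : onSite y A * onSite x A = onSite x A * onSite y A :=
      hcomm y x A A (fun h => hxy h.symm)
    have hee : (ε : ℂ) * (ε : ℂ) = 1 := by exact_mod_cast hε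
    rw [Matrix.add_mul, Matrix.mul_add, Matrix.mul_add, Matrix.smul_mul, Matrix.mul_smul,
      Matrix.mul_smul, Matrix.smul_mul, smul_smul, hee, one_smul, hc, two_smul]
    abel
  have hsum := ((hpsd _ h1).add (hpsd _ h2)).add (hpsd _ h3)
  rw [hexp, hexp, hexp] at hsum
  have e2 : onSite x (s1 s) * onSite x (s1 s) + onSite y (s1 s) * onSite y (s1 s) +
        (2 : ℂ) • ((ε : ℂ) • (onSite x (s1 s) * onSite y (s1 s))) +
      (onSite x (s2 s) * onSite x (s2 s) + onSite y (s2 s) * onSite y (s2 s) +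
        (2 : ℂ) • ((ε : ℂ) • (onSite x (s2 s) * onSite y (s2 s)))) +
      (onSite x (s3 s) * onSite x (s3 s) + onSite y (s3 s) * onSite y (s3 s) +
        (2 : ℂ) • ((ε : ℂ) • (onSite x (s3 s) * onSite y (s3 s)))) =
      (2 : ℂ) • (((cs s : ℝ) : ℂ) • (1 : Op V s) + (ε : ℂ) • dot s x y) := by
    have e3 : (2 : ℂ) • (((cs s : ℝ) : ℂ) • (1 : Op V s)) =
        ((cs s : ℝ) : ℂ) • (1 : Op V s) + ((cs s : ℝ) : ℂ) • (1 : Op V s) := two_smul _ _
    rw [smul_add, e3]
    conv_rhs => rw [← hsq x]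
    nth_rewrite 2 [hsq x]
    rw [← hsq y]
    unfold dot
    simp only [smul_add]
    abel
  rw [e2] at hsum
  have h4 := hsum.smul (a := (1 / 2 : ℝ)) (by norm_num)
  have e5 : (1 / 2 : ℝ) • ((2 : ℂ) • (((cs s : ℝ) : ℂ) • (1 : Op V s) + (ε : ℂ) • dot s x y)) =
      ((cs s : ℝ) : ℂ) • (1 : Op V s) + (ε : ℂ) • dot s x y := by
    rw [← Complex.coe_smul, smul_smul]
    norm_num
  rw [e5] at h4
  exact h4

theorem expo_diff (s : ℕ) (adj adj0 : V → V → Prop)
    (hsub : ∀ x y, adj0 x y → adj x y) (R : Finset (V × V))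
    (hR : ∀ x y, (x, y) ∈ R ↔ adj x y ∧ ¬ adj0 x y) (β h : ℝ) :
    expo s adj β h - expo s adj0 β h =
      ((β / 2 : ℝ) : ℂ) • ∑ p ∈ R, dot s p.1 p.2 := by
  classical
  have e1 : ham s adj = ham s adj0 - (1 / 2 : ℂ) • ∑ p ∈ R, dot s p.1 p.2 := by
    have e2 : ∑ p ∈ R, dot s p.1 p.2 = ∑ x, ∑ y, if (x, y) ∈ R then dot s x y else 0 := by
      rw [← Fintype.sum_prod_type' (fun x y => if (x, y) ∈ R then dot s x y else 0)]
      rw [← Finset.sum_filter]
      congr 1
      ext p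
      simp
    unfold ham
    rw [e2, ← neg_add', ← smul_add, ← Finset.sum_add_distrib]
    congr 2
    refine Finset.sum_congr rfl fun x _ => ?_
    rw [← Finset.sum_add_distrib]
    refine Finset.sum_congr rfl fun y _ => ?_
    by_cases h1 : adj x y
    · by_cases h2 : adj0 x y
      · rw [if_pos h1, if_pos h2, if_neg (fun hc => ((hR x y).1 hc).2 h2), add_zero]
      · rw [if_pos h1, if_neg h2, if_pos ((hR x y).2 ⟨h1, h2⟩), zero_add]
    · rw [if_neg h1, if_neg (fun hc => h1 (hsub x y hc)),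
        if_neg (fun hc => h1 ((hR x y).1 hc).1), add_zero]
  unfold expo
  rw [e1]
  have e3 : ((β / 2 : ℝ) : ℂ) = (β : ℂ) * (1 / 2 : ℂ) := by push_cast; ring
  rw [e3, ← smul_smul]
  simp only [smul_sub]
  abel

theorem pert_psd (s : ℕ) (R : Finset (V × V)) (hR : ∀ p ∈ R, p.1 ≠ p.2) (k : ℕ)
    (hk : R.card ≤ k) (β : ℝ) (hβ : 0 < β) (ε : ℝ) (hε : ε * ε = 1) :
    (((β * (k / 2) * cs s : ℝ) : ℂ) • (1 : Op V s) +
      (ε : ℂ) • (((β / 2 : ℝ) : ℂ) • ∑ p ∈ R, dot s p.1 p.2)).PosSemidef := by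
  classical
  have h1 : (∑ p ∈ R, (((cs s : ℝ) : ℂ) • (1 : Op V s) + (ε : ℂ) • dot s p.1 p.2)).PosSemidef := by
    refine Matrix.posSemidef_sum _ fun p hp => dot_psd s p.1 p.2 (hR p hp) ε hε
  have h2 : ((((k : ℝ) - R.card) * cs s) • (1 : Op V s)).PosSemidef := by
    refine Matrix.PosSemidef.smul Matrix.PosSemidef.one ?_
    have : (R.card : ℝ) ≤ k := by exact_mod_cast hk
    exact mul_nonneg (by linarith) (cs_nonneg s)
  have h3 := (h1.add h2).smul (a := (β / 2 : ℝ)) (by positivity)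
  have e : (β / 2 : ℝ) • (∑ p ∈ R, (((cs s : ℝ) : ℂ) • (1 : Op V s) + (ε : ℂ) • dot s p.1 p.2) +
      (((k : ℝ) - R.card) * cs s) • (1 : Op V s)) =
      ((β * (k / 2) * cs s : ℝ) : ℂ) • (1 : Op V s) +
      (ε : ℂ) • (((β / 2 : ℝ) : ℂ) • ∑ p ∈ R, dot s p.1 p.2) := by
    rw [Finset.sum_add_distrib, Finset.sum_const, ← Finset.smul_sum, ← Complex.coe_smul,
      ← Complex.coe_smul (((k : ℝ) - R.card) * cs s) (1 : Op V s), ← Nat.cast_smul_eq_nsmul ℂ]
    simp only [smul_add, smul_smul]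
    rw [add_right_comm, ← add_smul]
    congr 2
    · push_cast
      ring
    · ring
  rw [e] at h3
  exact h3

theorem pert (s : ℕ) (adj adj0 : V → V → Prop) (hne : ∀ x y, adj x y → x ≠ y)
    (hsub : ∀ x y, adj0 x y → adj x y) (R : Finset (V × V))
    (hR : ∀ x y, (x, y) ∈ R ↔ adj x y ∧ ¬ adj0 x y) (k : ℕ) (hk : R.card ≤ k)
    (β h : ℝ) (hβ : 0 < β) :
    |Real.log (part s adj β h) - Real.log (part s adj0 β h)| ≤ β * (k / 2) * cs s := by
  have hne0 : ∀ x y, adj0 x y → x ≠ y := fun x y h => hne x y (hsub x y h)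
  have hA := expo_herm s adj hne β h
  have hB := expo_herm s adj0 hne0 β h
  have hd := expo_diff s adj adj0 hsub R hR β h
  have hp := pert_psd s R (fun p hp => hne p.1 p.2 ((hR p.1 p.2).1 hp).1) k hk β hβ
  have pA := part_pos (s := s) adj hne β h
  have pB := part_pos (s := s) adj0 hne0 β h
  set C : ℝ := β * (k / 2) * cs s with hC
  have l1 : part s adj β h ≤ Real.exp C * part s adj0 β h := by
    refine trace_exp_le _ _ hA hB C ?_
    have h1 := hp (-1) (by norm_num)
    rw [← hd] at h1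
    have e : ((C : ℝ) : ℂ) • (1 : Op V s) + expo s adj0 β h - expo s adj β h =
        ((C : ℝ) : ℂ) • (1 : Op V s) + ((-1 : ℝ) : ℂ) • (expo s adj β h - expo s adj0 β h) := by
      push_cast
      rw [neg_one_smul]
      abel
    rw [e]
    exact h1
  have l2 : part s adj0 β h ≤ Real.exp C * part s adj β h := by
    refine trace_exp_le _ _ hB hA C ?_
    have h1 := hp 1 (by norm_num)
    rw [← hd] at h1
    have e : ((C : ℝ) : ℂ) • (1 : Op V s) + expo s adj β h - expo s adj0 β h =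
        ((C : ℝ) : ℂ) • (1 : Op V s) + ((1 : ℝ) : ℂ) • (expo s adj β h - expo s adj0 β h) := by
      push_cast
      rw [one_smul]
      abel
    rw [e]
    exact h1
  have m1 := Real.log_le_log pA l1
  have m2 := Real.log_le_log pB l2
  rw [Real.log_mul (Real.exp_pos C).ne' pB.ne', Real.log_exp] at m1
  rw [Real.log_mul (Real.exp_pos C).ne' pA.ne', Real.log_exp] at m2
  rw [abs_le]
  constructor <;> linarith

end

end Vale.Agent.P361.PL
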