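import Vale.Agent.P361.PL4

/-! P361, module PLIM, part 5: cutting a box. -/

namespace Vale.Agent.P361.PL

section
variable {W : Type} [Fintype W] [DecidableEq W]

/-- adjacency in a product of an interval with `W` -/
def lay (a : ℕ) {W : Type} (d : W → W → ℤ) (p q : Fin a × W) : Prop :=
  |((p.1 : ℕ) : ℤ) - ((q.1 : ℕ) : ℤ)| + d p.2 q.2 = 1

theorem lay_ne (a : ℕ) (d : W → W → ℤ) (hd : ∀ w w', d w w' = 0 ↔ w = w') (p q : Fin a × W)
    (h : lay a d p q) : p ≠ q := by
  rintro rfl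
  unfold lay at h
  rw [(hd p.2 p.2).2 rfl] at h
  simp at h

/-- glueing two intervals -/
def glue (a a' : ℕ) (W : Type) : (Fin a × W) ⊕ (Fin a' × W) ≃ Fin (a + a') × W :=
  (Equiv.sumProdDistrib (Fin a) (Fin a') W).symm.trans
    (Equiv.prodCongr finSumFinEquiv (Equiv.refl W))

theorem glue_inl (a a' : ℕ) (p : Fin a × W) :
    glue a a' W (Sum.inl p) = (Fin.castAdd a' p.1, p.2) := rfl

theorem glue_inr (a a' : ℕ) (p : Fin a' × W) :
    glue a a' W (Sum.inr p) = (Fin.natAdd a p.1, p.2) := rfl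

theorem cut (s a a' : ℕ) (d : W → W → ℤ) (h0 : ∀ w w', 0 ≤ d w w')
    (hd : ∀ w w', d w w' = 0 ↔ w = w') (β h : ℝ) (hβ : 0 < β) :
    |Real.log (part s (lay (a + a') d) β h) - Real.log (part s (lay a d) β h) -
      Real.log (part s (lay a' d) β h)| ≤ β * cs s * Fintype.card W := by
  classical
  set adj0 : Fin (a + a') × W → Fin (a + a') × W → Prop := fun p q =>
    lay (a + a') d p q ∧ ((p.1 : ℕ) < a ↔ (q.1 : ℕ) < a) with hadj0
  set R : Finset ((Fin (a + a') × W) × (Fin (a + a') × W)) :=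
    Finset.univ.filter (fun r => lay (a + a') d r.1 r.2 ∧ ¬ adj0 r.1 r.2) with hR
  have hRm : ∀ p q, (p, q) ∈ R ↔ lay (a + a') d p q ∧ ¬ adj0 p q := by
    intro p q
    rw [hR, Finset.mem_filter]
    simp
  have hspec : ∀ p q, (p, q) ∈ R → p.2 = q.2 ∧
      (((p.1 : ℕ) + 1 = a ∧ (q.1 : ℕ) = a) ∨ ((p.1 : ℕ) = a ∧ (q.1 : ℕ) + 1 = a)) := by
    intro p q hpq
    obtain ⟨h1, h2⟩ := (hRm p q).1 hpq
    have h3 : ¬ ((p.1 : ℕ) < a ↔ (q.1 : ℕ) < a) := fun hc => h2 ⟨h1, hc⟩
    unfold lay at h1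
    have h4 := h0 p.2 q.2
    have h5 : d p.2 q.2 = 0 := by
      rcases abs_cases (((p.1 : ℕ) : ℤ) - ((q.1 : ℕ) : ℤ)) with ⟨h6, _⟩ | ⟨h6, _⟩ <;> omega
    refine ⟨(hd _ _).1 h5, ?_⟩
    rcases abs_cases (((p.1 : ℕ) : ℤ) - ((q.1 : ℕ) : ℤ)) with ⟨h6, _⟩ | ⟨h6, _⟩ <;> omega
  have hcard : R.card ≤ 2 * Fintype.card W := by
    have h1 : R.card ≤ (Finset.univ : Finset (W × Bool)).card := by
      refine Finset.card_le_card_of_injOn (fun r => (r.1.2, decide ((r.1.1 : ℕ) < a)))
        (fun _ _ => Finset.mem_coe.2 (Finset.mem_univ _)) ?_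
      rintro ⟨p, q⟩ hpq ⟨p', q'⟩ hpq' heq
      obtain ⟨e1, e2⟩ := hspec p q hpq
      obtain ⟨e1', e2'⟩ := hspec p' q' hpq'
      simp only [Prod.mk.injEq, decide_eq_decide] at heq
      obtain ⟨f1, f2⟩ := heq
      have g1 : (p.1 : ℕ) = (p'.1 : ℕ) := by omega
      have g2 : (q.1 : ℕ) = (q'.1 : ℕ) := by omega
      have k1 : p = p' := Prod.ext (Fin.ext g1) f1
      have k2 : q = q' := Prod.ext (Fin.ext g2) (by rw [← e1, ← e1', f1])
      rw [k1, k2]
    calc R.card ≤ _ := h1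
      _ = 2 * Fintype.card W := by
        rw [Finset.card_univ, Fintype.card_prod, Fintype.card_bool, mul_comm]
  have hp := pert s (lay (a + a') d) adj0 (lay_ne _ d hd) (fun x y hxy => hxy.1) R hRm
    (2 * Fintype.card W) hcard β h hβ
  have hs : part s (Sum.LiftRel (lay a d) (lay a' d)) β h = part s adj0 β h := by
    refine part_congr (glue a a' W) _ _ ?_ ?_ β h
    · rintro x y hxy rfl
      rcases x with x | x
      · exact lay_ne a d hd x x (Sum.liftRel_inl_inl.1 hxy) rfl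
      · exact lay_ne a' d hd x x (Sum.liftRel_inr_inr.1 hxy) rfl
    · rintro (x | x) (y | y)
      · rw [Sum.liftRel_inl_inl, glue_inl, glue_inl]
        simp only [hadj0, lay, Fin.val_castAdd]
        have := x.1.2
        have := y.1.2
        tauto
      · rw [glue_inl, glue_inr]
        simp only [hadj0, lay, Fin.val_castAdd, Fin.val_natAdd, Sum.not_liftRel_inl_inr,
          false_iff, not_and]
        intro _ hc
        have := x.1.2
        omega
      · rw [glue_inl, glue_inr]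
        simp only [hadj0, lay, Fin.val_castAdd, Fin.val_natAdd, Sum.not_liftRel_inr_inl,
          false_iff, not_and]
        intro _ hc
        have := y.1.2
        omega
      · rw [Sum.liftRel_inr_inr, glue_inr, glue_inr]
        simp only [hadj0, lay, Fin.val_natAdd]
        push_cast
        have e : (a : ℤ) + ((x.1 : ℕ) : ℤ) - ((a : ℤ) + ((y.1 : ℕ) : ℤ)) =
          ((x.1 : ℕ) : ℤ) - ((y.1 : ℕ) : ℤ) := by ring
        rw [e]
        constructor
        · intro h1
          exact ⟨h1, by omega⟩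
        · intro h1
          exact h1.1
  rw [part_sum _ _ (lay_ne a d hd) (lay_ne a' d hd)] at hs
  rw [← hs, Real.log_mul (part_pos _ (lay_ne a d hd) β h).ne'
    (part_pos _ (lay_ne a' d hd) β h).ne'] at hp
  rw [sub_sub]
  refine hp.trans (le_of_eq ?_)
  push_cast
  ring

end

end Vale.Agent.P361.PL
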