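import Mathlib

/-! P361, module PLIM, part 6: almost additive functions of three integers. -/

open Filter Topology

namespace Vale.Agent.P361.PL

theorem add_iter (f : ℕ → ℝ) (D : ℝ) (h : ∀ a a', |f (a + a') - f a - f a'| ≤ D) (l r q : ℕ) :
    |f (q * l + r) - q * f l - f r| ≤ q * D := by
  induction q with
  | zero => simp
  | succ q ih =>
    have h1 := h l (q * l + r)
    have e : l + (q * l + r) = (q + 1) * l + r := by ring
    rw [e] at h1
    rw [abs_le] at h1 ih ⊢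
    push_cast
    constructor <;> nlinarith [h1.1, h1.2, ih.1, ih.2]

theorem add_bound (f : ℕ → ℝ) (D : ℝ) (h : ∀ a a', |f (a + a') - f a - f a'| ≤ D) (r : ℕ) :
    |f r| ≤ (r + 1) * (|f 1| + D) := by
  have h0 := h 0 0
  have h1 := add_iter f D h 1 0 r
  rw [mul_one, add_zero] at h1
  simp only [add_zero] at h0
  have h2 : |f 0| ≤ D := by
    rw [abs_le] at h0 ⊢
    constructor <;> linarith [h0.1, h0.2]
  have hD : 0 ≤ D := le_trans (abs_nonneg _) h2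
  have h3 := le_abs_self (f 1)
  have h4 := neg_abs_le (f 1)
  have hr : (0 : ℝ) ≤ r := Nat.cast_nonneg r
  rw [abs_le] at h1 h2 ⊢
  have h5 : (r : ℝ) * f 1 ≤ r * |f 1| := mul_le_mul_of_nonneg_left h3 hr
  have h6 : (r : ℝ) * (-|f 1|) ≤ r * f 1 := mul_le_mul_of_nonneg_left h4 hr
  have h7 := abs_nonneg (f 1)
  constructor <;> nlinarith [h1.1, h1.2, h2.1, h2.2]

theorem main_bound (P : ℕ → ℕ → ℕ → ℝ) (C : ℝ) (hC : 0 ≤ C)
    (A1 : ∀ a a' b c, |P (a + a') b c - P a b c - P a' b c| ≤ C * (b * c))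
    (A2 : ∀ a b b' c, |P a (b + b') c - P a b c - P a b' c| ≤ C * (a * c))
    (A3 : ∀ a b c c', |P a b (c + c') - P a b c - P a b c'| ≤ C * (a * b)) (M : ℝ)
    (hM : M = |P 1 1 1| + 3 * C) (a b c : ℕ) :
    |P a b c| ≤ M * ((a + 1) * (b + 1) * (c + 1)) := by
  have h1 := add_bound (fun c => P 1 1 c) (C * ((1 : ℕ) * (1 : ℕ))) (fun c c' => A3 1 1 c c') c
  have h2 := add_bound (fun b => P 1 b c) (C * ((1 : ℕ) * c)) (fun b b' => A2 1 b b' c) b
  have h3 := add_bound (fun a => P a b c) (C * (b * c)) (fun a a' => A1 a a' b c) a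
  have ha : (0 : ℝ) ≤ a := Nat.cast_nonneg a
  have hb : (0 : ℝ) ≤ b := Nat.cast_nonneg b
  have hc : (0 : ℝ) ≤ c := Nat.cast_nonneg c
  simp only [Nat.cast_one, mul_one, one_mul] at h1 h2 h3
  have hz := abs_nonneg (P 1 1 1)
  have h4 : |P 1 b c| ≤ (b + 1) * (c + 1) * (|P 1 1 1| + 2 * C) := by
    refine h2.trans ?_
    have : |P 1 1 c| + C * c ≤ (c + 1) * (|P 1 1 1| + 2 * C) := by nlinarith
    calc (b + 1 : ℝ) * (|P 1 1 c| + C * c) ≤ (b + 1) * ((c + 1) * (|P 1 1 1| + 2 * C)) :=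
          mul_le_mul_of_nonneg_left this (by positivity)
      _ = _ := by ring
  refine h3.trans ?_
  have h5 : |P 1 b c| + C * (b * c) ≤ (b + 1) * (c + 1) * (|P 1 1 1| + 3 * C) := by
    have : C * ((b : ℝ) * c) ≤ C * ((b + 1) * (c + 1)) :=
      mul_le_mul_of_nonneg_left (by nlinarith) hC
    nlinarith
  calc (a + 1 : ℝ) * (|P 1 b c| + C * (b * c))
      ≤ (a + 1) * ((b + 1) * (c + 1) * (|P 1 1 1| + 3 * C)) :=
        mul_le_mul_of_nonneg_left h5 (by positivity)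
    _ = _ := by rw [hM]; ring

theorem tot_lem (X Y Z p Q L N C M : ℝ) (hC : 0 ≤ C) (hM : 0 ≤ M) (hQ : 0 ≤ Q) (hL : 0 < L)
    (hN : 0 < N) (hQL : Q * L ≤ N)
    (u1 : |X - Q * Y| ≤ Q * (C * (N * N)) + 4 * M * L * N ^ 2)
    (u2 : |Y - Q * Z| ≤ Q * (C * (L * N)) + 4 * M * L ^ 2 * N)
    (u3 : |Z - Q * p| ≤ Q * (C * (L * L)) + 4 * M * L ^ 3) :
    L * |X - Q ^ 3 * p| ≤ 3 * C * N ^ 3 + 12 * M * L ^ 2 * N ^ 2 := by
  have hQ2 : Q * L * (Q * L) ≤ N * N := mul_le_mul hQL hQL (by positivity) hN.le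
  have hQ3 : Q * L * (Q * L) * (Q * L) ≤ N * N * N :=
    mul_le_mul hQ2 hQL (by positivity) (by positivity)
  have h1 : |X - Q ^ 3 * p| ≤ |X - Q * Y| + Q * |Y - Q * Z| + Q ^ 2 * |Z - Q * p| := by
    have e : X - Q ^ 3 * p = (X - Q * Y) + Q * (Y - Q * Z) + Q ^ 2 * (Z - Q * p) := by ring
    rw [e]
    refine (abs_add_le _ _).trans ?_
    refine add_le_add ((abs_add_le _ _).trans ?_) ?_
    · rw [abs_mul, abs_of_nonneg hQ]
    · rw [abs_mul, abs_of_nonneg (by positivity : (0 : ℝ) ≤ Q ^ 2)]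
  have h2 : |X - Q ^ 3 * p| ≤ (Q * (C * (N * N)) + 4 * M * L * N ^ 2) +
      Q * (Q * (C * (L * N)) + 4 * M * L ^ 2 * N) +
      Q ^ 2 * (Q * (C * (L * L)) + 4 * M * L ^ 3) := by
    refine h1.trans ?_
    have := mul_le_mul_of_nonneg_left u2 hQ
    have := mul_le_mul_of_nonneg_left u3 (by positivity : (0 : ℝ) ≤ Q ^ 2)
    linarith
  have h3 := mul_le_mul_of_nonneg_left h2 hL.le
  refine h3.trans ?_
  have g1 : L * (Q * (C * (N * N))) ≤ C * N ^ 3 := by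
    calc L * (Q * (C * (N * N))) = C * (N * N) * (Q * L) := by ring
      _ ≤ C * (N * N) * N := mul_le_mul_of_nonneg_left hQL (by positivity)
      _ = _ := by ring
  have g2 : L * (Q * (Q * (C * (L * N)))) ≤ C * N ^ 3 := by
    calc L * (Q * (Q * (C * (L * N)))) = C * N * (Q * L * (Q * L)) := by ring
      _ ≤ C * N * (N * N) := mul_le_mul_of_nonneg_left hQ2 (by positivity)
      _ = _ := by ring
  have g3 : L * (Q ^ 2 * (Q * (C * (L * L)))) ≤ C * N ^ 3 := by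
    calc L * (Q ^ 2 * (Q * (C * (L * L)))) = C * (Q * L * (Q * L) * (Q * L)) := by ring
      _ ≤ C * (N * N * N) := mul_le_mul_of_nonneg_left hQ3 hC
      _ = _ := by ring
  have g4 : L * (Q * (4 * M * L ^ 2 * N)) ≤ 4 * M * L ^ 2 * N ^ 2 := by
    calc L * (Q * (4 * M * L ^ 2 * N)) = 4 * M * L ^ 2 * N * (Q * L) := by ring
      _ ≤ 4 * M * L ^ 2 * N * N := mul_le_mul_of_nonneg_left hQL (by positivity)
      _ = _ := by ring
  have g5 : L * (Q ^ 2 * (4 * M * L ^ 3)) ≤ 4 * M * L ^ 2 * N ^ 2 := by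
    calc L * (Q ^ 2 * (4 * M * L ^ 3)) = 4 * M * L ^ 2 * (Q * L * (Q * L)) := by ring
      _ ≤ 4 * M * L ^ 2 * (N * N) := mul_le_mul_of_nonneg_left hQ2 (by positivity)
      _ = _ := by ring
  have g6 : L * (4 * M * L * N ^ 2) = 4 * M * L ^ 2 * N ^ 2 := by ring
  rw [mul_add, mul_add, mul_add, mul_add Q, mul_add (Q ^ 2), mul_add, mul_add, g6]
  linarith

theorem fin_lem (X p Q L N C M : ℝ) (hM : 0 ≤ M) (hQ : 0 ≤ Q) (hL : 0 < L)
    (hN : 0 < N) (hQL : Q * L ≤ N) (hr : N - Q * L ≤ L)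
    (tot : L * |X - Q ^ 3 * p| ≤ 3 * C * N ^ 3 + 12 * M * L ^ 2 * N ^ 2)
    (hp : |p| ≤ 8 * M * L ^ 3) :
    |X / N ^ 3 - p / L ^ 3| ≤ 3 * C / L + 36 * M * L / N := by
  have hcube : N ^ 3 - (Q * L) ^ 3 ≤ 3 * L * N ^ 2 := by
    have h2 : N ^ 3 - (Q * L) ^ 3 = (N - Q * L) * (N * N + N * (Q * L) + Q * L * (Q * L)) := by
      ring
    have h3 : N * (Q * L) ≤ N * N := mul_le_mul_of_nonneg_left hQL hN.le
    have h4 : 0 ≤ N - Q * L := by linarith
    have h5 : Q * L * (Q * L) ≤ N * N := mul_le_mul hQL hQL (by positivity) hN.le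
    rw [h2]
    calc (N - Q * L) * (N * N + N * (Q * L) + Q * L * (Q * L))
        ≤ (N - Q * L) * (3 * N ^ 2) := mul_le_mul_of_nonneg_left (by nlinarith) h4
      _ ≤ L * (3 * N ^ 2) := mul_le_mul_of_nonneg_right hr (by positivity)
      _ = _ := by ring
  have hcube0 : 0 ≤ N ^ 3 - (Q * L) ^ 3 := by
    have h5 : (Q * L) ^ 3 ≤ N ^ 3 := pow_le_pow_left₀ (by positivity) hQL 3
    linarith
  have e1 : X / N ^ 3 - p / L ^ 3 =
      (X - Q ^ 3 * p) / N ^ 3 - (N ^ 3 - (Q * L) ^ 3) * p / (L ^ 3 * N ^ 3) := by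
    field_simp
    ring
  have e2 : |(X - Q ^ 3 * p) / N ^ 3| ≤ 3 * C / L + 12 * M * L / N := by
    rw [abs_div, abs_of_pos (by positivity : (0 : ℝ) < N ^ 3), div_le_iff₀ (by positivity)]
    have e3 : (3 * C / L + 12 * M * L / N) * N ^ 3 =
        (3 * C * N ^ 3 + 12 * M * L ^ 2 * N ^ 2) / L := by
      field_simp
    rw [e3, le_div_iff₀ hL, mul_comm]
    exact tot
  have e4 : |(N ^ 3 - (Q * L) ^ 3) * p / (L ^ 3 * N ^ 3)| ≤ 24 * M * L / N := by
    rw [abs_div, abs_mul, abs_of_nonneg hcube0,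
      abs_of_pos (by positivity : (0 : ℝ) < L ^ 3 * N ^ 3), div_le_iff₀ (by positivity)]
    have e3 : 24 * M * L / N * (L ^ 3 * N ^ 3) = (3 * L * N ^ 2) * (8 * M * L ^ 3) := by
      field_simp
      ring
    rw [e3]
    exact mul_le_mul hcube hp (abs_nonneg _) (by positivity)
  rw [e1]
  refine (abs_sub _ _).trans ?_
  have e5 : 36 * M * L / N = 12 * M * L / N + 24 * M * L / N := by ring
  rw [e5]
  linarith

/-- comparison of two sizes -/
theorem compare (P : ℕ → ℕ → ℕ → ℝ) (C : ℝ) (hC : 0 ≤ C)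
    (A1 : ∀ a a' b c, |P (a + a') b c - P a b c - P a' b c| ≤ C * (b * c))
    (A2 : ∀ a b b' c, |P a (b + b') c - P a b c - P a b' c| ≤ C * (a * c))
    (A3 : ∀ a b c c', |P a b (c + c') - P a b c - P a b c'| ≤ C * (a * b)) (M : ℝ)
    (hM : M = |P 1 1 1| + 3 * C) (l n : ℕ) (hl : 1 ≤ l) (hn : 1 ≤ n) :
    |P n n n / (n : ℝ) ^ 3 - P l l l / (l : ℝ) ^ 3| ≤ 3 * C / l + 36 * M * l / n := by
  obtain ⟨q, r, hr, rfl⟩ : ∃ q r, r < l ∧ n = q * l + r :=
    ⟨n / l, n % l, Nat.mod_lt _ hl, by rw [Nat.mul_comm]; exact (Nat.div_add_mod n l).symm⟩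
  have hb := main_bound P C hC A1 A2 A3 M hM
  set n : ℕ := q * l + r with hnd
  have s1 := add_iter (fun a => P a n n) (C * (n * n)) (fun a a' => A1 a a' n n) l r q
  have s2 := add_iter (fun b => P l b n) (C * (l * n)) (fun b b' => A2 l b b' n) l r q
  have s3 := add_iter (fun c => P l l c) (C * (l * l)) (fun c c' => A3 l l c c') l r q
  simp only [← hnd] at s1 s2 s3
  have t1 := hb r n n
  have t2 := hb l r n
  have t3 := hb l l r
  have hl' : (1 : ℝ) ≤ l := by exact_mod_cast hl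
  have hn' : (1 : ℝ) ≤ n := by exact_mod_cast hn
  have hr' : (r : ℝ) + 1 ≤ l := by exact_mod_cast hr
  have hr0 : (0 : ℝ) ≤ r := Nat.cast_nonneg r
  have hq0 : (0 : ℝ) ≤ q := Nat.cast_nonneg q
  have hnq : (n : ℝ) = q * l + r := by rw [hnd]; push_cast; ring
  have hM0 : 0 ≤ M := by rw [hM]; positivity
  have hQL : (q : ℝ) * l ≤ n := by rw [hnq]; linarith
  have u1 : |P n n n - q * P l n n| ≤ q * (C * (n * n)) + 4 * M * l * n ^ 2 := by
    have e1 : M * ((r + 1) * (n + 1) * (n + 1)) ≤ 4 * M * l * n ^ 2 := by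
      have : ((r : ℝ) + 1) * (n + 1) * (n + 1) ≤ l * (2 * n) * (2 * n) := by
        gcongr <;> linarith
      calc M * ((r + 1) * (n + 1) * (n + 1)) ≤ M * (l * (2 * n) * (2 * n)) :=
            mul_le_mul_of_nonneg_left this hM0
        _ = _ := by ring
    have e2 := t1.trans e1
    rw [abs_le] at s1 e2 ⊢
    constructor <;> linarith [s1.1, s1.2, e2.1, e2.2]
  have u2 : |P l n n - q * P l l n| ≤ q * (C * (l * n)) + 4 * M * l ^ 2 * n := by
    have e1 : M * ((l + 1) * (r + 1) * (n + 1)) ≤ 4 * M * l ^ 2 * n := by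
      have : ((l : ℝ) + 1) * (r + 1) * (n + 1) ≤ (2 * l) * l * (2 * n) := by
        gcongr <;> linarith
      calc M * ((l + 1) * (r + 1) * (n + 1)) ≤ M * ((2 * l) * l * (2 * n)) :=
            mul_le_mul_of_nonneg_left this hM0
        _ = _ := by ring
    have e2 := t2.trans e1
    rw [abs_le] at s2 e2 ⊢
    constructor <;> linarith [s2.1, s2.2, e2.1, e2.2]
  have u3 : |P l l n - q * P l l l| ≤ q * (C * (l * l)) + 4 * M * l ^ 3 := by
    have e1 : M * ((l + 1) * (l + 1) * (r + 1)) ≤ 4 * M * l ^ 3 := by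
      have : ((l : ℝ) + 1) * (l + 1) * (r + 1) ≤ (2 * l) * (2 * l) * l := by
        gcongr <;> linarith
      calc M * ((l + 1) * (l + 1) * (r + 1)) ≤ M * ((2 * l) * (2 * l) * l) :=
            mul_le_mul_of_nonneg_left this hM0
        _ = _ := by ring
    have e2 := t3.trans e1
    rw [abs_le] at s3 e2 ⊢
    constructor <;> linarith [s3.1, s3.2, e2.1, e2.2]
  have tot := tot_lem _ _ _ _ (q : ℝ) l n C M hC hM0 hq0 (by linarith) (by linarith) hQL u1 u2 u3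
  have hp : |P l l l| ≤ 8 * M * (l : ℝ) ^ 3 := by
    have h1 := hb l l l
    have h2 : ((l : ℝ) + 1) * (l + 1) * (l + 1) ≤ (2 * l) * (2 * l) * (2 * l) := by
      gcongr <;> linarith
    calc |P l l l| ≤ M * (((l : ℝ) + 1) * (l + 1) * (l + 1)) := h1
      _ ≤ M * ((2 * l) * (2 * l) * (2 * l)) := mul_le_mul_of_nonneg_left h2 hM0
      _ = _ := by ring
  exact fin_lem _ _ (q : ℝ) l n C M hM0 hq0 (by linarith) (by linarith) hQL
    (by rw [hnq]; linarith) tot hp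

theorem lim3 (P : ℕ → ℕ → ℕ → ℝ) (C : ℝ) (hC : 0 ≤ C)
    (A1 : ∀ a a' b c, |P (a + a') b c - P a b c - P a' b c| ≤ C * (b * c))
    (A2 : ∀ a b b' c, |P a (b + b') c - P a b c - P a b' c| ≤ C * (a * c))
    (A3 : ∀ a b c c', |P a b (c + c') - P a b c - P a b c'| ≤ C * (a * b)) :
    ∃ L : ℝ, Tendsto (fun n : ℕ => P n n n / (n : ℝ) ^ 3) atTop (𝓝 L) := by
  set M : ℝ := |P 1 1 1| + 3 * C with hM
  have hM0 : 0 ≤ M := by positivity
  apply cauchySeq_tendsto_of_complete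
  rw [Metric.cauchySeq_iff']
  intro ε hε
  obtain ⟨l, hl⟩ := exists_nat_gt (12 * C / ε)
  set l1 : ℕ := l + 1 with hl1
  have hl1' : 12 * C / ε < (l1 : ℝ) := by
    rw [hl1]
    push_cast
    linarith
  have hlpos : (0 : ℝ) < l1 := by rw [hl1]; positivity
  have h1 : 3 * C / l1 < ε / 4 + ε / 100 := by
    rw [div_lt_iff₀ hε] at hl1'
    rw [div_lt_iff₀ hlpos]
    nlinarith [mul_pos hε hlpos]
  obtain ⟨N0, hN0⟩ := exists_nat_gt (1000 * M * l1 / ε)
  set N1 : ℕ := N0 + 1 with hN1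
  have key : ∀ n : ℕ, N1 ≤ n → |P n n n / (n : ℝ) ^ 3 - P l1 l1 l1 / (l1 : ℝ) ^ 3| < ε / 2 := by
    intro n hn
    have hn1 : 1 ≤ n := by omega
    have hnpos : (0 : ℝ) < n := by exact_mod_cast hn1
    have h2 := compare P C hC A1 A2 A3 M hM l1 n (by omega) hn1
    have h3 : 36 * M * l1 / n ≤ ε / 10 := by
      have h4 : 1000 * M * l1 / ε < n := by
        have : (N1 : ℝ) ≤ n := by exact_mod_cast hn
        have h5 : (N1 : ℝ) = N0 + 1 := by rw [hN1]; push_cast; ring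
        linarith
      rw [div_lt_iff₀ hε] at h4
      rw [div_le_iff₀ hnpos]
      nlinarith [mul_nonneg hM0 hlpos.le]
    linarith
  refine ⟨N1, fun n hn => ?_⟩
  have a1 := key n hn
  have a2 := key N1 le_rfl
  rw [Real.dist_eq]
  rw [abs_lt] at a1 a2 ⊢
  constructor <;> linarith [a1.1, a1.2, a2.1, a2.2]

end Vale.Agent.P361.PL
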