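import Vale.Agent.P361.PL5
import Vale.Agent.P361.PL6

/-! P361, module PLIM: existence of the pressure. -/

open Filter Topology

namespace Vale.Agent.P361.PL

/-- distance in the last two coordinates -/
def d2 (b c : ℕ) (w w' : Fin b × Fin c) : ℤ :=
  |((w.1 : ℕ) : ℤ) - ((w'.1 : ℕ) : ℤ)| + |((w.2 : ℕ) : ℤ) - ((w'.2 : ℕ) : ℤ)|

theorem d2_nonneg (b c : ℕ) (w w' : Fin b × Fin c) : 0 ≤ d2 b c w w' := by
  unfold d2
  positivity

theorem d2_zero (b c : ℕ) (w w' : Fin b × Fin c) : d2 b c w w' = 0 ↔ w = w' := by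
  unfold d2
  constructor
  · intro h
    have h1 := abs_nonneg (((w.1 : ℕ) : ℤ) - ((w'.1 : ℕ) : ℤ))
    have h2 := abs_nonneg (((w.2 : ℕ) : ℤ) - ((w'.2 : ℕ) : ℤ))
    have h3 : |((w.1 : ℕ) : ℤ) - ((w'.1 : ℕ) : ℤ)| = 0 := by omega
    have h4 : |((w.2 : ℕ) : ℤ) - ((w'.2 : ℕ) : ℤ)| = 0 := by omega
    rw [abs_eq_zero] at h3 h4
    exact Prod.ext (Fin.ext (by omega)) (Fin.ext (by omega))
  · rintro rfl
    simp

/-- logarithm of the partition function of a box -/
noncomputable def LP (s : ℕ) (β h : ℝ) (a b c : ℕ) : ℝ :=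
  Real.log (part s (lay a (d2 b c)) β h)

theorem LP_cut (s : ℕ) (β h : ℝ) (hβ : 0 < β) (a a' b c : ℕ) :
    |LP s β h (a + a') b c - LP s β h a b c - LP s β h a' b c| ≤ β * cs s * (b * c) := by
  have := cut s a a' (d2 b c) (d2_nonneg b c) (d2_zero b c) β h hβ
  rw [Fintype.card_prod, Fintype.card_fin, Fintype.card_fin] at this
  push_cast at this
  exact this

/-- exchange of the first two coordinates -/
def sw1 (a b c : ℕ) : Fin a × (Fin b × Fin c) ≃ Fin b × (Fin a × Fin c) where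
  toFun p := (p.2.1, (p.1, p.2.2))
  invFun p := (p.2.1, (p.1, p.2.2))
  left_inv _ := rfl
  right_inv _ := rfl

/-- exchange of the first and the last coordinate -/
def sw2 (a b c : ℕ) : Fin a × (Fin b × Fin c) ≃ Fin c × (Fin b × Fin a) where
  toFun p := (p.2.2, (p.2.1, p.1))
  invFun p := (p.2.2, (p.2.1, p.1))
  left_inv _ := rfl
  right_inv _ := rfl

theorem LP_sw1 (s : ℕ) (β h : ℝ) (a b c : ℕ) : LP s β h a b c = LP s β h b a c := by
  unfold LP
  rw [part_congr (sw1 a b c) (lay a (d2 b c)) (lay b (d2 a c))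
    (lay_ne a (d2 b c) (d2_zero b c)) ?_ β h]
  intro x y
  unfold lay d2 sw1
  simp only [Equiv.coe_fn_mk]
  constructor <;> intro h1 <;> linarith

theorem LP_sw2 (s : ℕ) (β h : ℝ) (a b c : ℕ) : LP s β h a b c = LP s β h c b a := by
  unfold LP
  rw [part_congr (sw2 a b c) (lay a (d2 b c)) (lay c (d2 b a))
    (lay_ne a (d2 b c) (d2_zero b c)) ?_ β h]
  intro x y
  unfold lay d2 sw2
  simp only [Equiv.coe_fn_mk]
  constructor <;> intro h1 <;> linarith

/-- coordinates on the box -/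
def boxE (N : ℕ) : Box N ≃ Fin (2 * N + 1) × (Fin (2 * N + 1) × Fin (2 * N + 1)) where
  toFun x :=
    (⟨((x : Fin 3 → ℤ) 0 + N).toNat, by
        have h1 := (Finset.mem_Icc.1 x.2).1 0
        have h2 := (Finset.mem_Icc.1 x.2).2 0
        simp only at h1 h2
        omega⟩,
      (⟨((x : Fin 3 → ℤ) 1 + N).toNat, by
        have h1 := (Finset.mem_Icc.1 x.2).1 1
        have h2 := (Finset.mem_Icc.1 x.2).2 1
        simp only at h1 h2
        omega⟩,
      ⟨((x : Fin 3 → ℤ) 2 + N).toNat, by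
        have h1 := (Finset.mem_Icc.1 x.2).1 2
        have h2 := (Finset.mem_Icc.1 x.2).2 2
        simp only at h1 h2
        omega⟩))
  invFun p := ⟨![((p.1 : ℕ) : ℤ) - N, ((p.2.1 : ℕ) : ℤ) - N, ((p.2.2 : ℕ) : ℤ) - N], by
    have h1 := p.1.2
    have h2 := p.2.1.2
    have h3 := p.2.2.2
    rw [Finset.mem_Icc]
    constructor
    · intro i
      fin_cases i
      · simp
      · simp
      · simp
    · intro i
      fin_cases i
      · simp only [Fin.zero_eta, Matrix.cons_val_zero]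
        omega
      · simp only [Fin.mk_one, Matrix.cons_val_one, Matrix.cons_val_zero]
        omega
      · simp only [Fin.reduceFinMk, Matrix.cons_val]
        omega⟩
  left_inv x := by
    have a1 := (Finset.mem_Icc.1 x.2).1 0
    have a2 := (Finset.mem_Icc.1 x.2).1 1
    have a3 := (Finset.mem_Icc.1 x.2).1 2
    simp only at a1 a2 a3
    apply Subtype.ext
    funext i
    fin_cases i
    · simp only [Fin.zero_eta, Matrix.cons_val_zero]
      omega
    · simp only [Fin.mk_one, Matrix.cons_val_one, Matrix.cons_val_zero]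
      omega
    · simp only [Fin.reduceFinMk, Matrix.cons_val]
      omega
  right_inv p := by
    refine Prod.ext (Fin.ext ?_) (Prod.ext (Fin.ext ?_) (Fin.ext ?_))
    · simp
    · simp
    · simp

theorem boxE_nn (N : ℕ) (x y : Box N) :
    nn x y ↔ lay (2 * N + 1) (d2 (2 * N + 1) (2 * N + 1)) (boxE N x) (boxE N y) := by
  have h : ∀ z : Box N, (((boxE N z).1 : ℕ) : ℤ) = (z : Fin 3 → ℤ) 0 + N ∧
      (((boxE N z).2.1 : ℕ) : ℤ) = (z : Fin 3 → ℤ) 1 + N ∧
      (((boxE N z).2.2 : ℕ) : ℤ) = (z : Fin 3 → ℤ) 2 + N := by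
    intro z
    have a1 := (Finset.mem_Icc.1 z.2).1 0
    have a2 := (Finset.mem_Icc.1 z.2).1 1
    have a3 := (Finset.mem_Icc.1 z.2).1 2
    simp only at a1 a2 a3
    unfold boxE
    simp only [Equiv.coe_fn_mk]
    refine ⟨?_, ?_, ?_⟩ <;> omega
  obtain ⟨x1, x2, x3⟩ := h x
  obtain ⟨y1, y2, y3⟩ := h y
  unfold nn lay d2
  rw [Fin.sum_univ_three, x1, x2, x3, y1, y2, y3]
  have e1 : (x : Fin 3 → ℤ) 0 + (N : ℤ) - ((y : Fin 3 → ℤ) 0 + N) =
    (x : Fin 3 → ℤ) 0 - (y : Fin 3 → ℤ) 0 := by ring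
  have e2 : (x : Fin 3 → ℤ) 1 + (N : ℤ) - ((y : Fin 3 → ℤ) 1 + N) =
    (x : Fin 3 → ℤ) 1 - (y : Fin 3 → ℤ) 1 := by ring
  have e3 : (x : Fin 3 → ℤ) 2 + (N : ℤ) - ((y : Fin 3 → ℤ) 2 + N) =
    (x : Fin 3 → ℤ) 2 - (y : Fin 3 → ℤ) 2 := by ring
  rw [e1, e2, e3]
  constructor <;> intro h1 <;> linarith

theorem pN_eq (s N : ℕ) (β h : ℝ) : pN s N β h =
    1 / β * (LP s β h (2 * N + 1) (2 * N + 1) (2 * N + 1) / ((2 * N + 1 : ℕ) : ℝ) ^ 3) := by
  have hne : ∀ x y : Box N, nn x y → x ≠ y := by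
    rintro x y hxy rfl
    unfold nn at hxy
    simp at hxy
  have h1 : part s (nn (N := N)) β h =
      part s (lay (2 * N + 1) (d2 (2 * N + 1) (2 * N + 1))) β h :=
    part_congr (boxE N) _ _ hne (boxE_nn N) β h
  have h2 : (Fintype.card (Box N) : ℝ) = ((2 * N + 1 : ℕ) : ℝ) ^ 3 := by
    rw [Fintype.card_congr (boxE N), Fintype.card_prod, Fintype.card_prod, Fintype.card_fin]
    push_cast
    ring
  unfold pN LP
  rw [h1, h2]
  rw [div_mul_div_comm, one_mul]

theorem plim_proof : PLIM := by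
  intro s β h hβ
  have hC : 0 ≤ β * cs s := mul_nonneg hβ.le (cs_nonneg s)
  obtain ⟨L, hL⟩ := lim3 (LP s β h) (β * cs s) hC (fun a a' b c => LP_cut s β h hβ a a' b c)
    (fun a b b' c => by
      rw [LP_sw1 s β h a (b + b') c, LP_sw1 s β h a b c, LP_sw1 s β h a b' c]
      exact LP_cut s β h hβ b b' a c)
    (fun a b c c' => by
      rw [LP_sw2 s β h a b (c + c'), LP_sw2 s β h a b c, LP_sw2 s β h a b c']
      have := LP_cut s β h hβ c c' b a
      rwa [mul_comm (b : ℝ) (a : ℝ)] at this)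
  refine ⟨1 / β * L, ?_⟩
  have h1 : Tendsto (fun N : ℕ => 2 * N + 1) atTop atTop := by
    refine tendsto_atTop_mono (fun N => ?_) tendsto_id
    simp only [id]
    omega
  have h2 := (hL.comp h1).const_mul (1 / β)
  refine h2.congr fun N => ?_
  exact (pN_eq s N β h).symm

end Vale.Agent.P361.PL
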