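import Vale.Agent.P361.Mods

open scoped Matrix ComplexOrder
open Filter Topology

namespace Vale.Agent.P361.Sy

set_option backward.isDefEq.respectTransparency false in
open scoped Matrix.Norms.Operator in
theorem exp_submatrix {n : Type} [Fintype n] [DecidableEq n] (e : n ≃ n) (A : Matrix n n ℂ) :
    NormedSpace.exp (A.submatrix e e) = (NormedSpace.exp A).submatrix e e := by
  have hc : Continuous (Matrix.reindexAlgEquiv ℂ ℂ e.symm : Matrix n n ℂ → Matrix n n ℂ) := by
    have : (Matrix.reindexAlgEquiv ℂ ℂ e.symm : Matrix n n ℂ → Matrix n n ℂ) =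
        fun A => A.submatrix e e := by
      funext A
      simp
    rw [this]
    exact continuous_id.matrix_submatrix e e
  have h1 := NormedSpace.map_exp (Matrix.reindexAlgEquiv ℂ ℂ e.symm) hc A
  have h2 : ∀ B : Matrix n n ℂ, (Matrix.reindexAlgEquiv ℂ ℂ e.symm : Matrix n n ℂ → Matrix n n ℂ) B =
      B.submatrix e e := by
    intro B
    simp
  rw [h2, h2] at h1
  exact h1.symm

theorem trace_submatrix {n : Type} [Fintype n] (e : n ≃ n) (A : Matrix n n ℂ) :
    Matrix.trace (A.submatrix e e) = Matrix.trace A := by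
  unfold Matrix.trace
  simp only [Matrix.diag_apply, Matrix.submatrix_apply]
  exact Equiv.sum_comp e fun i => A i i

/-- Flip of all spins. -/
def flip (V : Type) (s : ℕ) : (V → Fin (s + 1)) ≃ (V → Fin (s + 1)) :=
  Equiv.arrowCongr (Equiv.refl V) Fin.revPerm

theorem flip_apply (V : Type) (s : ℕ) (σ : V → Fin (s + 1)) (x : V) :
    flip V s σ x = Fin.rev (σ x) := rfl

theorem onSite_flip {V : Type} (s : ℕ) (x : V) (A : LOp s) :
    (onSite x A).submatrix (flip V s) (flip V s) = onSite x (A.submatrix Fin.rev Fin.rev) := by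
  ext σ τ
  rw [Matrix.submatrix_apply]
  unfold onSite
  have h1 : (∀ y, y ≠ x → flip V s σ y = flip V s τ y) ↔ ∀ y, y ≠ x → σ y = τ y := by
    constructor
    · intro h y hy
      have := h y hy
      rw [flip_apply, flip_apply] at this
      exact Fin.rev_injective this
    · intro h y hy
      rw [flip_apply, flip_apply, h y hy]
  by_cases h2 : ∀ y, y ≠ x → σ y = τ y
  · rw [if_pos (h1.mpr h2), if_pos h2]
    rfl
  · rw [if_neg (fun h3 => h2 (h1.mp h3)), if_neg h2]

theorem sPlus_rev (s : ℕ) : (sPlus s).submatrix Fin.rev Fin.rev = (sPlus s)ᴴ := by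
  ext a b
  rw [Matrix.submatrix_apply, Matrix.conjTranspose_apply]
  unfold sPlus
  have ha := a.isLt
  have hb := b.isLt
  rw [Fin.val_rev, Fin.val_rev]
  by_cases h : (b : ℕ) = (a : ℕ) + 1
  · have h1 : s + 1 - ((a : ℕ) + 1) = s + 1 - ((b : ℕ) + 1) + 1 := by omega
    rw [if_pos h1, if_pos h]
    have h2 : ((s + 1 - ((b : ℕ) + 1) : ℕ) : ℝ) = (s : ℝ) - (b : ℕ) := by
      rw [Nat.cast_sub (by omega)]
      push_cast
      ring
    have h3 : ((b : ℕ) : ℝ) = (a : ℕ) + 1 := by rw [h]; push_cast; ring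
    rw [h2, h3]
    have h4 : ((s : ℝ) - ((a : ℕ) + 1) + 1) * ((s : ℝ) - ((s : ℝ) - ((a : ℕ) + 1))) =
        (((a : ℕ) : ℝ) + 1) * ((s : ℝ) - (a : ℕ)) := by ring
    rw [h4]
    exact (Complex.conj_ofReal _).symm
  · have h1 : ¬ (s + 1 - ((a : ℕ) + 1) = s + 1 - ((b : ℕ) + 1) + 1) := by omega
    rw [if_neg h1, if_neg h]
    simp

theorem sPlusH_rev (s : ℕ) : ((sPlus s)ᴴ).submatrix Fin.rev Fin.rev = sPlus s := by
  rw [← sPlus_rev, Matrix.submatrix_submatrix]
  have : (Fin.rev ∘ Fin.rev : Fin (s + 1) → Fin (s + 1)) = id := by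
    funext a
    simp
  rw [this, Matrix.submatrix_id_id]

theorem s1_rev (s : ℕ) : (s1 s).submatrix Fin.rev Fin.rev = s1 s := by
  unfold s1
  rw [Matrix.submatrix_smul, Pi.smul_apply, Pi.smul_apply, Matrix.submatrix_add, Pi.add_apply,
    Pi.add_apply, sPlus_rev, sPlusH_rev, add_comm (sPlus s)ᴴ]

theorem s2_rev (s : ℕ) : (s2 s).submatrix Fin.rev Fin.rev = -s2 s := by
  unfold s2
  rw [Matrix.submatrix_smul, Pi.smul_apply, Pi.smul_apply, Matrix.submatrix_sub, Pi.sub_apply,
    Pi.sub_apply, sPlus_rev, sPlusH_rev, ← smul_neg, neg_sub]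

theorem s3_rev (s : ℕ) : (s3 s).submatrix Fin.rev Fin.rev = -s3 s := by
  unfold s3
  rw [Matrix.submatrix_diagonal _ _ Fin.rev_injective, Matrix.diagonal_neg]
  congr 1
  funext a
  have ha := a.isLt
  simp only [Function.comp_apply, Fin.val_rev]
  rw [Nat.cast_sub (by omega)]
  push_cast
  ring

section
variable {V : Type} [Fintype V] [DecidableEq V]

theorem dot_flip (s : ℕ) (x y : V) (hneg : ∀ (x : V) (A : LOp s), onSite x (-A) = -onSite x A) :
    (dot s x y).submatrix (flip V s) (flip V s) = dot s x y := by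
  unfold dot
  have hmul : ∀ A B : Op V s, (A * B).submatrix (flip V s) (flip V s) =
      A.submatrix (flip V s) (flip V s) * B.submatrix (flip V s) (flip V s) := fun A B =>
    (Matrix.submatrix_mul_equiv A B (flip V s) (flip V s) (flip V s)).symm
  rw [Matrix.submatrix_add, Pi.add_apply, Pi.add_apply, Matrix.submatrix_add, Pi.add_apply,
    Pi.add_apply, hmul, hmul, hmul, onSite_flip, onSite_flip, onSite_flip, onSite_flip,
    onSite_flip, onSite_flip, s1_rev, s2_rev, s3_rev, hneg, hneg, hneg, hneg, neg_mul_neg,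
    neg_mul_neg]

theorem ham_flip (s : ℕ) (adj : V → V → Prop)
    (hneg : ∀ (x : V) (A : LOp s), onSite x (-A) = -onSite x A) :
    (ham s adj).submatrix (flip V s) (flip V s) = ham s adj := by
  have h1 : ∀ x y : V, ((dot s x y).submatrix (flip V s) (flip V s)) = dot s x y :=
    fun x y => dot_flip s x y hneg
  unfold ham
  ext σ τ
  simp only [Matrix.submatrix_apply, Matrix.neg_apply, Matrix.smul_apply, Matrix.sum_apply]
  congr 3
  funext x
  congr 1
  funext y
  split_ifs
  · have := congrFun (congrFun (h1 x y) σ) τ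
    exact this
  · rfl

theorem mag_flip (s : ℕ) (hneg : ∀ (x : V) (A : LOp s), onSite x (-A) = -onSite x A) :
    (mag V s).submatrix (flip V s) (flip V s) = -mag V s := by
  have h1 : ∀ x : V, (onSite x (s3 s)).submatrix (flip V s) (flip V s) = -onSite x (s3 s) := by
    intro x
    rw [onSite_flip, s3_rev, hneg]
  unfold mag
  ext σ τ
  simp only [Matrix.submatrix_apply, Matrix.neg_apply, Matrix.sum_apply]
  rw [← Finset.sum_neg_distrib]
  apply Finset.sum_congr rfl
  intro x _
  exact congrFun (congrFun (h1 x) σ) τ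

/-- The partition function is even in the field. -/
theorem part_even (hSite : SITE) (s : ℕ) (adj : V → V → Prop) (β h : ℝ) :
    part s adj β (-h) = part s adj β h := by
  have hneg : ∀ (x : V) (A : LOp s), onSite x (-A) = -onSite x A := by
    intro x A
    have := (hSite V s).2.2.1 x (-1) A
    simpa using this
  unfold part gibbs
  have h1 : -((β : ℂ) • (ham s adj - ((-h : ℝ) : ℂ) • mag V s)) =
      (-((β : ℂ) • (ham s adj - (h : ℂ) • mag V s))).submatrix (flip V s) (flip V s) := by
    rw [Matrix.submatrix_neg, Pi.neg_apply, Pi.neg_apply, Matrix.submatrix_smul, Pi.smul_apply,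
      Pi.smul_apply, Matrix.submatrix_sub, Pi.sub_apply, Pi.sub_apply, Matrix.submatrix_smul,
      Pi.smul_apply, Pi.smul_apply, ham_flip s adj hneg, mag_flip s hneg]
    push_cast
    rw [neg_smul, smul_neg]
  rw [h1, exp_submatrix, trace_submatrix]

end

/-- The finite-volume pressure is even in the field. -/
theorem pN_even (hSite : SITE) (s N : ℕ) (β h : ℝ) : pN s N β (-h) = pN s N β h := by
  unfold pN
  rw [part_even hSite]

/-- The spontaneous magnetization is nonnegative. -/
theorem mS_nonneg (hSite : SITE) (s : ℕ) (β : ℝ)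
    (hconv : ConvexOn ℝ Set.univ (pressure s β)) : 0 ≤ mS s β := by
  have heven : ∀ h : ℝ, pressure s β (-h) = pressure s β h := by
    intro h
    unfold pressure
    congr 1
    funext N
    exact pN_even hSite s N β h
  have hmin : ∀ h : ℝ, pressure s β 0 ≤ pressure s β h := by
    intro h
    have h1 := hconv.2 (Set.mem_univ h) (Set.mem_univ (-h)) (by norm_num : (0 : ℝ) ≤ 1 / 2)
      (by norm_num : (0 : ℝ) ≤ 1 / 2) (by norm_num)
    have h2 : (1 / 2 : ℝ) • h + (1 / 2 : ℝ) • (-h) = 0 := by
      simp only [smul_eq_mul]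
      ring
    rw [h2, heven] at h1
    simp only [smul_eq_mul] at h1
    linarith
  have hd := (hconv.differentiableWithinAt_Ioi_of_mem_interior
    (x := 0) (by simp)).hasDerivWithinAt
  have hd2 : Tendsto (slope (pressure s β) 0) (𝓝[>] 0) (𝓝 (mS s β)) :=
    (hasDerivWithinAt_iff_tendsto_slope' Set.self_notMem_Ioi).mp hd
  refine ge_of_tendsto hd2 ?_
  filter_upwards [self_mem_nhdsWithin] with h hh
  rw [slope_def_field, sub_zero]
  exact div_nonneg (by linarith [hmin h]) (le_of_lt hh)

end Vale.Agent.P361.Sy
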